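import Vale.Agent.P078.Normal
import Vale.Agent.P078.Cartan.OperatorPaving

/-!
From finite algebras to semifinite algebras: paving on the part carried by projections of finite
trace in the MASA, and the trivial bound on the rest.
-/

namespace Vale.Agent.P078

open scoped InnerProductSpace ComplexOrder ENNReal
open Filter Topology ContinuousLinearMap

variable {H : Type} [NormedAddCommGroup H] [InnerProductSpace ℂ H] [CompleteSpace H]
variable {M : VonNeumannAlgebra H} {A : StarSubalgebra ℂ (H →L[ℂ] H)}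

/-- A faithful normal semifinite trace, written as a sum of vector states. -/
def HasSemifiniteTrace (M : VonNeumannAlgebra H) : Prop :=
  ∃ (ι : Type) (η : ι → H),
    (∀ x ∈ M, traceSq η x = traceSq η (star x)) ∧
    (∀ x ∈ M, traceSq η x = 0 → x = 0) ∧
    ∀ (F : Finset H) (δ : ℝ), 0 < δ → ∃ q ∈ M, IsStarProjection q ∧ traceSq η q < ⊤ ∧
      ∀ v ∈ F, ‖(1 - q) v‖ < δ

theorem traceSq_sum_lt_top {ι : Type} {η : ι → H} (s : Finset (H →L[ℂ] H))
    (hp : ∀ q ∈ s, IsStarProjection q) (ho : ∀ q ∈ s, ∀ q' ∈ s, q ≠ q' → q * q' = 0)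
    (ht : ∀ q ∈ s, traceSq η q < ⊤) : traceSq η (∑ q ∈ s, q) < ⊤ := by
  refine lt_of_le_of_lt (le_of_eq ?_) (ENNReal.sum_lt_top.2 ht)
  unfold traceSq
  rw [← Summable.tsum_finsetSum fun j _ => ENNReal.summable]
  refine tsum_congr fun i => ?_
  rw [sum_apply, norm_sq_sum_orth s (fun q => q) hp ho (fun _ => η i),
    ENNReal.ofReal_sum_of_nonneg fun j _ => sq_nonneg _]

/-- The corner at a projection of finite trace has a faithful finite trace. -/
theorem hasFiniteTrace_corner {ι : Type} {η : ι → H}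
    (htr : ∀ x ∈ M, traceSq η x = traceSq η (star x))
    (hfa : ∀ x ∈ M, traceSq η x = 0 → x = 0)
    (U : Submodule ℂ H) [U.HasOrthogonalProjection] [CompleteSpace U]
    (hU : U.starProjection ∈ M) (hfin : traceSq η U.starProjection < ⊤) :
    Cartan.HasFiniteTrace (cornerVN U M hU) := by
  have hval : ∀ (y : U →L[ℂ] U) i,
      ‖y (U.orthogonalProjectionOnto (η i))‖ ^ 2 = ‖ext0 U y (η i)‖ ^ 2 := fun y i => rfl
  have hsum : Summable fun i => ‖U.orthogonalProjectionOnto (η i)‖ ^ 2 := by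
    refine (ENNReal.summable_toReal (f := fun i => ENNReal.ofReal (‖U.starProjection (η i)‖ ^ 2))
      hfin.ne).congr fun i => ?_
    rw [ENNReal.toReal_ofReal (sq_nonneg _)]
    rfl
  have hsy : ∀ y : U →L[ℂ] U,
      Summable fun i => ‖y (U.orthogonalProjectionOnto (η i))‖ ^ 2 := fun y => by
    refine Summable.of_nonneg_of_le (fun i => sq_nonneg _) (fun i => ?_)
      (hsum.mul_left (‖y‖ ^ 2))
    rw [← mul_pow]
    exact pow_le_pow_left₀ (norm_nonneg _) (y.le_opNorm _) 2
  have htsq : ∀ y : U →L[ℂ] U,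
      ENNReal.ofReal (∑' i, ‖y (U.orthogonalProjectionOnto (η i))‖ ^ 2) = traceSq η (ext0 U y) :=
    fun y => ENNReal.ofReal_tsum_of_nonneg (fun i => sq_nonneg _) (hsy y)
  refine ⟨ι, fun i => U.orthogonalProjectionOnto (η i), hsum, fun y hy => ?_, fun y hy h0 => ?_⟩
  · refine (ENNReal.ofReal_eq_ofReal_iff (tsum_nonneg fun i => sq_nonneg _)
      (tsum_nonneg fun i => sq_nonneg _)).1 ?_
    rw [htsq, htsq, ext0_star]
    exact htr _ hy
  · refine ext0_injective U ((hfa _ hy ?_).trans (ext0_zero U).symm)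
    rw [← htsq]
    simp [h0]

/-- The projections of finite trace in `A` exhaust the part of `A` where normal central
functionals separate. -/
theorem exists_finite_approx {ι : Type} {η : ι → H} (hA : IsMasa M A)
    (htr : ∀ x ∈ M, traceSq η x = traceSq η (star x))
    (hsf : ∀ (F : Finset H) (δ : ℝ), 0 < δ → ∃ q ∈ M, IsStarProjection q ∧ traceSq η q < ⊤ ∧
      ∀ v ∈ F, ‖(1 - q) v‖ < δ)
    {f : H →L[ℂ] H} (hfA : f ∈ A) (hfp : IsStarProjection f)
    (hsep : ∀ g ∈ A, IsStarProjection g → g ≠ 0 → g * f = 0 →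
      ∃ ψ, IsNormalCentral M A ψ ∧ ψ g ≠ 0)
    (F : Finset H) {δ : ℝ} (hδ : 0 < δ) :
    ∃ e ∈ A, IsStarProjection e ∧ (1 - f) * e = e ∧ traceSq η e < ⊤ ∧
      ∀ v ∈ F, ‖(1 - f - e) v‖ < δ := by
  classical
  obtain ⟨S, hSg, hSo, hSmax⟩ := exists_maximal_orth (fun e : H →L[ℂ] H =>
    e ∈ A ∧ IsStarProjection e ∧ (1 - f) * e = e ∧ e ≠ 0 ∧ traceSq η e < ⊤)
  obtain ⟨G, hGp, hqG, hGM, hGcomm, hGle, hGapp⟩ :=
    exists_sup_proj S (fun q hq => (hSg q hq).2.1) hSo
  have hGM' : G ∈ M := hGM M fun q hq => hA.le q (hSg q hq).1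
  have hGA : G ∈ A := hA.mem_of_commute hGM' fun a ha =>
    (hGcomm a (fun q hq => hA.comm q (hSg q hq).1 a ha)
      (fun q hq => hA.comm q (hSg q hq).1 (star a) (star_mem ha))).eq
  have hfA' : 1 - f ∈ A := sub_mem (one_mem A) hfA
  have hGf : (1 - f) * G = G := hGle _ fun q hq => (hSg q hq).2.2.1
  have hG : G = 1 - f := by
    by_contra hne
    set g := 1 - f - G with hg
    have hgA : g ∈ A := sub_mem hfA' hGA
    have hgp : IsStarProjection g :=
      hGp.sub_of_mul_eq_left hfp.one_sub (by rw [hA.comm G hGA _ hfA', hGf])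
    have hg0 : g ≠ 0 := fun h => hne (sub_eq_zero.1 h).symm
    have hgf : g * f = 0 := by
      rw [hg, sub_mul, hfp.one_sub_mul_self, ← hGf, hA.comm _ hfA' _ hGA, mul_assoc,
        hfp.one_sub_mul_self, mul_zero, sub_zero]
    obtain ⟨ψ, hψ, hψg⟩ := hsep g hgA hgp hg0 hgf
    obtain ⟨e, heA, hep, he0, hge, het⟩ := exists_finite_below hA htr hsf hψ hgA hgp hψg
    have h1g : (1 - f) * g = g := by
      rw [hg, mul_sub, hfp.one_sub.isIdempotentElem.eq, hGf]
    have hGg : G * g = 0 := by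
      rw [hg, mul_sub, hA.comm G hGA _ hfA', hGf, hGp.isIdempotentElem.eq, sub_self]
    have horth : ∀ q ∈ S, q * e = 0 := fun q hq => by
      rw [← hge, ← hqG q hq, mul_assoc, ← mul_assoc G, hGg, zero_mul, mul_zero]
    have hmem := hSmax e ⟨heA, hep, by rw [← hge, ← mul_assoc, h1g], he0, het⟩ fun q hq =>
      ⟨by rw [hA.comm e heA q (hSg q hq).1]; exact horth q hq, horth q hq⟩
    have h2 := horth e hmem
    rw [hep.isIdempotentElem.eq] at h2
    exact he0 h2
  obtain ⟨s, hs, hsG, hsp, hsd⟩ := hGapp F δ hδ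
  have hsA : ∑ q ∈ s, q ∈ A := sum_mem fun q hq => (hSg q (hs q hq)).1
  refine ⟨_, hsA, hsp, ?_, traceSq_sum_lt_top s (fun q hq => (hSg q (hs q hq)).2.1)
    (fun q hq q' hq' => hSo q (hs q hq) q' (hs q' hq')) (fun q hq => (hSg q (hs q hq)).2.2.2.2),
    fun v hv => ?_⟩
  · rw [← hA.comm _ hsA _ hfA', ← hG, hsG]
  · rw [← hG]; exact hsd v hv

/-- Paving of all MASAs of finite algebras gives paving of all MASAs of semifinite algebras, at the
cost of `⌊1/ε⌋₊ + 1` pieces. -/
theorem allSoPavable_of_finite {ε : ℝ} (hε : 0 < ε) {r : ℕ} (hr : 0 < r)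
    (hyp : ∀ (K : Type) [NormedAddCommGroup K] [InnerProductSpace ℂ K] [CompleteSpace K]
      (N : VonNeumannAlgebra K) (B : StarSubalgebra ℂ (K →L[ℂ] K)),
      IsMasa N B → Cartan.HasFiniteTrace N → AllSoPavable N B ε r)
    (hA : IsMasa M A) (hM : HasSemifiniteTrace M) :
    AllSoPavable M A ε (r + (⌊1 / ε⌋₊ + 1)) := by
  classical
  obtain ⟨ι, η, htr, hfa, hsf⟩ := hM
  intro x hx hxs F δ hδ
  obtain ⟨f, hfA, hfp, hnull, hsepa⟩ := exists_null_part hA
  obtain ⟨p₂, hp₂A, hp₂p, hp₂o, hp₂s, a₂, ha₂, ha₂s, ha₂n, ha₂f, q₂, hq₂M, hq₂p, hq₂f, hq₂d,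
      hq₂n⟩ :=
    pave_below hA hfA hfp (smallCompression_of_null hA hfA hfp hnull) hx hxs (floor_lt ε hε)
      (Nat.succ_ne_zero _) F (show 0 < δ / 2 by linarith)
  obtain ⟨e, heA, hep, hfe, het, hed⟩ :=
    exists_finite_approx hA htr hsf hfA hfp hsepa F (show 0 < δ / 4 by linarith)
  obtain ⟨U, hUp, hUe⟩ := isStarProjection_iff_eq_starProjection.1 hep
  subst hUe
  have : CompleteSpace U := by
    have hcl : IsClosed (U : Set H) := by
      have : (U : Set H) = {v | U.starProjection v = v} := by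
        ext v; exact Submodule.starProjection_eq_self_iff.symm
      rw [this]
      exact isClosed_eq U.starProjection.continuous continuous_id
    exact hcl.completeSpace_coe
  have heM : U.starProjection ∈ M := hA.le _ heA
  have hyM : comp0 U x ∈ cornerVN U M heM := by
    rw [mem_cornerVN, ext0_comp0]; exact mul_mem (mul_mem heM hx) heM
  have hys : IsSelfAdjoint (comp0 U x) := by
    refine ext0_injective U ?_
    rw [ext0_star, ext0_comp0, star_mul, star_mul, hep.isSelfAdjoint.star_eq, hxs.star_eq,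
      mul_assoc]
  obtain ⟨p, hp, a, ha, has, han, q, hqM, hqp, hqd, hqn⟩ :=
    hyp U _ _ (corner_isMasa U heA heM hA) (hasFiniteTrace_corner htr hfa U heM het) _ hyM hys
      (F.image U.orthogonalProjectionOnto) (δ / 4) (by linarith)
  have hproj : ∀ {y : U →L[ℂ] U}, IsStarProjection y → IsStarProjection (ext0 U y) := by
    intro y hy
    refine ⟨?_, ?_⟩
    · show ext0 U y * ext0 U y = ext0 U y
      rw [← ext0_mul, hy.isIdempotentElem.eq]
    · rw [IsSelfAdjoint, ← ext0_star, hy.isSelfAdjoint.star_eq]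
  have hJe : ∀ y : U →L[ℂ] U, U.starProjection * ext0 U y = ext0 U y ∧
      ext0 U y * U.starProjection = ext0 U y := fun y => by
    rw [← ext0_one, ← ext0_mul, ← ext0_mul, one_mul, mul_one]; exact ⟨rfl, rfl⟩
  -- the rest of the separating part goes to the first piece
  set w := 1 - f - U.starProjection with hw
  have hwA : w ∈ A := sub_mem (sub_mem (one_mem A) hfA) heA
  have hfe' : U.starProjection * (1 - f) = U.starProjection := by
    rw [hA.comm _ heA _ (sub_mem (one_mem A) hfA), hfe]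
  have hwp : IsStarProjection w := hep.sub_of_mul_eq_left hfp.one_sub hfe'
  have hwe : U.starProjection * w = 0 := by
    rw [hw, mul_sub, hfe', hep.isIdempotentElem.eq, sub_self]
  have hwJ : ∀ y : U →L[ℂ] U, ext0 U y * w = 0 := fun y => by
    rw [← (hJe y).2, mul_assoc, hwe, mul_zero]
  have hew : ∀ i, w * ext0 U (p i) = 0 := fun i => by
    rw [hA.comm _ hwA _ (hp.mem i), hwJ]
  let P₁ : Fin r → (H →L[ℂ] H) := fun i => ext0 U (p i) + if i = ⟨0, hr⟩ then w else 0
  have hP₁A : ∀ i, P₁ i ∈ A := fun i => add_mem (hp.mem i) (by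
    split_ifs
    · exact hwA
    · exact zero_mem A)
  have hP₁p : ∀ i, IsStarProjection (P₁ i) := fun i => by
    simp only [P₁]
    split_ifs
    · exact (hproj (hp.proj i)).add hwp (hwJ _)
    · rw [add_zero]; exact hproj (hp.proj i)
  have hP₁o : ∀ i j, i ≠ j → P₁ i * P₁ j = 0 := fun i j hij => by
    have h0 : ext0 U (p i) * ext0 U (p j) = 0 := by rw [← ext0_mul, hp.orth i j hij, ext0_zero]
    simp only [P₁]
    split_ifs with h1 h2
    · exact absurd (h1.trans h2.symm) hij
    all_goals simp [add_mul, mul_add, h0, hwJ, hew]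
  have hP₁s : ∑ i, P₁ i = 1 - f := by
    simp only [P₁, Finset.sum_add_distrib, Finset.sum_ite_eq', Finset.mem_univ, if_true,
      ← ext0_sum, hp.sum_eq, ext0_one]
    rw [hw, add_sub_cancel]
  have hqe : ext0 U q * (1 - f) = ext0 U q := by
    rw [← (hJe q).2, mul_assoc, hfe']
  have hqw : ext0 U q * w = 0 := hwJ q
  have hJd : ∀ v ∈ F, ‖(1 - f - ext0 U q) v‖ < δ / 2 := by
    intro v hv
    rw [show 1 - f - ext0 U q = (1 - f - U.starProjection) + (U.starProjection - ext0 U q) by abel,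
      add_apply]
    refine lt_of_le_of_lt (norm_add_le _ _) ?_
    have h1 := hed v hv
    have h2 : ‖(U.starProjection - ext0 U q) v‖ < δ / 4 := by
      rw [← ext0_one, ← ext0_sub, ext0_apply]
      exact hqd _ (Finset.mem_image_of_mem _ hv)
    linarith
  have hJn : ‖ext0 U q * (pinching P₁ x - ext0 U a) * ext0 U q‖ ≤ ε * ‖x‖ := by
    have e : ext0 U q * (pinching P₁ x - ext0 U a) * ext0 U q =
        ext0 U (q * (pinching p (comp0 U x) - a) * q) := by
      rw [ext0_mul, ext0_mul, ext0_sub, mul_sub, mul_sub, sub_mul, sub_mul]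
      refine congrArg (· - _) ?_
      simp only [pinching, ext0_sum, Finset.mul_sum, Finset.sum_mul]
      refine Finset.sum_congr rfl fun i _ => ?_
      have hq1 : ext0 U q * P₁ i = ext0 U q * ext0 U (p i) := by
        simp only [P₁]
        split_ifs <;> simp [mul_add, hqw]
      have hq2 : P₁ i * ext0 U q = ext0 U (p i) * ext0 U q := by
        have hwq : w * ext0 U q = 0 := by
          rw [← (hJe q).1, ← mul_assoc, hA.comm w hwA _ heA, hwe, zero_mul]
        simp only [P₁]
        split_ifs <;> simp [add_mul, hwq]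
      rw [ext0_mul, ext0_mul, ext0_comp0]
      calc ext0 U q * (P₁ i * x * P₁ i) * ext0 U q
          = (ext0 U q * P₁ i) * x * (P₁ i * ext0 U q) := by simp only [mul_assoc]
        _ = ext0 U q * (ext0 U (p i) * x * ext0 U (p i)) * ext0 U q := by
          rw [hq1, hq2]; simp only [mul_assoc]
        _ = ext0 U q * (ext0 U (p i) * (U.starProjection * x * U.starProjection) *
              ext0 U (p i)) * ext0 U q := by
          rw [show ext0 U (p i) * (U.starProjection * x * U.starProjection) * ext0 U (p i) =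
            (ext0 U (p i) * U.starProjection) * x * (U.starProjection * ext0 U (p i)) by
            simp only [mul_assoc], (hJe _).1, (hJe _).2]
    rw [e]
    exact le_trans (norm_ext0_le U _) (le_trans hqn
      (mul_le_mul_of_nonneg_left (norm_comp0_le U x) hε.le))
  exact pave_split hA hε.le F hfp.one_sub hfp hfp.one_sub_mul_self (sub_add_cancel 1 f)
    hP₁A hP₁p hP₁o hP₁s hp₂A hp₂p hp₂o hp₂s ha (by rw [IsSelfAdjoint, ← ext0_star, has.star_eq])
    (le_trans (norm_ext0_le U a) (le_trans han (norm_comp0_le U x)))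
    (by rw [← (hJe a).1, ← mul_assoc, hfe]) ha₂ ha₂s ha₂n ha₂f hqM (hproj hqp) hqe hJd hJn
    hq₂M hq₂p hq₂f hq₂d hq₂n

/-- More pieces do no harm. -/
theorem AllSoPavable.mono {ε : ℝ} {r R : ℕ} (h : AllSoPavable M A ε r) (hrR : r ≤ R) :
    AllSoPavable M A ε R := by
  obtain ⟨k, rfl⟩ := Nat.exists_eq_add_of_le hrR
  intro x hx hxs F δ hδ
  obtain ⟨p, hpp, a, ha, has, han, q, hq, hqp, hqd, hqn⟩ := h x hx hxs F δ hδ
  refine ⟨Fin.append p (fun _ : Fin k => 0), ⟨fun i => ?_, fun i => ?_, fun i j hij => ?_, ?_⟩,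
    a, ha, has, han, q, hq, hqp, hqd, ?_⟩
  · refine Fin.addCases (fun l => ?_) (fun l => ?_) i
    · rw [Fin.append_left]; exact hpp.mem l
    · rw [Fin.append_right]; exact zero_mem _
  · refine Fin.addCases (fun l => ?_) (fun l => ?_) i
    · rw [Fin.append_left]; exact hpp.proj l
    · rw [Fin.append_right]; exact .zero _
  · revert hij
    refine Fin.addCases (fun l => ?_) (fun l => ?_) i <;>
      refine Fin.addCases (fun m => ?_) (fun m => ?_) j <;> intro hij <;>
      simp only [Fin.append_left, Fin.append_right, mul_zero, zero_mul]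
    exact hpp.orth l m fun h => hij (h ▸ rfl)
  · rw [Fin.sum_univ_add]
    simp only [Fin.append_left, Fin.append_right, Finset.sum_const_zero, add_zero, hpp.sum_eq]
  · have e : pinching (Fin.append p (fun _ : Fin k => (0 : H →L[ℂ] H))) x = pinching p x := by
      unfold pinching
      rw [Fin.sum_univ_add]
      simp only [Fin.append_left, Fin.append_right, zero_mul, Finset.sum_const_zero, add_zero]
    rw [e]; exact hqn

/-- The quadratic bound passes from finite to semifinite algebras. -/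
theorem quadratic_semifinite_of_finite {C : ℝ}
    (hyp : ∀ (K : Type) [NormedAddCommGroup K] [InnerProductSpace ℂ K] [CompleteSpace K]
      (N : VonNeumannAlgebra K) (B : StarSubalgebra ℂ (K →L[ℂ] K)),
      IsMasa N B → Cartan.HasFiniteTrace N → ∀ ε : ℝ, 0 < ε → ε < 1 →
        ∃ r : ℕ, (r : ℝ) ≤ C / ε ^ 2 ∧ AllSoPavable N B ε r)
    (hA : IsMasa M A) (hM : HasSemifiniteTrace M) {ε : ℝ} (hε : 0 < ε) (hε1 : ε < 1) :
    ∃ r : ℕ, (r : ℝ) ≤ (|C| + 4) / ε ^ 2 ∧ AllSoPavable M A ε r := by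
  refine ⟨(⌈C / ε ^ 2⌉₊ + 1) + (⌊1 / ε⌋₊ + 1), ?_, allSoPavable_of_finite hε (Nat.succ_pos _)
    (fun K _ _ _ N B hB hN => ?_) hA hM⟩
  · have h1 : (⌈C / ε ^ 2⌉₊ : ℝ) ≤ |C| / ε ^ 2 + 1 := by
      refine (Nat.cast_le.2 (Nat.ceil_le_ceil
        (div_le_div_of_nonneg_right (le_abs_self C) (sq_nonneg ε)))).trans ?_
      exact (Nat.ceil_lt_add_one (by positivity)).le
    have h2 : (⌊1 / ε⌋₊ : ℝ) ≤ 1 / ε := Nat.floor_le (by positivity)
    have h3 : 1 / ε ≤ 1 / ε ^ 2 := by
      rw [div_le_div_iff₀ hε (by positivity)]; nlinarith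
    have h4 : 1 ≤ 1 / ε ^ 2 := by
      rw [le_div_iff₀ (by positivity)]; nlinarith
    have h5 : (|C| + 4) / ε ^ 2 = |C| / ε ^ 2 + 4 * (1 / ε ^ 2) := by ring
    push_cast
    linarith
  · obtain ⟨r, hr, hp⟩ := hyp K N B hB hN ε hε hε1
    refine hp.mono ((Nat.cast_le (α := ℝ)).1 ?_)
    push_cast
    linarith [Nat.le_ceil (C / ε ^ 2)]

end Vale.Agent.P078
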