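import Vale.Agent.P078.Closure

/-!
Algebras in which semifinite subalgebras containing the MASA are strongly dense: clamping gives
norm-bounded approximation, and separating normal central functionals make it uniform on the unit
ball of the MASA.
-/

namespace Vale.Agent.P078

open scoped InnerProductSpace ComplexOrder ENNReal
open Filter Topology ContinuousLinearMap

variable {H : Type} [NormedAddCommGroup H] [InnerProductSpace ℂ H] [CompleteSpace H]
variable {M : VonNeumannAlgebra H} {A : StarSubalgebra ℂ (H →L[ℂ] H)}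

/-- The semifinite subalgebras containing `A` are strongly dense in the self-adjoint part of
`M`. -/
def HasDenseSemifinite (M : VonNeumannAlgebra H) (A : StarSubalgebra ℂ (H →L[ℂ] H)) : Prop :=
  ∀ x ∈ M, IsSelfAdjoint x → ∀ (F : Finset H) (δ : ℝ), 0 < δ →
    ∃ N : VonNeumannAlgebra H, (∀ z ∈ N, z ∈ M) ∧ (∀ a ∈ A, a ∈ N) ∧ HasSemifiniteTrace N ∧
      ∃ b ∈ N, IsSelfAdjoint b ∧ ∀ ξ ∈ F, ‖(x - b) ξ‖ < δ

/-- A semifinite algebra is dense in itself. -/
theorem hasDenseSemifinite_self (hA : IsMasa M A) (hM : HasSemifiniteTrace M) :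
    HasDenseSemifinite M A := fun x hx hxs _ δ hδ =>
  ⟨M, fun _ hz => hz, hA.le, hM, x, hx, hxs, fun ξ _ => by simpa using hδ⟩

/-- The map `t ↦ 2 t / (1 + t ^ 2)`. -/
noncomputable def clampMap (t : ℝ) : ℝ := 2 * t / (1 + t ^ 2)

theorem continuous_clampMap : Continuous clampMap :=
  (continuous_const.mul continuous_id).div (continuous_const.add (continuous_pow 2))
    fun t => by positivity

theorem abs_clampMap_le (t : ℝ) : |clampMap t| ≤ 1 := by
  rw [clampMap, abs_div, abs_of_pos (by positivity : (0 : ℝ) < 1 + t ^ 2),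
    div_le_one (by positivity), abs_mul, abs_two]
  nlinarith [sq_abs t, sq_nonneg (|t| - 1)]

/-- Strong continuity of the clamp. -/
theorem exists_clamp_near {x : H →L[ℂ] H} (hxs : IsSelfAdjoint x) (hx1 : ‖x‖ ≤ 1) :
    ∃ x₀ R : H →L[ℂ] H, IsSelfAdjoint x₀ ∧ (∀ N : VonNeumannAlgebra H, x ∈ N → x₀ ∈ N) ∧
      ∀ b : H →L[ℂ] H, IsSelfAdjoint b → ∀ ξ,
        ‖(x - cfc clampMap b) ξ‖ ≤ 2 * ‖(b - x₀) (R ξ)‖ + ‖(b - x₀) (x ξ)‖ := by
  obtain ⟨g, hg⟩ : ∃ g : ℝ → ℝ, g = fun t => t / (1 + Real.sqrt (1 - t ^ 2)) := ⟨_, rfl⟩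
  have hgc : Continuous g := by
    rw [hg]
    exact continuous_id.div (continuous_const.add (Real.continuous_sqrt.comp
      (continuous_const.sub (continuous_pow 2)))) fun t => by positivity
  have hfc := continuous_clampMap
  obtain ⟨x₀, hx₀⟩ : ∃ x₀ : H →L[ℂ] H, x₀ = cfc g x := ⟨_, rfl⟩
  have hx₀s : IsSelfAdjoint x₀ := hx₀ ▸ cfc_predicate g x
  have hfx : cfc clampMap x₀ = x := by
    rw [hx₀, ← cfc_comp clampMap g x]
    conv_rhs => rw [← cfc_id' ℝ x hxs]
    refine cfc_congr fun t ht => ?_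
    have h1 := norm_apply_le_norm_cfc (fun s : ℝ => s) x ht
    rw [cfc_id' ℝ x, Real.norm_eq_abs] at h1
    obtain ⟨ha, hb⟩ := abs_le.1 (h1.trans hx1)
    obtain ⟨w, hw⟩ : ∃ w : ℝ, w = Real.sqrt (1 - t ^ 2) := ⟨_, rfl⟩
    have hw0 : 0 ≤ w := hw ▸ Real.sqrt_nonneg _
    have hw2 : w ^ 2 = 1 - t ^ 2 := hw ▸ Real.sq_sqrt (by nlinarith)
    simp only [Function.comp_apply, hg, clampMap, ← hw]
    have e : t ^ 2 = 1 - w ^ 2 := by linarith
    field_simp
    rw [e]
    ring
  obtain ⟨S, hS⟩ : ∃ S : ℝ → ℝ, S = fun t => (1 + t ^ 2)⁻¹ := ⟨_, rfl⟩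
  have hSc : Continuous S := by
    rw [hS]
    exact (continuous_const.add (continuous_pow 2) :
      Continuous fun t : ℝ => 1 + t ^ 2).inv₀ fun t => (by positivity : (0 : ℝ) < 1 + t ^ 2).ne'
  refine ⟨x₀, cfc S x₀, hx₀s, fun N hN => hx₀ ▸ vn_cfc_mem hN _, fun b hbs ξ => ?_⟩
  -- the functional calculus facts
  have hinv : ∀ y : H →L[ℂ] H, IsSelfAdjoint y →
      (1 + y * y) * cfc S y = 1 ∧ cfc S y * (1 + y * y) = 1 ∧
        cfc clampMap y = (2 : ℝ) • (cfc S y * y) ∧ cfc clampMap y = (2 : ℝ) • (y * cfc S y) := by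
    intro y hy
    have h1 : 1 + y * y = cfc (fun t : ℝ => 1 + t * t) y := by
      rw [cfc_const_add (1 : ℝ) (fun t => t * t) y, cfc_mul (fun t : ℝ => t) (fun t => t) y,
        cfc_id' ℝ y, map_one]
    refine ⟨?_, ?_, ?_, ?_⟩
    · rw [h1, ← cfc_mul _ S y, ← cfc_const_one ℝ y]
      refine cfc_congr fun t _ => ?_
      simp only [hS]
      field_simp
    · rw [h1, ← cfc_mul S _ y, ← cfc_const_one ℝ y]
      refine cfc_congr fun t _ => ?_
      simp only [hS]
      field_simp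
    · conv_rhs => arg 2; arg 2; rw [← cfc_id' ℝ y hy]
      rw [← cfc_mul S _ y, ← cfc_smul (2 : ℝ) _ y]
      refine cfc_congr fun t _ => ?_
      simp only [hS, clampMap, smul_eq_mul]
      field_simp
    · conv_rhs => arg 2; arg 1; rw [← cfc_id' ℝ y hy]
      rw [← cfc_mul _ S y, ← cfc_smul (2 : ℝ) _ y]
      refine cfc_congr fun t _ => ?_
      simp only [hS, clampMap, smul_eq_mul]
      field_simp
  obtain ⟨b1, b2, b3, -⟩ := hinv b hbs
  obtain ⟨c1, c2, c3, c4⟩ := hinv x₀ hx₀s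
  rw [hfx] at c3 c4
  obtain ⟨B, hB⟩ : ∃ B : H →L[ℂ] H, B = cfc S b := ⟨_, rfl⟩
  obtain ⟨C, hC⟩ : ∃ C : H →L[ℂ] H, C = cfc S x₀ := ⟨_, rfl⟩
  rw [← hB] at b1 b2 b3
  rw [← hC] at c1 c2 c3 c4 ⊢
  have key : cfc clampMap b - x
      = (2 : ℝ) • (B * (b - x₀) * C) - (2 : ℝ) • (B * b * (b - x₀) * (x₀ * C)) := by
    calc cfc clampMap b - x = (2 : ℝ) • (B * b * 1) - (2 : ℝ) • (1 * (x₀ * C)) := by
          rw [b3, c4, mul_one, one_mul]
      _ = (2 : ℝ) • (B * b * ((1 + x₀ * x₀) * C)) - (2 : ℝ) • (B * (1 + b * b) * (x₀ * C)) := by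
          rw [c1, b2]
      _ = _ := by
          rw [← smul_sub, ← smul_sub]
          congr 1
          noncomm_ring
  have hB1 : ‖B‖ ≤ 1 := hB ▸ norm_cfc_le zero_le_one fun t _ => by
    simp only [hS, Real.norm_eq_abs, abs_inv]
    rw [abs_of_pos (by positivity : (0 : ℝ) < 1 + t ^ 2)]
    exact inv_le_one_of_one_le₀ (by nlinarith)
  have hBb : ‖B * b‖ ≤ 1 := by
    have e : B * b = cfc (fun t => S t * t) b := by
      rw [hB, cfc_mul S (fun t : ℝ => t) b, cfc_id' ℝ b hbs]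
    rw [e]
    refine norm_cfc_le zero_le_one fun t _ => ?_
    simp only [hS, Real.norm_eq_abs, abs_mul, abs_inv]
    rw [abs_of_pos (by positivity : (0 : ℝ) < 1 + t ^ 2), inv_mul_le_iff₀ (by positivity), mul_one]
    nlinarith [sq_abs t, sq_nonneg (|t| - 1)]
  have hx₀C : ∀ v, (2 : ℝ) • (x₀ * C) v = x v := fun v => by rw [← smul_apply, ← c4]
  have e : (x - cfc clampMap b) ξ
      = (B * b) ((b - x₀) (x ξ)) - (2 : ℝ) • B ((b - x₀) (C ξ)) := by
    rw [← neg_sub, key, neg_sub, ← hx₀C ξ]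
    simp only [sub_apply, smul_apply, mul_apply', map_sub, map_smul, ← Complex.coe_smul]
  rw [e]
  refine (norm_sub_le _ _).trans ?_
  have h1 : ‖(B * b) ((b - x₀) (x ξ))‖ ≤ ‖(b - x₀) (x ξ)‖ :=
    ((B * b).le_opNorm _).trans (mul_le_of_le_one_left (norm_nonneg _) hBb)
  have h2 : ‖(2 : ℝ) • B ((b - x₀) (C ξ))‖ ≤ 2 * ‖(b - x₀) (C ξ)‖ := by
    rw [norm_smul, Real.norm_two]
    exact mul_le_mul_of_nonneg_left ((B.le_opNorm _).trans
      (mul_le_of_le_one_left (norm_nonneg _) hB1)) zero_le_two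
  linarith

/-- Strong density gives density of the ball of radius `‖x‖`. -/
theorem exists_bounded_near (hd : HasDenseSemifinite M A) {x : H →L[ℂ] H} (hx : x ∈ M)
    (hxs : IsSelfAdjoint x) (F : Finset H) {δ : ℝ} (hδ : 0 < δ) :
    ∃ N : VonNeumannAlgebra H, (∀ z ∈ N, z ∈ M) ∧ (∀ a ∈ A, a ∈ N) ∧ HasSemifiniteTrace N ∧
      ∃ y ∈ N, IsSelfAdjoint y ∧ ‖y‖ ≤ ‖x‖ ∧ ∀ ξ ∈ F, ‖(x - y) ξ‖ < δ := by
  classical
  rcases eq_or_ne x 0 with hx0 | hx0
  · obtain ⟨N, hNM, hAN, hN, -⟩ := hd x hx hxs F δ hδ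
    exact ⟨N, hNM, hAN, hN, 0, zero_mem N, IsSelfAdjoint.zero _, by simp,
      fun ξ _ => by simpa [hx0] using hδ⟩
  have hm : 0 < ‖x‖ := norm_pos_iff.2 hx0
  obtain ⟨u, hu⟩ : ∃ u : H →L[ℂ] H, u = ((‖x‖⁻¹ : ℝ) : ℂ) • x := ⟨_, rfl⟩
  have hus : IsSelfAdjoint u := by
    rw [hu, IsSelfAdjoint, star_smul, hxs.star_eq, RCLike.star_def, Complex.conj_ofReal]
  have hu1 : ‖u‖ ≤ 1 := by
    rw [hu, norm_smul, Complex.norm_real, Real.norm_of_nonneg (by positivity),
      inv_mul_cancel₀ hm.ne']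
  obtain ⟨x₀, R, hx₀s, hx₀M, hnear⟩ := exists_clamp_near hus hu1
  obtain ⟨N, hNM, hAN, hN, b, hbN, hbs, hb⟩ :=
    hd x₀ (hx₀M M (hu ▸ vn_smul_mem _ hx)) hx₀s (F.image R ∪ F.image u) (δ / (4 * ‖x‖))
      (by positivity)
  refine ⟨N, hNM, hAN, hN, ((‖x‖ : ℝ) : ℂ) • cfc clampMap b,
    vn_smul_mem _ (vn_cfc_mem hbN _), ?_, ?_, fun ξ hξ => ?_⟩
  · rw [IsSelfAdjoint, star_smul, (cfc_predicate clampMap b : IsSelfAdjoint _).star_eq,
      RCLike.star_def, Complex.conj_ofReal]
  · rw [norm_smul, Complex.norm_real, Real.norm_of_nonneg hm.le]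
    exact mul_le_of_le_one_right hm.le (norm_cfc_le zero_le_one fun t _ => by
      rw [Real.norm_eq_abs]; exact abs_clampMap_le t)
  · have e : x = ((‖x‖ : ℝ) : ℂ) • u := by
      rw [hu, smul_smul, ← Complex.ofReal_mul, mul_inv_cancel₀ hm.ne', Complex.ofReal_one, one_smul]
    conv_lhs => arg 1; arg 1; arg 1; rw [e]
    rw [← smul_sub, smul_apply, norm_smul, Complex.norm_real, Real.norm_of_nonneg hm.le]
    have h1 := hb (R ξ) (Finset.mem_union_left _ (Finset.mem_image_of_mem _ hξ))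
    have h2 := hb (u ξ) (Finset.mem_union_right _ (Finset.mem_image_of_mem _ hξ))
    rw [sub_apply, norm_sub_rev, ← sub_apply] at h1 h2
    have h3 := hnear b hbs ξ
    have h4 : ‖x‖ * (δ / (4 * ‖x‖)) = δ / 4 := by field_simp
    nlinarith

theorem phi_normalCentral (hA : IsMasa M A) (hsep : SeparatingNormalCentral M A) (v : H) :
    IsNormalCentral M A (phi A v) := by
  obtain ⟨Φ, hΦA, hΦid, hΦadd, hΦsmul, hΦpos, hΦmod, hΦn⟩ :=
    normalExpectation_of_separating hA hsep
  have hψ : IsNormalCentral M A (fun x => ⟪v, Φ x v⟫_ℂ) := by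
    refine ⟨fun x hx y hy => ?_, fun c x hx => ?_, fun x hx => ?_, fun a ha x hx => ?_,
      fun t ht => hΦn v v t ht⟩
    · rw [hΦadd x hx y hy, add_apply, inner_add_right]
    · rw [hΦsmul c x hx, smul_apply, inner_smul_right]
    · exact (hΦpos x hx).inner_nonneg_right v
    · rw [(hΦmod a ha x hx).1, (hΦmod a ha x hx).2, hA.comm _ ha _ (hΦA x hx)]
  have e : ∀ x ∈ M, phi A v x = ⟪v, Φ x v⟫_ℂ := fun x hx => by
    have h := normalCentral_expect hA hψ hx
    simp only [hΦid _ (expect_mem hA hx)] at h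
    exact h
  refine ⟨fun x hx y hy => phi_add v x y, fun c x _ => phi_smul v c x, fun x hx => ?_,
    fun a ha x hx => phi_central v hA ha hx, fun t ht => ?_⟩
  · rw [e _ (mul_mem (star_mem hx) hx)]; exact hψ.nonneg x hx
  · obtain ⟨F, d, hd, hF⟩ := hψ.normal t ht
    exact ⟨F, d, hd, fun x hx h1 h2 => by rw [e x hx]; exact hF x hx h1 h2⟩

/-- The seminorms of the expectation are normal. -/
theorem semi_normal (hA : IsMasa M A) (hsep : SeparatingNormalCentral M A) (v : H) {t : ℝ}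
    (ht : 0 < t) : ∃ F : Finset H, ∃ d : ℝ, 0 < d ∧ ∀ z ∈ M, ‖z‖ ≤ 1 →
      (∀ ξ ∈ F, ‖z ξ‖ < d) → semi A v z < t := by
  obtain ⟨F, d, hd, hF⟩ :=
    normalCentral_sq_small (phi_normalCentral hA hsep v) (show 0 < t ^ 2 by positivity)
  refine ⟨F, d, hd, fun z hz h1 h2 => ?_⟩
  have h := lt_of_le_of_lt (RCLike.re_le_norm _) (hF z hz h1 h2)
  rw [← semi_sq] at h
  exact lt_of_pow_lt_pow_left₀ 2 ht.le h

/-- Pointwise domination gives domination of the seminorms. -/
theorem semi_le_of_pointwise {Y Z : H →L[ℂ] H} {c : ℝ} (hc : 0 ≤ c)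
    (h : ∀ ξ, ‖Y ξ‖ ≤ c * ‖Z ξ‖) (v : H) : semi A v Y ≤ c * semi A v Z := by
  have h2 : semi A v Y ^ 2 ≤ (c * semi A v Z) ^ 2 := by
    rw [mul_pow, semi_sq, semi_sq]
    refine le_of_tendsto_of_tendsto
      ((RCLike.continuous_re.tendsto _).comp (tendsto_expect (A := A) (star Y * Y) v v))
      (((RCLike.continuous_re.tendsto _).comp (tendsto_expect (A := A) (star Z * Z) v v)).const_mul
        (c ^ 2)) (Eventually.of_forall fun P => ?_)
    simp only [Function.comp_apply, re_inner_D, Finset.mul_sum]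
    refine Finset.sum_le_sum fun i _ => ?_
    rw [← mul_pow]
    exact pow_le_pow_left₀ (norm_nonneg _) (h _) 2
  exact (abs_le_of_sq_le_sq' h2 (mul_nonneg hc (semi_nonneg _ _))).2

/-- With separating normal central functionals the seminorms of the expectation are faithful. -/
theorem eq_zero_of_semi_eq_zero (hA : IsMasa M A) (hsep : SeparatingNormalCentral M A)
    {z : H →L[ℂ] H} (hz : z ∈ M) (hz0 : ∀ v, semi A v z = 0) : z = 0 := by
  classical
  obtain ⟨S, hSg, hSo, hSmax⟩ := exists_maximal_orth (fun q : H →L[ℂ] H =>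
    q ∈ M ∧ IsStarProjection q ∧ q ≠ 0 ∧ ∀ v, semi A v q = 0)
  obtain ⟨G, hGp, hqG, hGM', -, -, hGapp⟩ := exists_sup_proj S (fun q hq => (hSg q hq).2.1) hSo
  have hGM : G ∈ M := hGM' M fun q hq => (hSg q hq).1
  have hG0 : ∀ v, semi A v G = 0 := by
    intro v
    refine le_antisymm (le_of_forall_pos_le_add fun t ht => ?_) (semi_nonneg _ _)
    obtain ⟨F, d, hd, hF⟩ := semi_normal hA hsep v ht
    obtain ⟨s, hs, hsG, hsp, hsd⟩ := hGapp F d hd
    have hsM : ∑ q ∈ s, q ∈ M := sum_mem fun q hq => (hSg q (hs q hq)).1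
    have h1 := hF _ (sub_mem hGM hsM) (norm_sa_proj_le (hsp.sub_of_mul_eq_left hGp hsG)) hsd
    have h2 : semi A v (∑ q ∈ s, q) = 0 := le_antisymm (Finset.sum_induction (fun q => q)
      (fun q => semi A v q ≤ 0) (fun a b ha hb => (semi_add_le v a b).trans (by linarith))
      (semi_zero v).le fun q hq => ((hSg q (hs q hq)).2.2.2 v).le) (semi_nonneg _ _)
    have h3 := semi_add_le (A := A) v (G - ∑ q ∈ s, q) (∑ q ∈ s, q)
    rw [sub_add_cancel, h2] at h3
    linarith
  -- every null element is supported on `G`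
  have hsupp : ∀ z ∈ M, (∀ v, semi A v z = 0) → z * G = z := by
    intro z hz hz0
    obtain ⟨S₀, hS₀⟩ : ∃ S₀ : H →L[ℂ] H, S₀ = G + star z * z := ⟨_, rfl⟩
    have hS₀M : S₀ ∈ M := hS₀ ▸ add_mem hGM (mul_mem (star_mem hz) hz)
    have hS₀s : IsSelfAdjoint S₀ := hS₀ ▸ hGp.isSelfAdjoint.add (IsSelfAdjoint.star_mul_self z)
    have hS₀0 : ∀ v, semi A v S₀ = 0 := fun v => le_antisymm (by
      rw [hS₀]
      refine (semi_add_le v _ _).trans ?_
      have := semi_mul_left_le (A := A) v (star z) z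
      rw [hz0 v, mul_zero] at this
      rw [hG0 v]
      linarith) (semi_nonneg _ _)
    have hker : ∀ u, S₀ u = 0 → G u = 0 ∧ z u = 0 := by
      intro u hu
      have h := congrArg (fun w => RCLike.re ⟪u, w⟫_ℂ) hu
      have e1 : RCLike.re ⟪u, G u⟫_ℂ = ‖G u‖ ^ 2 := by
        rw [inner_proj_eq_norm_sq hGp]; simp [← Complex.ofReal_pow]
      have e2 : RCLike.re ⟪u, (star z * z) u⟫_ℂ = ‖z u‖ ^ 2 := by
        rw [mul_apply', ContinuousLinearMap.star_eq_adjoint,
          ContinuousLinearMap.adjoint_inner_right]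
        exact inner_self_eq_norm_sq _
      simp only [hS₀, add_apply, inner_add_right, map_add, e1, e2, inner_zero_right, map_zero] at h
      constructor <;> rw [← norm_eq_zero] <;> nlinarith [norm_nonneg (G u), norm_nonneg (z u)]
    obtain ⟨W, hW⟩ : ∃ W : Submodule ℂ H, W = S₀.range.topologicalClosure := ⟨_, rfl⟩
    have : CompleteSpace W := hW ▸ S₀.range.isClosed_topologicalClosure.completeSpace_coe
    obtain ⟨C, hC⟩ : ∃ C : H →L[ℂ] H, C = W.starProjection := ⟨_, rfl⟩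
    have hCp : IsStarProjection C := hC ▸ isStarProjection_starProjection
    have hCM : C ∈ M := by
      refine hC ▸ proj_mem_vn W fun w hw v hv => ?_
      rw [hW] at hv ⊢
      refine map_mem_closure w.continuous hv ?_
      rintro _ ⟨u, rfl⟩
      exact ⟨w u, (congrArg (fun T : H →L[ℂ] H => T u) ((mem_vn_iff.1 hS₀M) w hw)).symm⟩
    have hCS : ∀ u, C (S₀ u) = S₀ u := fun u => by
      rw [hC, Submodule.starProjection_eq_self_iff, hW]
      exact Submodule.le_topologicalClosure _ ⟨u, rfl⟩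
    have hCker : ∀ ξ, S₀ ((1 - C) ξ) = 0 := fun ξ => by
      refine ext_inner_left ℂ fun u => ?_
      rw [inner_zero_right, ← sa_inner hS₀s, ← hCS u, sa_inner hCp.isSelfAdjoint, ← mul_apply',
        hCp.mul_one_sub_self]
      simp
    have hGC : G * C = G := by
      ext ξ
      have h := (hker _ (hCker ξ)).1
      rw [sub_apply, one_apply_eq_self, map_sub, sub_eq_zero] at h
      rw [mul_apply', ← h]
    have hzC : z * C = z := by
      ext ξ
      have h := (hker _ (hCker ξ)).2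
      rw [sub_apply, one_apply_eq_self, map_sub, sub_eq_zero] at h
      rw [mul_apply', ← h]
    have hC0 : ∀ v, semi A v C = 0 := by
      intro v
      refine le_antisymm (le_of_forall_pos_le_add fun t ht => ?_) (semi_nonneg _ _)
      obtain ⟨F, d, hd, hF⟩ := semi_normal hA hsep v (t := t / 2) (by linarith)
      obtain ⟨d', hd', hd'F⟩ : ∃ d', 0 < d' ∧ d' < d := ⟨d / 2, by linarith, by linarith⟩
      have hu : ∀ ξ : H, ∃ u, ‖C ξ - S₀ u‖ < d' / 2 := fun ξ => by
        have hξ : C ξ ∈ closure (S₀.range : Set H) := by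
          have := Submodule.starProjection_apply_mem W ξ
          rw [← hC] at this
          rw [hW] at this
          exact this
        obtain ⟨_, ⟨u, rfl⟩, h⟩ := Metric.mem_closure_iff.1 hξ (d' / 2) (by linarith)
        exact ⟨u, by rwa [← dist_eq_norm]⟩
      choose u hu' using hu
      obtain ⟨η, hη, hη1, hηu⟩ : ∃ η : ℝ, 0 < η ∧ η ≤ 1 ∧ ∀ ξ ∈ F, η * ‖u ξ‖ ≤ d' / 2 := by
        obtain ⟨K, hK⟩ : ∃ K : ℝ, K = ∑ ξ ∈ F, ‖u ξ‖ + d' + 1 := ⟨_, rfl⟩
        have hK0 : 0 < K := by rw [hK]; positivity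
        have hKd : d' / 2 ≤ K := by
          have : 0 ≤ ∑ ξ ∈ F, ‖u ξ‖ := Finset.sum_nonneg fun _ _ => norm_nonneg _
          linarith
        refine ⟨d' / 2 / K, by positivity, (div_le_one hK0).2 hKd, fun ξ hξ => ?_⟩
        rw [div_mul_eq_mul_div, div_le_iff₀ hK0]
        refine mul_le_mul_of_nonneg_left ?_ (by linarith)
        have := Finset.single_le_sum (f := fun ξ => ‖u ξ‖) (fun _ _ => norm_nonneg _) hξ
        linarith
      obtain ⟨k, hkp, hkY, hkd, hkc, hkN, -⟩ := exists_cut hS₀s hη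
      have hk0 : ∀ ξ, ‖(1 - k) ξ‖ ≤ η⁻¹ * ‖S₀ ξ‖ := fun ξ => by
        rw [le_inv_mul_iff₀ hη]; exact hkd ξ
      have hk00 : semi A v (1 - k) = 0 := le_antisymm (by
        have := semi_le_of_pointwise (A := A) (inv_nonneg.2 hη.le) hk0 v
        rwa [hS₀0 v, mul_zero] at this) (semi_nonneg _ _)
      have hCk : C - (1 - k) = k * C := by
        have e1 : (1 - k) * C = 1 - k := by
          refine ContinuousLinearMap.ext fun ξ => ?_
          have e2 : (1 - k) ((1 - C) ξ) = 0 := by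
            have := hk0 ((1 - C) ξ)
            rw [hCker, norm_zero, mul_zero] at this
            exact norm_le_zero_iff.1 this
          rw [sub_apply (1 : H →L[ℂ] H) C, one_apply_eq_self, map_sub, sub_eq_zero] at e2
          rw [mul_apply', ← e2]
        rw [← e1]
        noncomm_ring
      have h1 := hF (k * C) (mul_mem (hkN M hS₀M) hCM) ((norm_mul_le _ _).trans
        (mul_le_one₀ (norm_sa_proj_le hkp) (norm_nonneg _) (norm_sa_proj_le hCp))) fun ξ hξ => by
        rw [mul_apply', show C ξ = (C ξ - S₀ (u ξ)) + S₀ (u ξ) by abel, map_add]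
        refine lt_of_le_of_lt (norm_add_le _ _) ?_
        have ha : ‖k (C ξ - S₀ (u ξ))‖ < d' / 2 :=
          lt_of_le_of_lt (proj_apply_norm_le hkp _) (hu' ξ)
        have hb : ‖k (S₀ (u ξ))‖ ≤ d' / 2 := by
          rw [← mul_apply', (hkc S₀ (Commute.refl S₀)).eq, mul_apply']
          exact (hkY _).trans ((mul_le_mul_of_nonneg_left (proj_apply_norm_le hkp _) hη.le).trans
            (hηu ξ hξ))
        linarith
      have h2 := semi_add_le (A := A) v (k * C) (1 - k)
      rw [← hCk, sub_add_cancel, hk00] at h2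
      rw [hCk] at h2
      linarith
    by_contra hne
    have hCG : C * G = G := by
      have := congrArg star hGC
      rwa [star_mul, hCp.isSelfAdjoint.star_eq, hGp.isSelfAdjoint.star_eq] at this
    have hne' : C - G ≠ 0 := fun h => hne (by rw [← sub_eq_zero.1 h]; exact hzC)
    have hq : ∀ q ∈ S, (C - G) * q = 0 ∧ q * (C - G) = 0 := fun q hq => by
      have e1 : G * q = q := by
        have := congrArg star (hqG q hq)
        rwa [star_mul, hGp.isSelfAdjoint.star_eq, (hSg q hq).2.1.isSelfAdjoint.star_eq] at this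
      constructor
      · conv_lhs => arg 2; rw [← e1]
        rw [← mul_assoc, sub_mul, hCG, hGp.isIdempotentElem.eq, sub_self, zero_mul]
      · conv_lhs => arg 1; rw [← hqG q hq]
        rw [mul_assoc, mul_sub, hGC, hGp.isIdempotentElem.eq, sub_self, mul_zero]
    have hmem := hSmax (C - G) ⟨sub_mem hCM hGM, hGp.sub_of_mul_eq_left hCp hGC, hne', fun v =>
      le_antisymm ((semi_sub_le v _ _).trans (by rw [hC0, hG0, add_zero])) (semi_nonneg _ _)⟩ hq
    have h := (hq _ hmem).1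
    rw [(hGp.sub_of_mul_eq_left hCp hGC).isIdempotentElem.eq] at h
    exact hne' h
  have hGA : G ∈ A := by
    refine hA.mem_of_commute hGM fun a ha => ?_
    have key : ∀ a ∈ A, G * a * G = G * a := fun a ha => hsupp _ (mul_mem hGM (hA.le a ha)) fun v =>
      le_antisymm ((semi_mul_right_le v hA ha hGM).trans (by rw [hG0, mul_zero])) (semi_nonneg _ _)
    have h2 := congrArg star (key (star a) (star_mem ha))
    simp only [star_mul, star_star, hGp.isSelfAdjoint.star_eq, ← mul_assoc] at h2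
    exact (key a ha).symm.trans h2
  have hG : G = 0 := by
    ext ξ
    obtain ⟨R, hR⟩ : ∃ R : H →L[ℂ] H, R = G := ⟨_, rfl⟩
    have h := hG0 ξ
    have e : expect A (star G * G) = G := by
      rw [hGp.isSelfAdjoint.star_eq, hGp.isIdempotentElem.eq, Cartan.expect_self hA hGA]
    rw [semi_eq_norm hGp.isSelfAdjoint (by rw [e, hGp.isIdempotentElem.eq]) ξ] at h
    simpa using norm_eq_zero.1 h
  have := hsupp z hz hz0
  rw [hG, mul_zero] at this
  exact this.symm

/-- Weak limits of bounded families of operators along an ultrafilter. -/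
theorem exists_weak_lim {J : Type*} (U : Ultrafilter J) (T : J → H →L[ℂ] H) {K : ℝ} (hK : 0 ≤ K)
    (hT : ∀ j, ‖T j‖ ≤ K) :
    ∃ L : H →L[ℂ] H, ‖L‖ ≤ K ∧
      ∀ u v : H, Tendsto (fun j => ⟪u, T j v⟫_ℂ) U (𝓝 ⟪u, L v⟫_ℂ) := by
  have hb : ∀ (j : J) (u v : H), ‖⟪u, T j v⟫_ℂ‖ ≤ K * ‖u‖ * ‖v‖ := fun j u v =>
    le_trans (norm_inner_le_norm _ _) (by
      rw [mul_comm K, mul_assoc]
      exact mul_le_mul_of_nonneg_left
        (((T j).le_opNorm v).trans (mul_le_mul_of_nonneg_right (hT j) (norm_nonneg _)))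
        (norm_nonneg _))
  have hex : ∀ u v : H, ∃ l : ℂ, ‖l‖ ≤ K * ‖u‖ * ‖v‖ ∧
      Tendsto (fun j => ⟪u, T j v⟫_ℂ) U (𝓝 l) := by
    intro u v
    obtain ⟨l, hl, hlt⟩ := (isCompact_closedBall (0 : ℂ) (K * ‖u‖ * ‖v‖)).ultrafilter_le_nhds
      (U.map fun j => ⟪u, T j v⟫_ℂ) (by
        rw [le_principal_iff]
        exact Filter.mem_map.2 (Filter.univ_mem' fun j => by simpa using hb j u v))
    exact ⟨l, by simpa using hl, hlt⟩
  choose l hl ht using hex
  let B : H →L⋆[ℂ] H →L[ℂ] ℂ := LinearMap.mkContinuous₂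
    (LinearMap.mk₂'ₛₗ (starRingEnd ℂ) (RingHom.id ℂ) (fun u v => l u v)
      (fun u u' v => tendsto_nhds_unique (ht (u + u') v)
        (by simpa only [inner_add_left] using (ht u v).add (ht u' v)))
      (fun c u v => tendsto_nhds_unique (ht (c • u) v)
        (by simpa only [inner_smul_left, smul_eq_mul] using (ht u v).const_mul (starRingEnd ℂ c)))
      (fun u v v' => tendsto_nhds_unique (ht u (v + v'))
        (by simpa only [map_add, inner_add_right] using (ht u v).add (ht u v')))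
      (fun c u v => tendsto_nhds_unique (ht u (c • v))
        (by simpa only [map_smul, inner_smul_right, smul_eq_mul, RingHom.id_apply]
          using (ht u v).const_mul c)))
    K (fun u v => hl u v)
  obtain ⟨L, hLd⟩ : ∃ L : H →L[ℂ] H, L = star (InnerProductSpace.continuousLinearMapOfBilin B) :=
    ⟨_, rfl⟩
  have hlim : ∀ u v : H, Tendsto (fun j => ⟪u, T j v⟫_ℂ) U (𝓝 ⟪u, L v⟫_ℂ) := fun u v => by
    rw [hLd, ContinuousLinearMap.star_eq_adjoint, ContinuousLinearMap.adjoint_inner_right,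
      InnerProductSpace.continuousLinearMapOfBilin_apply]
    exact ht u v
  refine ⟨L, ContinuousLinearMap.opNorm_le_bound _ hK fun v => ?_, hlim⟩
  have h := le_of_tendsto (hlim (L v) v).norm (Eventually.of_forall fun j => hb j (L v) v)
  rw [inner_self_eq_norm_sq_to_K, norm_pow] at h
  simp at h
  rcases eq_or_ne (L v) 0 with h0 | h0
  · rw [h0, norm_zero]; positivity
  · have := norm_pos_iff.2 h0
    nlinarith

/-- Small seminorms of the expectation mean strongly small. -/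
theorem semi_small_strong (hA : IsMasa M A) (hsep : SeparatingNormalCentral M A) (F : Finset H)
    {δ : ℝ} (hδ : 0 < δ) :
    ∃ V : Finset H, ∃ d : ℝ, 0 < d ∧ ∀ z ∈ M, ‖z‖ ≤ 1 → (∀ v ∈ V, semi A v z < d) →
      ∀ ξ ∈ F, ‖z ξ‖ < δ := by
  classical
  by_contra hcon
  push Not at hcon
  have hex : ∀ j : Finset H × ℕ, ∃ z : H →L[ℂ] H, z ∈ M ∧ ‖z‖ ≤ 1 ∧
      (∀ v ∈ j.1, semi A v z < 1 / ((j.2 : ℝ) + 1)) ∧ ∃ ξ ∈ F, δ ≤ ‖z ξ‖ := fun j => by
    obtain ⟨z, hz, hz1, hzs, ξ, hξ, hzξ⟩ := hcon j.1 (1 / ((j.2 : ℝ) + 1)) (by positivity)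
    exact ⟨z, hz, hz1, hzs, ξ, hξ, hzξ⟩
  choose z hzM hz1 hzs hzξ using hex
  obtain ⟨U, hU⟩ : ∃ U : Ultrafilter (Finset H × ℕ), ↑U ≤ (atTop : Filter (Finset H × ℕ)) :=
    ⟨Ultrafilter.of atTop, Ultrafilter.of_le _⟩
  have hn : ∀ j, ‖star (z j) * z j‖ ≤ 1 := fun j => by
    rw [CStarRing.norm_star_mul_self]; nlinarith [norm_nonneg (z j), hz1 j]
  obtain ⟨L, hL1, hL⟩ := exists_weak_lim U (fun j => star (z j) * z j) zero_le_one hn
  have hLM : L ∈ M := by
    rw [mem_vn_iff]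
    intro w hw
    refine ContinuousLinearMap.ext fun v => ext_inner_left ℂ fun u => ?_
    have h1 := hL (adjoint w u) v
    simp only [ContinuousLinearMap.adjoint_inner_left] at h1
    have h2 := hL u (w v)
    refine tendsto_nhds_unique h1 (h2.congr fun j => ?_)
    have := congrArg (fun S : H →L[ℂ] H => S v)
      ((mem_vn_iff.1 (mul_mem (star_mem (hzM j)) (hzM j))) w hw)
    simp only [mul_apply'] at this ⊢
    rw [← this]
  have hre : ∀ u j, ⟪u, (star (z j) * z j) u⟫_ℂ = ((‖z j u‖ ^ 2 : ℝ) : ℂ) := fun u j => by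
    rw [mul_apply', ContinuousLinearMap.star_eq_adjoint, ContinuousLinearMap.adjoint_inner_right,
      inner_self_eq_norm_sq_to_K]
    simp
  have hpos : 0 ≤ L := by
    rw [ContinuousLinearMap.nonneg_iff_isPositive, ContinuousLinearMap.isPositive_iff_complex]
    intro u
    have h1 : ∀ᶠ j in (U : Filter (Finset H × ℕ)),
        ⟪u, (star (z j) * z j) u⟫_ℂ ∈ {c : ℂ | 0 ≤ c.re ∧ c.im = 0} :=
      Eventually.of_forall fun j => by
        rw [hre]; exact ⟨by rw [Complex.ofReal_re]; positivity, Complex.ofReal_im _⟩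
    obtain ⟨hr, hi⟩ := IsClosed.mem_of_tendsto ((isClosed_le continuous_const
      Complex.continuous_re).inter (isClosed_eq Complex.continuous_im continuous_const))
      (hL u u) h1
    rw [← inner_conj_symm]
    refine ⟨Complex.ext ?_ ?_, ?_⟩
    · simp
    · simp only [RCLike.re_to_complex, Complex.ofReal_im, Complex.conj_im, Set.mem_setOf_eq] at hi ⊢
      rw [hi, neg_zero]
    · simpa only [RCLike.re_to_complex, Complex.conj_re, Set.mem_setOf_eq] using hr
  have hphi : ∀ v, phi A v L = 0 := fun v => by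
    refine norm_le_zero_iff.1 (le_of_forall_pos_le_add fun t ht => ?_)
    rw [zero_add]
    obtain ⟨G, w, hw⟩ := normal_approx (phi_normalCentral hA hsep v) (show 0 < t / 4 by linarith)
    have hsum : Tendsto (fun j => ‖∑ ξ : G, ⟪w ξ, L ξ⟫_ℂ
        - ∑ ξ : G, ⟪w ξ, (star (z j) * z j) ξ⟫_ℂ‖) U (𝓝 0) := by
      have h := (tendsto_const_nhds (x := ∑ ξ : G, ⟪w ξ, L ξ⟫_ℂ)).sub
        (tendsto_finsetSum (Finset.univ : Finset G) fun ξ _ => hL (w ξ) ξ)
      rw [sub_self] at h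
      simpa using h.norm
    have hev : ∀ᶠ j in (U : Filter (Finset H × ℕ)), ‖phi A v (star (z j) * z j)‖ ≤ t / 4 := by
      obtain ⟨n, hn'⟩ := exists_nat_gt (4 / t + 1)
      refine hU ((eventually_ge_atTop ({v}, n)).mono fun j hj => ?_)
      have h1 := hzs j v (hj.1 (Finset.mem_singleton_self v))
      have h3 : 1 / ((j.2 : ℝ) + 1) ≤ min 1 (t / 4) := by
        have hjn : (n : ℝ) ≤ j.2 := Nat.cast_le.2 hj.2
        have ht' : 0 < 4 / t := by positivity
        refine le_min ((div_le_one (by positivity)).2 (by linarith)) ?_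
        rw [div_le_iff₀ (by positivity)]
        have : 4 / t * (t / 4) = 1 := by field_simp
        nlinarith
      have h4 := semi_nonneg (A := A) v (z j)
      have h5 := le_min_iff.1 (h1.le.trans h3)
      have e : ‖phi A v (star (z j) * z j)‖ ≤ semi A v (z j) * semi A v (z j) :=
        phi_cs v (z j) (z j)
      nlinarith
    have hlim := (tendsto_const_nhds (x := t / 4 + t / 4 + t / 4)).add hsum
    refine (ge_of_tendsto hlim (hev.mono fun j hj => ?_)).trans (by linarith)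
    have ha := (hw L hLM).trans (mul_le_of_le_one_right (by linarith) hL1)
    have hb := (hw _ (mul_mem (star_mem (hzM j)) (hzM j))).trans
      (mul_le_of_le_one_right (by linarith) (hn j))
    have h1 := norm_le_norm_sub_add (phi A v L) (∑ ξ : G, ⟪w ξ, L ξ⟫_ℂ)
    have h2 := norm_le_norm_sub_add (∑ ξ : G, ⟪w ξ, L ξ⟫_ℂ)
      (∑ ξ : G, ⟪w ξ, (star (z j) * z j) ξ⟫_ℂ)
    have h3 := norm_le_norm_sub_add (∑ ξ : G, ⟪w ξ, (star (z j) * z j) ξ⟫_ℂ)
      (phi A v (star (z j) * z j))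
    rw [norm_sub_rev] at hb
    linarith
  obtain ⟨R, hR⟩ : ∃ R : H →L[ℂ] H, R = cfc Real.sqrt L := ⟨_, rfl⟩
  have hLs : IsSelfAdjoint L := IsSelfAdjoint.of_nonneg hpos
  have hRR : star R * R = L := by
    rw [hR, (cfc_predicate Real.sqrt L : IsSelfAdjoint _).star_eq, ← cfc_mul _ _ L]
    conv_rhs => rw [← cfc_id' ℝ L hLs]
    exact cfc_congr fun s hs => Real.mul_self_sqrt (spectrum_nonneg_of_nonneg hpos hs)
  have hR0 : R = 0 := eq_zero_of_semi_eq_zero hA hsep (hR ▸ vn_cfc_mem hLM _) fun v => by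
    rw [semi, hRR, hphi, map_zero, Real.sqrt_zero]
  rw [hR0, mul_zero] at hRR
  have hev : ∀ᶠ j in (U : Filter (Finset H × ℕ)), ∀ ξ ∈ F, ‖z j ξ‖ < δ := by
    rw [eventually_all_finset]
    intro ξ _
    have h := (hL ξ ξ).norm
    rw [← hRR, zero_apply, inner_zero_right, norm_zero] at h
    refine (h.eventually (gt_mem_nhds (show (0 : ℝ) < δ ^ 2 by positivity))).mono fun j hj => ?_
    rw [hre, Complex.norm_real, Real.norm_of_nonneg (by positivity)] at hj
    exact lt_of_pow_lt_pow_left₀ 2 hδ.le hj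
  obtain ⟨j, hj⟩ := hev.exists
  obtain ⟨ξ, hξ, h⟩ := hzξ j
  linarith [hj ξ hξ]

/-- Dense semifinite subalgebras approximate uniformly on the unit ball of `A`. -/
theorem hasSemifiniteApproximation_of_dense (hA : IsMasa M A)
    (hsep : SeparatingNormalCentral M A) (hd : HasDenseSemifinite M A) :
    HasSemifiniteApproximation M A := by
  classical
  intro x hx hxs F δ hδ
  obtain ⟨c, hc⟩ : ∃ c : ℝ, c = (2 * ‖x‖ + 1)⁻¹ := ⟨_, rfl⟩
  have hc0 : 0 < c := by rw [hc]; positivity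
  obtain ⟨V, d, hd0, hV⟩ := semi_small_strong hA hsep F (show 0 < c * δ by positivity)
  choose G e he hGe using fun v : H => semi_normal hA hsep v hd0
  obtain ⟨m, hm0, hm⟩ : ∃ m : ℝ, 0 < m ∧ ∀ v ∈ V, m ≤ e v := by
    rcases V.eq_empty_or_nonempty with rfl | hV'
    · exact ⟨1, one_pos, by simp⟩
    · exact ⟨V.inf' hV' e, (Finset.lt_inf'_iff hV').2 fun v _ => he v,
        fun v hv => Finset.inf'_le _ hv⟩
  obtain ⟨N, hNM, hAN, hN, y, hy, hys, hyn, hxy⟩ :=
    exists_bounded_near hd hx hxs (V.biUnion G) (show 0 < m / c by positivity)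
  refine ⟨N, hNM, hAN, hN, y, hy, hys, hyn, fun a ha ha1 ξ hξ => ?_⟩
  obtain ⟨z, hz⟩ : ∃ z : H →L[ℂ] H, z = (c : ℂ) • (x - y) := ⟨_, rfl⟩
  have hzM : z ∈ M := hz ▸ vn_smul_mem _ (sub_mem hx (hNM y hy))
  have hz1 : ‖z‖ ≤ 1 := by
    rw [hz, norm_smul, Complex.norm_real, Real.norm_of_nonneg hc0.le, hc,
      inv_mul_le_iff₀ (by positivity), mul_one]
    exact (norm_sub_le _ _).trans (by linarith)
  have hza : ‖z * a‖ ≤ 1 :=
    (norm_mul_le _ _).trans (mul_le_one₀ hz1 (norm_nonneg _) ha1)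
  have h := hV (z * a) (mul_mem hzM (hA.le a ha)) hza (fun v hv => by
    refine lt_of_le_of_lt ((semi_mul_right_le v hA ha hzM).trans
      (mul_le_of_le_one_left (semi_nonneg _ _) ha1)) (hGe v z hzM hz1 fun w hw => ?_)
    have h1 := hxy w (Finset.mem_biUnion.2 ⟨v, hv, hw⟩)
    rw [hz, smul_apply, norm_smul, Complex.norm_real, Real.norm_of_nonneg hc0.le]
    rw [lt_div_iff₀ hc0] at h1
    linarith [hm v hv]) ξ hξ
  rw [mul_apply', hz, smul_apply, norm_smul, Complex.norm_real, Real.norm_of_nonneg hc0.le] at h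
  exact lt_of_mul_lt_mul_left h hc0.le

theorem traceSq_mul_le {ι : Type} (η : ι → H) (a x : H →L[ℂ] H) (ha : ‖a‖ ≤ 1) :
    traceSq η (a * x) ≤ traceSq η x := by
  refine ENNReal.tsum_le_tsum fun i => ENNReal.ofReal_le_ofReal ?_
  exact pow_le_pow_left₀ (norm_nonneg _) ((a.le_opNorm _).trans
    (mul_le_of_le_one_left (norm_nonneg _) ha)) 2

/-- A corner of a semifinite algebra is semifinite. -/
theorem hasSemifiniteTrace_corner {N : VonNeumannAlgebra H} (hN : HasSemifiniteTrace N)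
    (U : Submodule ℂ H) [U.HasOrthogonalProjection] [CompleteSpace U]
    (hU : U.starProjection ∈ N) : HasSemifiniteTrace (cornerVN U N hU) := by
  classical
  obtain ⟨ι, η, htr, hfa, hsf⟩ := hN
  have hep : IsStarProjection U.starProjection := isStarProjection_starProjection
  have htsq : ∀ y : U →L[ℂ] U,
      traceSq (fun i => U.orthogonalProjectionOnto (η i)) y = traceSq η (ext0 U y) := fun y => rfl
  refine ⟨ι, fun i => U.orthogonalProjectionOnto (η i), fun y hy => ?_, fun y hy h0 => ?_,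
    fun F δ hδ => ?_⟩
  · rw [htsq, htsq, ext0_star]; exact htr _ hy
  · exact ext0_injective U ((hfa _ hy (htsq y ▸ h0)).trans (ext0_zero U).symm)
  obtain ⟨q, hqN, hqp, hqt, hqd⟩ :=
    hsf (F.image fun v : U => (v : H)) (δ / 2) (by linarith)
  obtain ⟨g, hg⟩ : ∃ g : H →L[ℂ] H, g = U.starProjection := ⟨_, rfl⟩
  rw [← hg] at hU hep
  have hgg : g * g = g := hep.isIdempotentElem.eq
  obtain ⟨Y, hY⟩ : ∃ Y : H →L[ℂ] H, Y = g * q * g := ⟨_, rfl⟩
  have hYN : Y ∈ N := hY ▸ mul_mem (mul_mem hU hqN) hU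
  have hYs : IsSelfAdjoint Y := by
    rw [hY, IsSelfAdjoint, star_mul, star_mul, hep.isSelfAdjoint.star_eq, hqp.isSelfAdjoint.star_eq,
      mul_assoc]
  have hYg : Y * g = Y ∧ g * Y = Y := by
    rw [hY, mul_assoc (g * q), hgg, ← mul_assoc, ← mul_assoc, hgg]; exact ⟨rfl, rfl⟩
  obtain ⟨k, hkp, hkY, hkd, hkc, hkN, -⟩ := exists_cut hYs (show (0 : ℝ) < 1 / 2 by norm_num)
  obtain ⟨C, hC⟩ : ∃ C : H →L[ℂ] H, C = 1 - k := ⟨_, rfl⟩
  have hCp : IsStarProjection C := hC ▸ hkp.one_sub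
  have hCN : C ∈ N := hC ▸ sub_mem (one_mem N) (hkN N hYN)
  have hCg : C * g = C ∧ g * C = C := by
    have e : C * g = C := by
      ext v
      have h := hkd ((1 - g) v)
      have h0 : Y ((1 - g) v) = 0 := by
        rw [← mul_apply', mul_sub, mul_one, hYg.1, sub_self]; rfl
      rw [h0, norm_zero] at h
      have h1 : C ((1 - g) v) = 0 := norm_le_zero_iff.1 (by rw [hC]; linarith)
      rw [sub_apply, one_apply_eq_self, map_sub, sub_eq_zero] at h1
      rw [mul_apply', ← h1]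
    refine ⟨e, ?_⟩
    have := congrArg star e
    rwa [star_mul, hep.isSelfAdjoint.star_eq, hCp.isSelfAdjoint.star_eq] at this
  have hCext : ext0 U (comp0 U C) = C := by
    rw [ext0_comp0, ← hg, hCg.2, hCg.1]
  refine ⟨comp0 U C, ?_, ⟨?_, ?_⟩, ?_, fun v hv => ?_⟩
  · rw [mem_cornerVN, hCext]; exact hCN
  · refine ext0_injective U ?_
    rw [ext0_mul, hCext, hCp.isIdempotentElem.eq]
  · refine ext0_injective U ?_
    rw [ext0_star, hCext, hCp.isSelfAdjoint.star_eq]
  · rw [htsq, hCext]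
    have h1 : traceSq η Y ≤ traceSq η q := by
      rw [hY, mul_assoc]
      refine (traceSq_mul_le η _ _ (norm_sa_proj_le hep)).trans ?_
      rw [htr _ (mul_mem hqN hU), star_mul, hep.isSelfAdjoint.star_eq, hqp.isSelfAdjoint.star_eq]
      exact traceSq_mul_le η _ _ (norm_sa_proj_le hep)
    have h2 : traceSq η C ≤ ENNReal.ofReal 4 * traceSq η Y := by
      unfold traceSq
      rw [← ENNReal.tsum_mul_left]
      refine ENNReal.tsum_le_tsum fun i => ?_
      rw [← ENNReal.ofReal_mul (by norm_num)]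
      refine ENNReal.ofReal_le_ofReal ?_
      have h := hkd (η i)
      rw [← hC] at h
      nlinarith [norm_nonneg (C (η i))]
    exact lt_of_le_of_lt h2 (ENNReal.mul_lt_top ENNReal.ofReal_lt_top (lt_of_le_of_lt h1 hqt))
  · have hgv : g (v : H) = v := by
      rw [hg, Submodule.starProjection_eq_self_iff]; exact v.2
    have e : ((((1 : U →L[ℂ] U) - comp0 U C) v : U) : H) = k (v : H) := by
      have e1 : ((comp0 U C v : U) : H) = C (v : H) := by
        show U.starProjection (C (v : H)) = _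
        rw [← hg, ← mul_apply', hCg.2]
      rw [sub_apply, one_apply_eq_self, Submodule.coe_sub, e1, hC, sub_apply, one_apply_eq_self]
      abel
    show ‖((((1 : U →L[ℂ] U) - comp0 U C) v : U) : H)‖ < δ
    rw [e]
    have hkg : k * g = g * k := (hkc g (hYg.1.trans hYg.2.symm)).eq
    have hgk : g (k (v : H)) = k (v : H) := by
      rw [← mul_apply', ← hkg, mul_apply', hgv]
    have hkY' : k * Y = Y * k := (hkc Y (Commute.refl Y)).eq
    have h1 : (g - Y) (k (v : H)) = k ((1 - q) (v : H) - (1 - g) ((1 - q) (v : H))) := by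
      rw [sub_apply, hgk, ← mul_apply' Y, ← hkY', mul_apply', hY, mul_apply', mul_apply', hgv,
        ← map_sub]
      congr 1
      simp only [sub_apply, one_apply_eq_self, map_sub, hgv]
      abel
    have h2 : ‖(g - Y) (k (v : H))‖ ≤ ‖(1 - q) (v : H)‖ := by
      rw [h1]
      refine (proj_apply_norm_le hkp _).trans ?_
      rw [sub_apply 1 g, one_apply_eq_self, sub_sub_cancel]
      exact proj_apply_norm_le hep _
    have h3 : ‖k (v : H)‖ - 1 / 2 * ‖k (v : H)‖ ≤ ‖(g - Y) (k (v : H))‖ := by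
      rw [sub_apply, hgk]
      refine le_trans ?_ (norm_sub_norm_le _ _)
      have := hkY (v : H)
      linarith
    have h4 := hqd _ (Finset.mem_image_of_mem (fun v : U => (v : H)) hv)
    linarith

/-- Dense semifinite subalgebras pass to corners. -/
theorem hasDenseSemifinite_corner (hd : HasDenseSemifinite M A)
    (U : Submodule ℂ H) [U.HasOrthogonalProjection] [CompleteSpace U]
    (heA : U.starProjection ∈ A) (heM : U.starProjection ∈ M) :
    HasDenseSemifinite (cornerVN U M heM) (cornerSub U A heA) := by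
  classical
  intro x hx hxs F δ hδ
  obtain ⟨N, hNM, hAN, hN, b, hb, hbs, hxb⟩ := hd (ext0 U x) hx
    (by rw [IsSelfAdjoint, ← ext0_star, hxs.star_eq]) (F.image fun v : U => (v : H)) δ hδ
  refine ⟨cornerVN U N (hAN _ heA), fun z hz => hNM _ hz, fun a ha => hAN _ ha,
    hasSemifiniteTrace_corner hN U _, comp0 U b, ?_, ?_, fun v hv => ?_⟩
  · rw [mem_cornerVN, ext0_comp0]; exact mul_mem (mul_mem (hAN _ heA) hb) (hAN _ heA)
  · refine ext0_injective U ?_
    rw [ext0_star, ext0_comp0, star_mul, star_mul, hbs.star_eq,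
      (isStarProjection_starProjection (U := U)).isSelfAdjoint.star_eq, mul_assoc]
  · have h := hxb _ (Finset.mem_image_of_mem (fun v : U => (v : H)) hv)
    refine lt_of_le_of_lt ?_ h
    have e : (((x - comp0 U b) v : U) : H) = U.starProjection ((ext0 U x - b) (v : H)) := by
      have e1 : ext0 U x (v : H) = ((x v : U) : H) := by simp [ext0_apply]
      rw [sub_apply, sub_apply, map_sub, Submodule.coe_sub, e1,
        Submodule.starProjection_eq_self_iff.2 (x v).2]
      rfl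
    show ‖(((x - comp0 U b) v : U) : H)‖ ≤ _
    rw [e]
    exact proj_apply_norm_le isStarProjection_starProjection _

end Vale.Agent.P078
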