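import Vale.Agent.P078.Small

/-!
Reduction of so-paving to MASAs with separating normal centralised functionals.
-/

namespace Vale.Agent.P078

open scoped InnerProductSpace ComplexOrder
open Filter Topology ContinuousLinearMap

variable {H : Type} [NormedAddCommGroup H] [InnerProductSpace ℂ H] [CompleteSpace H]
variable {M : VonNeumannAlgebra H} {A : StarSubalgebra ℂ (H →L[ℂ] H)}

/-- The null part of `A`. -/
theorem exists_null_part (hA : IsMasa M A) :
    ∃ f ∈ A, IsStarProjection f ∧ (∀ ψ, IsNormalCentral M A ψ → ψ f = 0) ∧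
      ∀ g ∈ A, IsStarProjection g → g ≠ 0 → g * f = 0 → ∃ ψ, IsNormalCentral M A ψ ∧ ψ g ≠ 0 := by
  classical
  obtain ⟨S, hSg, hSo, hSmax⟩ := exists_maximal_orth (fun g : H →L[ℂ] H =>
    g ∈ A ∧ IsStarProjection g ∧ g ≠ 0 ∧ ∀ ψ, IsNormalCentral M A ψ → ψ g = 0)
  obtain ⟨G, hGp, hqG, hGM, hGcomm, -, hGapp⟩ := exists_sup_proj S (fun q hq => (hSg q hq).2.1) hSo
  have hGM' : G ∈ M := hGM M fun q hq => hA.le q (hSg q hq).1
  have hGA : G ∈ A := hA.mem_of_commute hGM' fun a ha =>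
    (hGcomm a (fun q hq => hA.comm q (hSg q hq).1 a ha)
      (fun q hq => hA.comm q (hSg q hq).1 (star a) (star_mem ha))).eq
  refine ⟨G, hGA, hGp, fun ψ hψ => ?_, fun g hgA hgp hg0 hgG => ?_⟩
  · refine norm_le_zero_iff.1 (le_of_forall_pos_le_add fun t ht => ?_)
    obtain ⟨F, d, hd, hF⟩ := hψ.normal t ht
    obtain ⟨s, hs, hsG, hsp, hsd⟩ := hGapp F d hd
    have hsM : ∑ q ∈ s, q ∈ M := sum_mem fun q hq => hA.le q (hSg q (hs q hq)).1
    have h0 : ψ (∑ q ∈ s, q) = 0 := by
      rw [normalCentral_sum hψ s (fun q => q) fun q hq => hA.le q (hSg q (hs q hq)).1]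
      exact Finset.sum_eq_zero fun q hq => (hSg q (hs q hq)).2.2.2 ψ hψ
    have h1 := hF (G - ∑ q ∈ s, q) (sub_mem hGM' hsM)
      (norm_sa_proj_le (hsp.sub_of_mul_eq_left hGp hsG)) hsd
    rw [normalCentral_sub hψ hGM' hsM, h0, sub_zero] at h1
    linarith
  · by_contra hcon
    push Not at hcon
    have horth : ∀ q ∈ S, g * q = 0 := fun q hq => by
      rw [← sum_orth_apply_fix hGp (hSg q hq).2.1 (hqG q hq), ← mul_assoc, hgG, zero_mul]
    have hmem := hSmax g ⟨hgA, hgp, hg0, hcon⟩ fun q hq => ⟨horth q hq, by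
      rw [hA.comm _ (hSg q hq).1 _ hgA]; exact horth q hq⟩
    have h2 := horth g hmem
    rw [hgp.isIdempotentElem.eq] at h2
    exact hg0 h2

section Corner

variable (U : Submodule ℂ H) [U.HasOrthogonalProjection]

/-- Extend an operator on a subspace by zero. -/
noncomputable def ext0 (y : U →L[ℂ] U) : H →L[ℂ] H :=
  U.subtypeL ∘L (y ∘L U.orthogonalProjectionOnto)

/-- Compress an operator to a subspace. -/
noncomputable def comp0 (x : H →L[ℂ] H) : U →L[ℂ] U :=
  U.orthogonalProjectionOnto ∘L (x ∘L U.subtypeL)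

omit [CompleteSpace H] in
theorem ext0_apply (y : U →L[ℂ] U) (v : H) : ext0 U y v = (y (U.orthogonalProjectionOnto v) : H) :=
  rfl

omit [CompleteSpace H] in
theorem ext0_comp0 (x : H →L[ℂ] H) :
    ext0 U (comp0 U x) = U.starProjection * x * U.starProjection := by
  ext v; rfl

omit [CompleteSpace H] in
theorem comp0_ext0 (y : U →L[ℂ] U) : comp0 U (ext0 U y) = y := by
  ext v
  simp [comp0, ext0]

omit [CompleteSpace H] in
theorem ext0_mul (y z : U →L[ℂ] U) : ext0 U (y * z) = ext0 U y * ext0 U z := by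
  ext v
  simp [ext0_apply]

omit [CompleteSpace H] in
theorem ext0_add (y z : U →L[ℂ] U) : ext0 U (y + z) = ext0 U y + ext0 U z := by
  ext v; simp [ext0_apply]

omit [CompleteSpace H] in
theorem ext0_sub (y z : U →L[ℂ] U) : ext0 U (y - z) = ext0 U y - ext0 U z := by
  ext v; simp [ext0_apply]

omit [CompleteSpace H] in
theorem ext0_smul (c : ℂ) (y : U →L[ℂ] U) : ext0 U (c • y) = c • ext0 U y := by
  ext v; simp [ext0_apply]

omit [CompleteSpace H] in
theorem ext0_zero : ext0 U 0 = 0 := by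
  ext v; simp [ext0_apply]

omit [CompleteSpace H] in
theorem ext0_sum {ι : Type*} (s : Finset ι) (y : ι → (U →L[ℂ] U)) :
    ext0 U (∑ i ∈ s, y i) = ∑ i ∈ s, ext0 U (y i) := by
  ext v; simp [ext0_apply, sum_apply]

omit [CompleteSpace H] in
theorem ext0_one : ext0 U 1 = U.starProjection := by
  ext v; rfl

theorem ext0_star [CompleteSpace U] (y : U →L[ℂ] U) : ext0 U (star y) = star (ext0 U y) := by
  simp only [ext0, ContinuousLinearMap.star_eq_adjoint, ContinuousLinearMap.adjoint_comp,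
    Submodule.adjoint_orthogonalProjectionOnto, Submodule.adjoint_subtypeL,
    ContinuousLinearMap.comp_assoc]

omit [CompleteSpace H] in
theorem ext0_injective : Function.Injective (ext0 U) := fun y z h => by
  rw [← comp0_ext0 U y, h, comp0_ext0]

omit [CompleteSpace H] in
theorem norm_ext0_le (y : U →L[ℂ] U) : ‖ext0 U y‖ ≤ ‖y‖ :=
  ContinuousLinearMap.opNorm_le_bound _ (norm_nonneg y) fun v =>
    le_trans (y.le_opNorm _) (mul_le_mul_of_nonneg_left
      (le_trans (U.orthogonalProjectionOnto.le_opNorm v)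
        (by simpa using mul_le_mul_of_nonneg_right U.orthogonalProjectionOnto_norm_le (norm_nonneg v)))
      (norm_nonneg _))

omit [CompleteSpace H] in
theorem norm_comp0_le (x : H →L[ℂ] H) : ‖comp0 U x‖ ≤ ‖x‖ :=
  ContinuousLinearMap.opNorm_le_bound _ (norm_nonneg _) fun v =>
    le_trans (U.orthogonalProjectionOnto.le_opNorm _)
      (le_trans (mul_le_mul_of_nonneg_right U.orthogonalProjectionOnto_norm_le (norm_nonneg _))
        (by rw [one_mul]; exact x.le_opNorm _))

omit [CompleteSpace H] in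
theorem ext0_algebraMap [CompleteSpace U] (c : ℂ) :
    ext0 U (algebraMap ℂ (U →L[ℂ] U) c) = c • U.starProjection := by
  rw [Algebra.algebraMap_eq_smul_one, ext0_smul, ext0_one]

/-- The star subalgebra of operators on `U` whose extension lies in a given one. -/
noncomputable def cornerSub [CompleteSpace U] (S : StarSubalgebra ℂ (H →L[ℂ] H))
    (hU : U.starProjection ∈ S) : StarSubalgebra ℂ (U →L[ℂ] U) where
  carrier := {y | ext0 U y ∈ S}
  mul_mem' := fun {a b} ha hb => by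
    show ext0 U (a * b) ∈ S
    rw [ext0_mul]; exact mul_mem ha hb
  one_mem' := by
    show ext0 U 1 ∈ S
    rw [ext0_one]; exact hU
  add_mem' := fun {a b} ha hb => by
    show ext0 U (a + b) ∈ S
    rw [ext0_add]; exact add_mem ha hb
  zero_mem' := by
    show ext0 U 0 ∈ S
    rw [ext0_zero]; exact zero_mem S
  algebraMap_mem' := fun c => by
    show ext0 U _ ∈ S
    rw [ext0_algebraMap]; exact SMulMemClass.smul_mem c hU
  star_mem' := fun {a} ha => by
    show ext0 U (star a) ∈ S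
    rw [ext0_star]; exact star_mem ha

theorem mem_cornerSub [CompleteSpace U] {S : StarSubalgebra ℂ (H →L[ℂ] H)}
    {hU : U.starProjection ∈ S} {y : U →L[ℂ] U} : y ∈ cornerSub U S hU ↔ ext0 U y ∈ S :=
  Iff.rfl

/-- The compressed von Neumann algebra. -/
noncomputable def cornerVN [CompleteSpace U] (M : VonNeumannAlgebra H) (hU : U.starProjection ∈ M) :
    VonNeumannAlgebra U where
  toStarSubalgebra := cornerSub U M.toStarSubalgebra hU
  centralizer_centralizer' := by
    refine Set.Subset.antisymm (fun z hz => ?_) Set.subset_centralizer_centralizer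
    show ext0 U z ∈ M
    rw [mem_vn_iff]
    intro m hm
    have hme : m * U.starProjection = U.starProjection * m := (mem_vn_iff.1 hU) m hm
    have hj : ext0 U (comp0 U m) = m * U.starProjection := by
      rw [ext0_comp0, ← hme, mul_assoc, U.isIdempotentElem_starProjection.eq]
    have hze : ∀ y : U →L[ℂ] U, U.starProjection * ext0 U y = ext0 U y ∧
        ext0 U y * U.starProjection = ext0 U y := fun y => by
      rw [← ext0_one, ← ext0_mul, ← ext0_mul, one_mul, mul_one]; exact ⟨rfl, rfl⟩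
    have hc : comp0 U m ∈ Set.centralizer
        ((cornerSub U M.toStarSubalgebra hU : StarSubalgebra ℂ (U →L[ℂ] U)) : Set (U →L[ℂ] U)) := by
      intro y hy
      apply ext0_injective U
      rw [ext0_mul, ext0_mul, hj]
      have h1 : m * ext0 U y = ext0 U y * m := (mem_vn_iff.1 (show ext0 U y ∈ M from hy)) m hm
      rw [← mul_assoc, ← h1, mul_assoc, (hze y).2, mul_assoc, (hze y).1]
    have h2 := congrArg (ext0 U) (hz (comp0 U m) hc)
    rw [ext0_mul, ext0_mul, hj] at h2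
    rw [mul_assoc, (hze z).1, hme, ← mul_assoc, (hze z).2] at h2
    exact h2

theorem mem_cornerVN [CompleteSpace U] {hU : U.starProjection ∈ M} {y : U →L[ℂ] U} :
    y ∈ cornerVN U M hU ↔ ext0 U y ∈ M :=
  Iff.rfl

variable [CompleteSpace U] (hU : U.starProjection ∈ A) (hUM : U.starProjection ∈ M)

theorem corner_isMasa (hA : IsMasa M A) : IsMasa (cornerVN U M hUM) (cornerSub U A hU) := by
  refine ⟨fun y hy => hA.le _ hy, fun a ha b hb => ext0_injective U ?_, fun B hB hBM hBc => ?_⟩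
  · rw [ext0_mul, ext0_mul]; exact hA.comm _ ha _ hb
  · refine le_antisymm (fun y hy => ?_) hB
    refine hA.mem_of_commute (hBM y hy) fun a ha => ?_
    have hce : ext0 U (comp0 U a) = a * U.starProjection := by
      rw [ext0_comp0, hA.comm _ hU _ ha, mul_assoc, U.isIdempotentElem_starProjection.eq]
    have hcA : comp0 U a ∈ cornerSub U A hU := by
      rw [mem_cornerSub, hce]; exact mul_mem ha hU
    have h := congrArg (ext0 U) (hBc y hy _ (hB hcA))
    rw [ext0_mul, ext0_mul, hce] at h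
    have he : U.starProjection * ext0 U y = ext0 U y ∧ ext0 U y * U.starProjection = ext0 U y := by
      rw [← ext0_one, ← ext0_mul, ← ext0_mul, one_mul, mul_one]; exact ⟨rfl, rfl⟩
    rw [mul_assoc a, he.1, hA.comm _ ha _ hU, ← mul_assoc, he.2] at h
    exact h

theorem corner_normalCentral {ψ : (H →L[ℂ] H) → ℂ} (hψ : IsNormalCentral M A ψ) :
    IsNormalCentral (cornerVN U M hUM) (cornerSub U A hU) (fun y => ψ (ext0 U y)) := by
  classical
  refine ⟨fun x hx y hy => ?_, fun c x hx => ?_, fun x hx => ?_, fun a ha x hx => ?_, fun t ht => ?_⟩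
  · rw [ext0_add]; exact hψ.map_add _ hx _ hy
  · rw [ext0_smul]; exact hψ.map_smul c _ hx
  · rw [ext0_mul, ext0_star]; exact hψ.nonneg _ hx
  · rw [ext0_mul, ext0_mul]; exact hψ.central _ ha _ hx
  · obtain ⟨F, d, hd, hF⟩ := hψ.normal t ht
    refine ⟨F.image U.orthogonalProjectionOnto, d, hd, fun x hx hx1 hxF => ?_⟩
    exact hF _ hx (le_trans (norm_ext0_le U x) hx1) fun v hv => by
      rw [ext0_apply]; exact hxF _ (Finset.mem_image_of_mem _ hv)

end Corner

theorem norm_orth_add_le {e f : H →L[ℂ] H} (he : IsStarProjection e) (hf : IsStarProjection f)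
    (hef : e * f = 0) {X Y : H →L[ℂ] H} (hX : e * X * e = X) (hY : f * Y * f = Y) {m : ℝ}
    (hm : 0 ≤ m) (hXn : ‖X‖ ≤ m) (hYn : ‖Y‖ ≤ m) : ‖X + Y‖ ≤ m := by
  refine ContinuousLinearMap.opNorm_le_bound _ hm fun v => ?_
  have e1 : X v = e (X (e v)) := (congrArg (fun T : H →L[ℂ] H => T v) hX).symm
  have e2 : Y v = f (Y (f v)) := (congrArg (fun T : H →L[ℂ] H => T v) hY).symm
  have h0 : ⟪e (X (e v)), f (Y (f v))⟫_ℂ = 0 := inner_orth_zero he hef _ _
  have hh := norm_add_sq_eq_norm_sq_add_norm_sq_of_inner_eq_zero (𝕜 := ℂ) _ _ h0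
  rw [← e1, ← e2] at hh
  have h1 : ‖X v‖ ≤ m * ‖e v‖ := by
    rw [e1]
    exact le_trans (proj_apply_norm_le he _) (le_trans (X.le_opNorm _)
      (mul_le_mul_of_nonneg_right hXn (norm_nonneg _)))
  have h2 : ‖Y v‖ ≤ m * ‖f v‖ := by
    rw [e2]
    exact le_trans (proj_apply_norm_le hf _) (le_trans (Y.le_opNorm _)
      (mul_le_mul_of_nonneg_right hYn (norm_nonneg _)))
  have h3 : ‖e v‖ ^ 2 + ‖f v‖ ^ 2 ≤ ‖v‖ ^ 2 := by
    have hs := norm_add_sq_eq_norm_sq_add_norm_sq_of_inner_eq_zero (𝕜 := ℂ) _ _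
      (inner_orth_zero he hef v v)
    have h4 := proj_apply_norm_le (he.add hf hef) v
    rw [add_apply] at h4
    nlinarith [norm_nonneg (e v + f v)]
  rw [add_apply]
  have h5 : ‖X v + Y v‖ ^ 2 ≤ (m * ‖v‖) ^ 2 := by
    have h6 : ‖X v‖ ^ 2 ≤ (m * ‖e v‖) ^ 2 := pow_le_pow_left₀ (norm_nonneg _) h1 2
    have h7 : ‖Y v‖ ^ 2 ≤ (m * ‖f v‖) ^ 2 := pow_le_pow_left₀ (norm_nonneg _) h2 2
    have h8 : m ^ 2 * (‖e v‖ ^ 2 + ‖f v‖ ^ 2) ≤ m ^ 2 * ‖v‖ ^ 2 :=
      mul_le_mul_of_nonneg_left h3 (sq_nonneg m)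
    nlinarith
  exact (abs_le_of_sq_le_sq' h5 (by positivity)).2

theorem pave_split (hA : IsMasa M A) {x : H →L[ℂ] H} {ε : ℝ} (hε : 0 ≤ ε) {r₁ r₂ : ℕ}
    (F : Finset H) {δ : ℝ} {e f : H →L[ℂ] H} (he : IsStarProjection e) (hf : IsStarProjection f)
    (hef : e * f = 0) (hsum : e + f = 1)
    {p₁ : Fin r₁ → (H →L[ℂ] H)} {p₂ : Fin r₂ → (H →L[ℂ] H)}
    (hp₁A : ∀ i, p₁ i ∈ A) (hp₁p : ∀ i, IsStarProjection (p₁ i))
    (hp₁o : ∀ i j, i ≠ j → p₁ i * p₁ j = 0) (hp₁s : ∑ i, p₁ i = e)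
    (hp₂A : ∀ i, p₂ i ∈ A) (hp₂p : ∀ i, IsStarProjection (p₂ i))
    (hp₂o : ∀ i j, i ≠ j → p₂ i * p₂ j = 0) (hp₂s : ∑ i, p₂ i = f)
    {a₁ a₂ : H →L[ℂ] H} (ha₁ : a₁ ∈ A) (ha₁s : IsSelfAdjoint a₁) (ha₁n : ‖a₁‖ ≤ ‖x‖)
    (ha₁e : e * a₁ = a₁) (ha₂ : a₂ ∈ A) (ha₂s : IsSelfAdjoint a₂) (ha₂n : ‖a₂‖ ≤ ‖x‖)
    (ha₂f : f * a₂ = a₂) {q₁ q₂ : H →L[ℂ] H} (hq₁M : q₁ ∈ M) (hq₁p : IsStarProjection q₁)
    (hq₁e : q₁ * e = q₁) (hq₁d : ∀ v ∈ F, ‖(e - q₁) v‖ < δ / 2)
    (hq₁n : ‖q₁ * (pinching p₁ x - a₁) * q₁‖ ≤ ε * ‖x‖)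
    (hq₂M : q₂ ∈ M) (hq₂p : IsStarProjection q₂)
    (hq₂f : q₂ * f = q₂) (hq₂d : ∀ v ∈ F, ‖(f - q₂) v‖ < δ / 2)
    (hq₂n : ‖q₂ * (pinching p₂ x - a₂) * q₂‖ ≤ ε * ‖x‖) :
    ∃ p : Fin (r₁ + r₂) → (H →L[ℂ] H), IsPartition A p ∧
    ∃ a ∈ A, IsSelfAdjoint a ∧ ‖a‖ ≤ ‖x‖ ∧
    ∃ q ∈ M, IsStarProjection q ∧ (∀ ξ ∈ F, ‖(1 - q) ξ‖ < δ) ∧
      ‖q * (pinching p x - a) * q‖ ≤ ε * ‖x‖ := by
  classical
  have hfe : f * e = 0 := by
    have := congrArg star hef
    rwa [star_mul, he.isSelfAdjoint.star_eq, hf.isSelfAdjoint.star_eq, star_zero] at this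
  have hsub : ∀ {r : ℕ} (p : Fin r → (H →L[ℂ] H)) (g : H →L[ℂ] H), IsStarProjection g →
      (∀ i, IsStarProjection (p i)) → (∀ i j, i ≠ j → p i * p j = 0) → ∑ i, p i = g →
      ∀ i, p i * g = p i ∧ g * p i = p i := by
    intro r p g hg hp ho hs i
    have e1 : p i * g = p i := by
      rw [← hs, Finset.mul_sum, Finset.sum_eq_single i (fun j _ hj => ho i j (Ne.symm hj)) (by simp),
        (hp i).isIdempotentElem.eq]
    exact ⟨e1, sum_orth_apply_fix hg (hp i) e1⟩
  have h1 := hsub p₁ e he hp₁p hp₁o hp₁s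
  have h2 := hsub p₂ f hf hp₂p hp₂o hp₂s
  have h12 : ∀ i j, p₁ i * p₂ j = 0 := fun i j => by
    rw [← (h1 i).1, ← (h2 j).2, mul_assoc, ← mul_assoc e, hef, zero_mul, mul_zero]
  have h21 : ∀ i j, p₂ j * p₁ i = 0 := fun i j => by
    rw [← (h2 j).1, ← (h1 i).2, mul_assoc, ← mul_assoc f, hfe, zero_mul, mul_zero]
  have hq₁e' := sum_orth_apply_fix he hq₁p hq₁e
  have hq₂f' := sum_orth_apply_fix hf hq₂p hq₂f
  refine ⟨Fin.append p₁ p₂, ⟨fun i => ?_, fun i => ?_, fun i j hij => ?_, ?_⟩, a₁ + a₂,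
    add_mem ha₁ ha₂, ha₁s.add ha₂s, ?_, q₁ + q₂, add_mem hq₁M hq₂M, ?_, ?_, ?_⟩
  · refine Fin.addCases (fun k => ?_) (fun k => ?_) i
    · rw [Fin.append_left]; exact hp₁A k
    · rw [Fin.append_right]; exact hp₂A k
  · refine Fin.addCases (fun k => ?_) (fun k => ?_) i
    · rw [Fin.append_left]; exact hp₁p k
    · rw [Fin.append_right]; exact hp₂p k
  · revert hij
    refine Fin.addCases (fun k => ?_) (fun k => ?_) i <;>
      refine Fin.addCases (fun l => ?_) (fun l => ?_) j <;> intro hij <;>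
      simp only [Fin.append_left, Fin.append_right]
    · exact hp₁o k l fun h => hij (h ▸ rfl)
    · exact h12 k l
    · exact h21 l k
    · exact hp₂o k l fun h => hij (h ▸ rfl)
  · rw [Fin.sum_univ_add]
    simp only [Fin.append_left, Fin.append_right, hp₁s, hp₂s, hsum]
  · have hc : ∀ {g a : H →L[ℂ] H}, g * a = a → IsStarProjection g → IsSelfAdjoint a →
        g * a * g = a := by
      intro g a hga hg ha
      rw [hga]
      have := congrArg star hga
      rwa [star_mul, hg.isSelfAdjoint.star_eq, ha.star_eq] at this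
    exact norm_orth_add_le he hf hef (hc ha₁e he ha₁s) (hc ha₂f hf ha₂s) (norm_nonneg _) ha₁n ha₂n
  · refine hq₁p.add hq₂p ?_
    rw [← hq₁e, ← hq₂f', mul_assoc, ← mul_assoc e, hef, zero_mul, mul_zero]
  · intro v hv
    have e1 : (1 - (q₁ + q₂)) v = (e - q₁) v + (f - q₂) v := by
      rw [← hsum]; simp only [sub_apply, add_apply]; abel
    rw [e1]
    exact lt_of_le_of_lt (norm_add_le _ _) (by linarith [hq₁d v hv, hq₂d v hv])
  · obtain ⟨B₁, hB₁⟩ : ∃ B : H →L[ℂ] H, B = pinching p₁ x - a₁ := ⟨_, rfl⟩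
    obtain ⟨B₂, hB₂⟩ : ∃ B : H →L[ℂ] H, B = pinching p₂ x - a₂ := ⟨_, rfl⟩
    have hB : pinching (Fin.append p₁ p₂) x - (a₁ + a₂) = B₁ + B₂ := by
      rw [hB₁, hB₂, pinching, Fin.sum_univ_add]
      simp only [Fin.append_left, Fin.append_right, pinching]
      abel
    have hsupp : ∀ {r : ℕ} (p : Fin r → (H →L[ℂ] H)) (g a : H →L[ℂ] H),
        (∀ i, p i * g = p i ∧ g * p i = p i) → g * a = a → IsStarProjection g → IsSelfAdjoint a →
        g * (pinching p x - a) = pinching p x - a ∧ (pinching p x - a) * g = pinching p x - a := by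
      intro r p g a hp hga hg ha
      have hag : a * g = a := by
        have := congrArg star hga
        rwa [star_mul, hg.isSelfAdjoint.star_eq, ha.star_eq] at this
      constructor
      · rw [mul_sub, hga, pinching, Finset.mul_sum]
        simp only [← mul_assoc, (hp _).2]
      · rw [sub_mul, hag, pinching, Finset.sum_mul]
        simp only [mul_assoc, (hp _).1]
    obtain ⟨s1, s1'⟩ := hsupp p₁ e a₁ h1 ha₁e he ha₁s
    obtain ⟨s2, s2'⟩ := hsupp p₂ f a₂ h2 ha₂f hf ha₂s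
    rw [← hB₁] at s1 s1' hq₁n
    rw [← hB₂] at s2 s2' hq₂n
    have z1 : q₂ * B₁ = 0 := by
      rw [← s1, ← hq₂f, mul_assoc, ← mul_assoc f, hfe, zero_mul, mul_zero]
    have z2 : B₁ * q₂ = 0 := by
      rw [← s1', ← hq₂f', mul_assoc, ← mul_assoc e, hef, zero_mul, mul_zero]
    have z3 : q₁ * B₂ = 0 := by
      rw [← s2, ← hq₁e, mul_assoc, ← mul_assoc e, hef, zero_mul, mul_zero]
    have z4 : B₂ * q₁ = 0 := by
      rw [← s2', ← hq₁e', mul_assoc, ← mul_assoc f, hfe, zero_mul, mul_zero]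
    have key : (q₁ + q₂) * (B₁ + B₂) * (q₁ + q₂) = q₁ * B₁ * q₁ + q₂ * B₂ * q₂ := by
      simp only [add_mul, mul_add, z1, z3, mul_assoc, z2, z4, mul_zero, add_zero, zero_add]
    rw [hB, key]
    have hc : ∀ {q g B : H →L[ℂ] H}, g * q = q → q * g = q →
        g * (q * B * q) * g = q * B * q := by
      intro q g B h1 h2
      calc g * (q * B * q) * g = g * q * B * (q * g) := by simp only [mul_assoc]
        _ = _ := by rw [h1, h2]
    exact norm_orth_add_le he hf hef (hc hq₁e' hq₁e) (hc hq₂f' hq₂f) (by positivity) hq₁n hq₂n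

/-- Reduction: paving for MASAs with separating normal centralised functionals gives paving for
every MASA, at the cost of `⌊1/ε⌋₊ + 1` further pieces. -/
theorem allSoPavable_of_corners {ε : ℝ} (hε : 0 < ε) {r : ℕ} (hA : IsMasa M A)
    (hyp : ∀ (U : Submodule ℂ H) [U.HasOrthogonalProjection] [CompleteSpace U]
      (heA : U.starProjection ∈ A) (heM : U.starProjection ∈ M),
      SeparatingNormalCentral (cornerVN U M heM) (cornerSub U A heA) →
      AllSoPavable (cornerVN U M heM) (cornerSub U A heA) ε r) :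
    AllSoPavable M A ε (r + (⌊1 / ε⌋₊ + 1)) := by
  classical
  intro x hx hxs F δ hδ
  obtain ⟨f, hfA, hfp, hnull, hsepa⟩ := exists_null_part hA
  obtain ⟨p₂, hp₂A, hp₂p, hp₂o, hp₂s, a₂, ha₂, ha₂s, ha₂n, ha₂f, q₂, hq₂M, hq₂p, hq₂f, hq₂d, hq₂n⟩ :=
    pave_below hA hfA hfp (smallCompression_of_null hA hfA hfp hnull) hx hxs (floor_lt ε hε)
      (Nat.succ_ne_zero _) F (show 0 < δ / 2 by linarith)
  obtain ⟨U, hUp, hUe⟩ := isStarProjection_iff_eq_starProjection.1 hfp.one_sub
  have : CompleteSpace U := by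
    have hcl : IsClosed (U : Set H) := by
      have : (U : Set H) = {v | U.starProjection v = v} := by
        ext v; exact Submodule.starProjection_eq_self_iff.symm
      rw [this]
      exact isClosed_eq U.starProjection.continuous continuous_id
    exact hcl.completeSpace_coe
  have heA : U.starProjection ∈ A := hUe ▸ sub_mem (one_mem A) hfA
  have heM : U.starProjection ∈ M := hA.le _ heA
  have hep : IsStarProjection U.starProjection := isStarProjection_starProjection
  have hef : U.starProjection * f = 0 := by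
    rw [← hUe]; exact hfp.one_sub_mul_self
  have hsum : U.starProjection + f = 1 := by rw [← hUe, sub_add_cancel]
  have hsep : SeparatingNormalCentral (cornerVN U M heM) (cornerSub U A heA) := by
    intro g hg hgp hg0
    have hJ : IsStarProjection (ext0 U g) := by
      refine ⟨?_, ?_⟩
      · show ext0 U g * ext0 U g = ext0 U g
        rw [← ext0_mul, hgp.isIdempotentElem.eq]
      · rw [IsSelfAdjoint, ← ext0_star, hgp.isSelfAdjoint.star_eq]
    have hJ0 : ext0 U g ≠ 0 := fun h => hg0 (ext0_injective U (h.trans (ext0_zero U).symm))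
    have hJf : ext0 U g * f = 0 := by
      rw [← mul_one g, ext0_mul, ext0_one, mul_assoc, hef, mul_zero]
    obtain ⟨ψ, hψ, hψg⟩ := hsepa (ext0 U g) hg hJ hJ0 hJf
    exact ⟨_, corner_normalCentral U heA heM hψ, hψg⟩
  have hyM : comp0 U x ∈ cornerVN U M heM := by
    rw [mem_cornerVN, ext0_comp0]; exact mul_mem (mul_mem heM hx) heM
  have hys : IsSelfAdjoint (comp0 U x) := by
    refine ext0_injective U ?_
    rw [ext0_star, ext0_comp0, star_mul, star_mul, hep.isSelfAdjoint.star_eq, hxs.star_eq, mul_assoc]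
  obtain ⟨p, hp, a, ha, has, han, q, hqM, hqp, hqd, hqn⟩ :=
    hyp U heA heM hsep _ hyM hys (F.image U.orthogonalProjectionOnto)
      (δ / 2) (by linarith)
  have hproj : ∀ {y : U →L[ℂ] U}, IsStarProjection y → IsStarProjection (ext0 U y) := by
    intro y hy
    refine ⟨?_, ?_⟩
    · show ext0 U y * ext0 U y = ext0 U y
      rw [← ext0_mul, hy.isIdempotentElem.eq]
    · rw [IsSelfAdjoint, ← ext0_star, hy.isSelfAdjoint.star_eq]
  have hJa : ‖ext0 U a‖ ≤ ‖x‖ := le_trans (norm_ext0_le U a) (le_trans han (norm_comp0_le U x))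
  have hJd : ∀ v ∈ F, ‖(U.starProjection - ext0 U q) v‖ < δ / 2 := by
    intro v hv
    rw [← ext0_one, ← ext0_sub, ext0_apply]
    exact hqd _ (Finset.mem_image_of_mem _ hv)
  have hJn : ‖ext0 U q * (pinching (fun i => ext0 U (p i)) x - ext0 U a) * ext0 U q‖ ≤ ε * ‖x‖ := by
    have e : pinching (fun i => ext0 U (p i)) x - ext0 U a
        = ext0 U (pinching p (comp0 U x) - a) := by
      rw [ext0_sub, pinching, pinching, ext0_sum]
      congr 1
    rw [e, ← ext0_mul, ← ext0_mul]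
    exact le_trans (norm_ext0_le U _) (le_trans hqn
      (mul_le_mul_of_nonneg_left (norm_comp0_le U x) hε.le))
  exact pave_split hA hε.le F hep hfp hef hsum (fun i => hp.mem i) (fun i => hproj (hp.proj i))
    (fun i j h => by rw [← ext0_mul, hp.orth i j h, ext0_zero])
    (by rw [← ext0_sum, hp.sum_eq, ext0_one])
    hp₂A hp₂p hp₂o hp₂s ha (by rw [IsSelfAdjoint, ← ext0_star, has.star_eq]) hJa
    (by rw [← ext0_one, ← ext0_mul, one_mul]) ha₂ ha₂s ha₂n ha₂f hqM (hproj hqp)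
    (by rw [← ext0_one, ← ext0_mul, mul_one]) hJd hJn hq₂M hq₂p hq₂f hq₂d hq₂n

/-- Paving of MASAs with separating normal centralised functionals paves all MASAs. -/
theorem allSoPavable_of_separating {ε : ℝ} (hε : 0 < ε) {r : ℕ}
    (hyp : ∀ (K : Type) [NormedAddCommGroup K] [InnerProductSpace ℂ K] [CompleteSpace K]
      (N : VonNeumannAlgebra K) (B : StarSubalgebra ℂ (K →L[ℂ] K)),
      IsMasa N B → SeparatingNormalCentral N B → AllSoPavable N B ε r)
    (hA : IsMasa M A) : AllSoPavable M A ε (r + (⌊1 / ε⌋₊ + 1)) :=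
  allSoPavable_of_corners hε hA fun U _ _ heA heM hsep =>
    hyp U _ _ (corner_isMasa U heA heM hA) hsep

/-- The quadratic bound for all MASAs is equivalent to the one for separating MASAs. -/
theorem quadratic_iff : QuadraticPavingAll ↔ QuadraticPavingSeparating := by
  constructor
  · rintro ⟨C, hC⟩
    exact ⟨C, fun H _ _ _ M A hA _ => hC H M A hA⟩
  · rintro ⟨C, hC⟩
    refine ⟨C + 2, fun H _ _ _ M A hA ε hε hε1 => ?_⟩
    obtain ⟨R, hR⟩ : ∃ R : ℕ, R = ⌊C / ε ^ 2⌋₊ := ⟨_, rfl⟩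
    have hpad : ∀ (K : Type) [NormedAddCommGroup K] [InnerProductSpace ℂ K] [CompleteSpace K]
        (N : VonNeumannAlgebra K) (B : StarSubalgebra ℂ (K →L[ℂ] K)),
        IsMasa N B → SeparatingNormalCentral N B → AllSoPavable N B ε R := by
      intro K _ _ _ N B hB hsep
      obtain ⟨r, hr, hp⟩ := hC K N B hB hsep ε hε hε1
      obtain ⟨k, hk⟩ : ∃ k, R = r + k := ⟨R - r, by
        have : r ≤ R := hR ▸ Nat.le_floor hr
        omega⟩
      subst hk
      intro x hx hxs F δ hδ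
      obtain ⟨p, hpp, a, ha, has, han, q, hq, hqp, hqd, hqn⟩ := hp x hx hxs F δ hδ
      refine ⟨Fin.append p (fun _ : Fin k => 0), ⟨fun i => ?_, fun i => ?_, fun i j hij => ?_, ?_⟩,
        a, ha, has, han, q, hq, hqp, hqd, ?_⟩
      · refine Fin.addCases (fun l => ?_) (fun l => ?_) i
        · rw [Fin.append_left]; exact hpp.mem l
        · rw [Fin.append_right]; exact zero_mem _
      · refine Fin.addCases (fun l => ?_) (fun l => ?_) i
        · rw [Fin.append_left]; exact hpp.proj l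
        · rw [Fin.append_right]; exact .zero _
      · revert hij
        refine Fin.addCases (fun l => ?_) (fun l => ?_) i <;>
          refine Fin.addCases (fun m => ?_) (fun m => ?_) j <;> intro hij <;>
          simp only [Fin.append_left, Fin.append_right, mul_zero, zero_mul]
        exact hpp.orth l m fun h => hij (h ▸ rfl)
      · rw [Fin.sum_univ_add]
        simp only [Fin.append_left, Fin.append_right, Finset.sum_const_zero, add_zero, hpp.sum_eq]
      · have e : pinching (Fin.append p (fun _ : Fin k => (0 : K →L[ℂ] K))) x = pinching p x := by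
          unfold pinching
          rw [Fin.sum_univ_add]
          simp only [Fin.append_left, Fin.append_right, zero_mul, Finset.sum_const_zero, add_zero]
        rw [e]; exact hqn
    refine ⟨R + (⌊1 / ε⌋₊ + 1), ?_, allSoPavable_of_separating hε hpad hA⟩
    by_cases hC0 : 0 ≤ C / ε ^ 2
    · have h1 : (R : ℝ) ≤ C / ε ^ 2 := hR ▸ Nat.floor_le hC0
      have h2 : (⌊1 / ε⌋₊ : ℝ) ≤ 1 / ε := Nat.floor_le (by positivity)
      have hsq : 1 ≤ 1 / ε ^ 2 := by
        rw [le_div_iff₀ (by positivity)]; nlinarith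
      have h3 : 1 / ε ≤ 1 / ε ^ 2 := by
        rw [div_le_div_iff₀ hε (by positivity)]; nlinarith
      have h4 : (C + 2) / ε ^ 2 = C / ε ^ 2 + 2 * (1 / ε ^ 2) := by ring
      push_cast
      linarith
    · exfalso
      push Not at hC0
      -- a negative bound is contradicted by the trivial algebra on the one-dimensional space
      have hAtriv : ∀ x : ℂ →L[ℂ] ℂ, x = (x 1) • (1 : ℂ →L[ℂ] ℂ) := fun x => by
        ext; simp
      have hcent : Set.centralizer (Set.centralizer ((⊤ : StarSubalgebra ℂ (ℂ →L[ℂ] ℂ)).carrier))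
          = (⊤ : StarSubalgebra ℂ (ℂ →L[ℂ] ℂ)).carrier := by
        refine Set.Subset.antisymm (fun x _ => trivial) Set.subset_centralizer_centralizer
      let N : VonNeumannAlgebra ℂ := ⟨⊤, hcent⟩
      have hcomm : ∀ a b : ℂ →L[ℂ] ℂ, a * b = b * a := fun a b => by
        ext
        rw [hAtriv a, hAtriv b]
        simp [mul_comm]
      have hB : IsMasa N (⊤ : StarSubalgebra ℂ (ℂ →L[ℂ] ℂ)) :=
        ⟨fun _ _ => trivial, fun a _ b _ => hcomm a b, fun B hB _ _ => le_antisymm le_top hB⟩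
      have hsep : SeparatingNormalCentral N (⊤ : StarSubalgebra ℂ (ℂ →L[ℂ] ℂ)) := by
        intro g _ _ hg0
        refine ⟨fun x => x 1, ⟨fun _ _ _ _ => rfl, fun _ _ _ => rfl, fun x _ => ?_, ?_, ?_⟩, ?_⟩
        · show 0 ≤ (star x * x) 1
          have h := ContinuousLinearMap.adjoint_inner_right x (1 : ℂ) (x 1)
          rw [mul_apply', ContinuousLinearMap.star_eq_adjoint]
          have : (adjoint x) (x 1) = ⟪(1 : ℂ), (adjoint x) (x 1)⟫_ℂ := by simp
          rw [this, h, inner_self_eq_norm_sq_to_K]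
          have h2 : (0 : ℂ) ≤ ((‖x 1‖ ^ 2 : ℝ) : ℂ) := by
            rw [Complex.zero_le_real]; positivity
          simpa using h2
        · intro a _ x _
          rw [hcomm]
        · intro t ht
          exact ⟨{1}, t, ht, fun x _ _ h => h 1 (Finset.mem_singleton_self _)⟩
        · intro h
          exact hg0 (by ext; simpa using h)
      obtain ⟨r, hr, -⟩ := hC ℂ N ⊤ hB hsep ε hε hε1
      linarith [(Nat.cast_nonneg r : (0 : ℝ) ≤ r)]

end Vale.Agent.P078
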