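import Vale.Agent.P078.Defs

/-!
Basic facts: membership in von Neumann algebras, relative commutant, cuts by projections.
-/

namespace Vale.Agent.P078

open scoped InnerProductSpace
open ContinuousLinearMap

variable {H : Type} [NormedAddCommGroup H] [InnerProductSpace ℂ H] [CompleteSpace H]
variable {M : VonNeumannAlgebra H} {A : StarSubalgebra ℂ (H →L[ℂ] H)}

theorem mem_vn_iff {x : H →L[ℂ] H} :
    x ∈ M ↔ ∀ z ∈ M.commutant, z * x = x * z := by
  conv_lhs => rw [← M.commutant_commutant]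
  simp only [VonNeumannAlgebra.mem_commutant_iff]

theorem vn_smul_mem (c : ℂ) {x : H →L[ℂ] H} (hx : x ∈ M) : c • x ∈ M :=
  M.toStarSubalgebra.smul_mem hx c

theorem vn_cfc_mem {x : H →L[ℂ] H} (hx : x ∈ M) (f : ℝ → ℝ) : cfc f x ∈ M := by
  rw [mem_vn_iff] at hx ⊢
  intro z hz
  have h : Commute x z := (hx z hz).symm
  exact (h.cfc_real f).eq.symm

theorem IsMasa.mem_of_commute_sa (hA : IsMasa M A) {x : H →L[ℂ] H} (hx : x ∈ M)
    (hsa : IsSelfAdjoint x) (h : ∀ a ∈ A, x * a = a * x) : x ∈ A := by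
  let B := StarAlgebra.adjoin ℂ ((A : Set (H →L[ℂ] H)) ∪ {x})
  have hle : A ≤ B := fun a ha => StarAlgebra.subset_adjoin ℂ _ (Or.inl ha)
  have hBM : ∀ b ∈ B, b ∈ M := by
    intro b hb
    exact (StarAlgebra.adjoin_le (S := M.toStarSubalgebra)
      (fun y hy => hy.elim (fun hy => hA.le y hy) (fun hy => by
        rw [Set.mem_singleton_iff] at hy; subst hy; exact hx))) hb
  have hcomm : ∀ a ∈ B, ∀ b ∈ B, a * b = b * a := by
    have h1 : ∀ a ∈ ((A : Set (H →L[ℂ] H)) ∪ {x}), ∀ b ∈ ((A : Set (H →L[ℂ] H)) ∪ {x}),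
        a * b = b * a := by
      rintro a (ha | ha) b (hb | hb)
      · exact hA.comm a ha b hb
      · rw [Set.mem_singleton_iff] at hb; subst hb; exact (h a ha).symm
      · rw [Set.mem_singleton_iff] at ha; subst ha; exact h b hb
      · rw [Set.mem_singleton_iff] at ha hb; subst ha; subst hb; rfl
    have h2 : ∀ a ∈ ((A : Set (H →L[ℂ] H)) ∪ {x}), ∀ b ∈ ((A : Set (H →L[ℂ] H)) ∪ {x}),
        a * star b = star b * a := by
      rintro a ha b (hb | hb)
      · exact h1 a ha _ (Or.inl (star_mem hb))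
      · rw [Set.mem_singleton_iff] at hb; subst hb
        rw [hsa.star_eq]; exact h1 a ha _ (Or.inr rfl)
    intro a ha b hb
    have := StarAlgebra.isMulCommutative_adjoin ℂ h1 h2
    exact setLike_mul_comm ha hb
  have := hA.maximal B hle hBM hcomm
  rw [← this]
  exact StarAlgebra.subset_adjoin ℂ _ (Or.inr rfl)

open ComplexConjugate in
theorem IsMasa.mem_of_commute (hA : IsMasa M A) {x : H →L[ℂ] H} (hx : x ∈ M)
    (h : ∀ a ∈ A, x * a = a * x) : x ∈ A := by
  have hs : ∀ a ∈ A, star x * a = a * star x := by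
    intro a ha
    have := congrArg star (h (star a) (star_mem ha))
    simpa [star_mul] using this.symm
  have hre : x + star x ∈ A := hA.mem_of_commute_sa (add_mem hx (star_mem hx))
    (IsSelfAdjoint.add_star_self x) (fun a ha => by rw [add_mul, mul_add, h a ha, hs a ha])
  have him : Complex.I • (x - star x) ∈ A := hA.mem_of_commute_sa
    (vn_smul_mem _ (sub_mem hx (star_mem hx)))
    (by
      rw [IsSelfAdjoint, star_smul, star_sub, star_star, RCLike.star_def, Complex.conj_I,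
        neg_smul, ← smul_neg, neg_sub])
    (fun a ha => by rw [smul_mul_assoc, mul_smul_comm, sub_mul, mul_sub, h a ha, hs a ha])
  have : x = (1 / 2 : ℂ) • ((x + star x) + (-Complex.I) • (Complex.I • (x - star x))) := by
    rw [smul_smul, neg_mul, Complex.I_mul_I, neg_neg, one_smul]
    module
  rw [this]
  exact SMulMemClass.smul_mem _ (add_mem hre (SMulMemClass.smul_mem _ him))

theorem masa_cfc_mem (hA : IsMasa M A) {x : H →L[ℂ] H} (hx : x ∈ A) (f : ℝ → ℝ) :
    cfc f x ∈ A := by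
  refine hA.mem_of_commute (vn_cfc_mem (hA.le x hx) f) (fun a ha => ?_)
  exact ((show Commute x a from hA.comm x hx a ha).cfc_real f).eq

/-- The orthogonal projection onto a closed subspace invariant under the commutant lies in `M`. -/
theorem proj_mem_vn (U : Submodule ℂ H) [U.HasOrthogonalProjection]
    (h : ∀ z ∈ M.commutant, ∀ v ∈ U, z v ∈ U) : U.starProjection ∈ M := by
  rw [VonNeumannAlgebra.IsStarProjection.mem_iff isStarProjection_starProjection M]
  intro z hz v hv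
  rw [Submodule.range_starProjection] at hv ⊢
  exact h z hz v hv

theorem proj_comm_of_invariant (U : Submodule ℂ H) [U.HasOrthogonalProjection]
    {z : H →L[ℂ] H} (h : ∀ v ∈ U, z v ∈ U) (h' : ∀ v ∈ U, star z v ∈ U) :
    Commute U.starProjection z := by
  ext v
  simp only [ContinuousLinearMap.mul_def, ContinuousLinearMap.comp_apply]
  refine (Submodule.eq_starProjection_of_mem_of_inner_eq_zero (h _ (Submodule.starProjection_apply_mem U v)) ?_)
  intro w hw
  rw [← map_sub]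
  rw [← ContinuousLinearMap.adjoint_inner_right, ← ContinuousLinearMap.star_eq_adjoint]
  exact Submodule.starProjection_inner_eq_zero v _ (h' w hw)

theorem proj_apply_norm_le {p : H →L[ℂ] H} (hp : IsStarProjection p) (v : H) : ‖p v‖ ≤ ‖v‖ := by
  have := p.le_opNorm v
  have h1 : ‖p‖ ≤ 1 := by
    obtain ⟨U, _, rfl⟩ := isStarProjection_iff_eq_starProjection.1 hp
    exact U.starProjection_norm_le
  nlinarith [norm_nonneg v]

theorem sa_inner {p : H →L[ℂ] H} (hp : IsSelfAdjoint p) (u v : H) :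
    ⟪p u, v⟫_ℂ = ⟪u, p v⟫_ℂ := by
  conv_rhs => rw [← hp.star_eq, ContinuousLinearMap.star_eq_adjoint]
  rw [ContinuousLinearMap.adjoint_inner_right]

omit [CompleteSpace H] in
theorem mul_apply' (S T : H →L[ℂ] H) (v : H) : (S * T) v = S (T v) := rfl

/-- The cut function `t ^ 2 / max (t ^ 2) (η ^ 2)`. -/
noncomputable def cutFn (η t : ℝ) : ℝ := t ^ 2 / max (t ^ 2) (η ^ 2)

/-- The bounded inverse `t / max (t ^ 2) (η ^ 2)`. -/
noncomputable def invFn (η t : ℝ) : ℝ := t / max (t ^ 2) (η ^ 2)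

/-- Clipping to `[-η, η]`. -/
noncomputable def clipFn (η t : ℝ) : ℝ := max (-η) (min t η)

theorem max_sq_pos {η : ℝ} (hη : 0 < η) (t : ℝ) : 0 < max (t ^ 2) (η ^ 2) :=
  lt_of_lt_of_le (by positivity) (le_max_right _ _)

theorem continuous_cutFn {η : ℝ} (hη : 0 < η) : Continuous (cutFn η) := by
  unfold cutFn
  exact Continuous.div (by fun_prop) (by fun_prop) fun t => (max_sq_pos hη t).ne'

theorem continuous_invFn {η : ℝ} (hη : 0 < η) : Continuous (invFn η) := by
  unfold invFn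
  exact Continuous.div (by fun_prop) (by fun_prop) fun t => (max_sq_pos hη t).ne'

theorem cutFn_eq_one {η : ℝ} (hη : 0 < η) {t : ℝ} (h : η ^ 2 ≤ t ^ 2) : cutFn η t = 1 := by
  unfold cutFn
  rw [max_eq_left h, div_self]
  nlinarith

theorem clip_mul {η : ℝ} (hη : 0 < η) (t : ℝ) :
    t * (1 - cutFn η t) = clipFn η t * (1 - cutFn η t) := by
  rcases le_or_gt (η ^ 2) (t ^ 2) with h | h
  · simp [cutFn_eq_one hη h]
  · have : clipFn η t = t := by
      unfold clipFn
      rw [min_eq_left, max_eq_right] <;> nlinarith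
    rw [this]

theorem abs_clipFn {η : ℝ} (hη : 0 < η) (t : ℝ) : ‖clipFn η t‖ ≤ η := by
  unfold clipFn
  rw [Real.norm_eq_abs, abs_le]
  exact ⟨le_max_left _ _, max_le (by linarith) (min_le_right _ _)⟩

theorem abs_invFn {η : ℝ} (hη : 0 < η) (t : ℝ) : ‖invFn η t‖ ≤ 1 / η := by
  unfold invFn
  rw [Real.norm_eq_abs, abs_div, abs_of_pos (max_sq_pos hη t),
    div_le_div_iff₀ (max_sq_pos hη t) hη]
  rcases le_total (|t|) η with h | h
  · nlinarith [le_max_right (t ^ 2) (η ^ 2), abs_nonneg t]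
  · nlinarith [le_max_left (t ^ 2) (η ^ 2), abs_nonneg t, sq_abs t]

theorem cut_norm_le {Y : H →L[ℂ] H} (hY : IsSelfAdjoint Y) {η : ℝ} (hη : 0 < η) (w : H) :
    ‖Y ((1 - cfc (cutFn η) Y) w)‖ ≤ η * ‖(1 - cfc (cutFn η) Y) w‖ := by
  have hθ : Continuous (clipFn η) := by unfold clipFn; fun_prop
  have hs := continuous_cutFn hη
  have e0 : (1 : H →L[ℂ] H) - cfc (cutFn η) Y = cfc (fun t => 1 - cutFn η t) Y := by
    rw [cfc_sub (fun _ => (1 : ℝ)) (cutFn η) Y, cfc_const_one ℝ Y]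
  have hc : Continuous (fun t => 1 - cutFn η t) := by fun_prop
  have key : Y * cfc (fun t => 1 - cutFn η t) Y
      = cfc (clipFn η) Y * cfc (fun t => 1 - cutFn η t) Y := by
    have e1 : Y * cfc (fun t => 1 - cutFn η t) Y
        = cfc (fun t => t * (1 - cutFn η t)) Y := by
      rw [cfc_mul (fun t => t) _ Y, cfc_id' ℝ Y]
    have e2 : cfc (clipFn η) Y * cfc (fun t => 1 - cutFn η t) Y
        = cfc (fun t => clipFn η t * (1 - cutFn η t)) Y := by
      rw [cfc_mul (clipFn η) _ Y]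
    rw [e1, e2]
    exact cfc_congr fun t _ => clip_mul hη t
  have hnorm : ‖cfc (clipFn η) Y‖ ≤ η := norm_cfc_le hη.le (fun t _ => abs_clipFn hη t)
  rw [e0]
  have h := congrArg (fun T : H →L[ℂ] H => T w) key
  simp only [mul_apply'] at h
  rw [h]
  exact le_trans ((cfc (clipFn η) Y).le_opNorm _) (mul_le_mul_of_nonneg_right hnorm (norm_nonneg _))

theorem cut_fixed_inner {Y : H →L[ℂ] H} (hY : IsSelfAdjoint Y) {η : ℝ} (hη : 0 < η) {v : H}
    (hv : cfc (cutFn η) Y v = v) (ξ : H) : η * ‖⟪v, ξ⟫_ℂ‖ ≤ ‖v‖ * ‖Y ξ‖ := by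
  have hφc := continuous_invFn hη
  have hYφ : cfc (cutFn η) Y = Y * cfc (invFn η) Y := by
    have : cfc (fun t => t * invFn η t) Y = Y * cfc (invFn η) Y := by
      rw [cfc_mul (fun t => t) (invFn η) Y, cfc_id' ℝ Y]
    rw [← this]
    exact cfc_congr fun t _ => by simp only [cutFn, invFn]; ring
  have hnormφ : ‖cfc (invFn η) Y‖ ≤ 1 / η :=
    norm_cfc_le (by positivity) (fun t _ => abs_invFn hη t)
  have h2 : ⟪v, ξ⟫_ℂ = ⟪cfc (invFn η) Y v, Y ξ⟫_ℂ := by
    conv_lhs => rw [← hv, hYφ, mul_apply', sa_inner hY]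
  rw [h2]
  calc η * ‖⟪cfc (invFn η) Y v, Y ξ⟫_ℂ‖ ≤ η * ((1 / η * ‖v‖) * ‖Y ξ‖) :=
        mul_le_mul_of_nonneg_left (le_trans (norm_inner_le_norm _ _)
          (mul_le_mul_of_nonneg_right (le_trans ((cfc (invFn η) Y).le_opNorm _)
            (mul_le_mul_of_nonneg_right hnormφ (norm_nonneg _))) (norm_nonneg _))) hη.le
    _ = ‖v‖ * ‖Y ξ‖ := by field_simp

/-- The cut projection of a self-adjoint element at level `η`. -/
theorem exists_cut {Y : H →L[ℂ] H} (hY : IsSelfAdjoint Y) {η : ℝ} (hη : 0 < η) :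
    ∃ k : H →L[ℂ] H, IsStarProjection k ∧ (∀ v, ‖Y (k v)‖ ≤ η * ‖k v‖) ∧
      (∀ ξ, η * ‖(1 - k) ξ‖ ≤ ‖Y ξ‖) ∧ (∀ z, Commute Y z → Commute k z) ∧
      (∀ N : VonNeumannAlgebra H, Y ∈ N → k ∈ N) ∧
      (∀ v, k v = 0 → cfc (cutFn η) Y v = v) := by
  obtain ⟨W, hW⟩ : ∃ W : H →L[ℂ] H, W = 1 - cfc (cutFn η) Y := ⟨_, rfl⟩
  have hWsa : IsSelfAdjoint W :=
    hW ▸ (IsSelfAdjoint.one _).sub (cfc_predicate (cutFn η) Y)
  have hfix : ∀ {v : H}, W v = 0 ↔ cfc (cutFn η) Y v = v := by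
    intro v
    rw [hW]
    simp only [sub_apply, sub_eq_zero]
    exact eq_comm
  have : CompleteSpace W.ker := W.isClosed_ker.completeSpace_coe
  obtain ⟨u, hu⟩ : ∃ u : H →L[ℂ] H, u = W.ker.starProjection := ⟨_, rfl⟩
  have hup : IsStarProjection u := hu ▸ isStarProjection_starProjection
  have huW : ∀ ξ, W (u ξ) = 0 := fun ξ => hu ▸ Submodule.starProjection_apply_mem W.ker ξ
  refine ⟨1 - u, hup.one_sub, ?_, ?_, ?_, ?_, ?_⟩
  · intro v
    have hv : (1 - u) v ∈ W.kerᗮ := by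
      rw [hu]; exact Submodule.sub_starProjection_mem_orthogonal v
    rw [ContinuousLinearMap.orthogonal_ker, ← ContinuousLinearMap.star_eq_adjoint,
      hWsa.star_eq] at hv
    have hcl : IsClosed {x : H | ‖Y x‖ ≤ η * ‖x‖} :=
      isClosed_le (Y.continuous.norm) (continuous_const.mul continuous_norm)
    have hsub : (W.range : Set H) ⊆ {x : H | ‖Y x‖ ≤ η * ‖x‖} := by
      rintro _ ⟨w, rfl⟩
      show ‖Y (W w)‖ ≤ η * ‖W w‖
      rw [hW]; exact cut_norm_le hY hη w
    exact closure_minimal hsub hcl hv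
  · intro ξ
    rw [sub_sub_cancel]
    have h1 : ‖u ξ‖ ^ 2 ≤ ‖⟪u ξ, ξ⟫_ℂ‖ := by
      have : ⟪u ξ, ξ⟫_ℂ = ⟪u ξ, u ξ⟫_ℂ := by
        rw [← sa_inner hup.isSelfAdjoint (u ξ) ξ, ← mul_apply', hup.isIdempotentElem.eq]
      rw [this, inner_self_eq_norm_sq_to_K]
      simp
    have h2 := cut_fixed_inner hY hη (hfix.1 (huW ξ)) ξ
    rcases eq_or_ne (u ξ) 0 with h0 | h0
    · simp [h0]
    · have hpos : 0 < ‖u ξ‖ := norm_pos_iff.2 h0
      nlinarith
  · intro z hz
    have hz' : Commute Y (star z) := by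
      have := hz.star_star
      rwa [hY.star_eq] at this
    have inv : ∀ {x : H →L[ℂ] H}, Commute Y x → ∀ v ∈ W.ker, x v ∈ W.ker := by
      intro x hx v hv
      have hc : Commute W x := hW ▸ (Commute.one_left x).sub_left (hx.cfc_real _)
      have := congrArg (fun T : H →L[ℂ] H => T v) hc.eq
      simp only [mul_apply'] at this
      show W (x v) = 0
      rw [this, show W v = 0 from hv, map_zero]
    exact (Commute.one_left z).sub_left (hu ▸ proj_comm_of_invariant W.ker (inv hz) (inv hz'))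
  · intro N hN
    have hWN : W ∈ N := hW ▸ sub_mem (one_mem N) (vn_cfc_mem hN _)
    refine sub_mem (one_mem N) (hu ▸ proj_mem_vn W.ker ?_)
    intro z hz v hv
    have := congrArg (fun T : H →L[ℂ] H => T v) ((mem_vn_iff.1 hWN) z hz)
    simp only [mul_apply'] at this
    show W (z v) = 0
    rw [← this, show W v = 0 from hv, map_zero]
  · intro v hv
    simp only [sub_apply, sub_eq_zero] at hv
    change v = u v at hv
    refine hfix.1 ?_
    rw [hv]
    exact huW v

end Vale.Agent.P078
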