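import Vale.Agent.P078.Seminorm

/-!
A faithful corner of the conditional expectation produces a normal centralised functional;
consequently, without such functionals the expectation kills projections near any cut.
-/

namespace Vale.Agent.P078

open scoped InnerProductSpace ComplexOrder
open Filter Topology ContinuousLinearMap

variable {H : Type} [NormedAddCommGroup H] [InnerProductSpace ℂ H] [CompleteSpace H]
variable {M : VonNeumannAlgebra H} {A : StarSubalgebra ℂ (H →L[ℂ] H)}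

theorem norm_sa_proj_le {p : H →L[ℂ] H} (hp : IsStarProjection p) : ‖p‖ ≤ 1 :=
  ContinuousLinearMap.opNorm_le_bound _ zero_le_one fun v => by
    simpa using proj_apply_norm_le hp v

/-- Below a projection where `φ` is faithful there is a projection on which it is dominated. -/
theorem exists_dominated (ξ : H) {p : H →L[ℂ] H} (hpM : p ∈ M) (hp : IsStarProjection p)
    (hp0 : p ≠ 0) :
    ∃ (p' : H →L[ℂ] H) (η₀ : H), p' ∈ M ∧ IsStarProjection p' ∧ p' ≠ 0 ∧ p * p' = p' ∧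
      ∀ z ∈ M, semi A ξ (z * p') ≤ ‖z (p' η₀)‖ := by
  obtain ⟨η₀, hη₀p, hη₀⟩ : ∃ η₀ : H, p η₀ = η₀ ∧ RCLike.re (phi A ξ p) < ‖η₀‖ ^ 2 := by
    obtain ⟨v, hv⟩ : ∃ v, p v ≠ 0 := by
      by_contra hcon
      push Not at hcon
      exact hp0 (ContinuousLinearMap.ext fun v => by simpa using hcon v)
    obtain ⟨n, hn⟩ := exists_nat_gt (RCLike.re (phi A ξ p) / ‖p v‖ ^ 2)
    have hpos : 0 < ‖p v‖ := norm_pos_iff.2 hv
    refine ⟨((n : ℂ) + 1) • p v, by rw [map_smul, ← mul_apply', hp.isIdempotentElem.eq], ?_⟩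
    rw [norm_smul, mul_pow, show ((n : ℂ) + 1) = ((n + 1 : ℕ) : ℂ) by push_cast; rfl,
      Complex.norm_natCast]
    rw [div_lt_iff₀ (by positivity)] at hn
    have h1 : (n : ℝ) ≤ ((n + 1 : ℕ) : ℝ) ^ 2 := by
      push_cast
      nlinarith [(Nat.cast_nonneg n : (0 : ℝ) ≤ n)]
    nlinarith [mul_le_mul_of_nonneg_right h1 (sq_nonneg ‖p v‖)]
  obtain ⟨S, hSg, hSo, hSmax⟩ := exists_maximal_orth
    (fun q : H →L[ℂ] H => q ∈ M ∧ IsStarProjection q ∧ q * p = q ∧
      ‖q η₀‖ ^ 2 ≤ RCLike.re (phi A ξ q) ∧ q ≠ 0)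
  obtain ⟨G, hGp, hqG, hGM, -, hGle, hGapp⟩ :=
    exists_sup_proj S (fun q hq => (hSg q hq).2.1) hSo
  have hpG : p * G = G := hGle p fun q hq => by
    have := congrArg star (hSg q hq).2.2.1
    rwa [star_mul, hp.isSelfAdjoint.star_eq, (hSg q hq).2.1.isSelfAdjoint.star_eq] at this
  have hGp' : G * p = G := by
    have := congrArg star hpG
    rwa [star_mul, hp.isSelfAdjoint.star_eq, hGp.isSelfAdjoint.star_eq] at this
  have hGbound : ‖G η₀‖ ^ 2 ≤ RCLike.re (phi A ξ p) := by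
    have hphip : 0 ≤ RCLike.re (phi A ξ p) := by
      have := sq_nonneg (semi A ξ p)
      rwa [semi_sq, hp.isSelfAdjoint.star_eq, hp.isIdempotentElem.eq] at this
    have : ‖G η₀‖ ≤ Real.sqrt (RCLike.re (phi A ξ p)) := by
      refine le_of_forall_pos_le_add fun δ hδ => ?_
      obtain ⟨s, hs, -, hsp, hd⟩ := hGapp {η₀} δ hδ
      have h1 := hd η₀ (Finset.mem_singleton_self _)
      have ho : ∀ q ∈ s, ∀ q' ∈ s, q ≠ q' → q * q' = 0 := fun q hq q' hq' h =>
        hSo q (hs q hq) q' (hs q' hq') h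
      obtain ⟨P, hP⟩ : ∃ P : H →L[ℂ] H, P = ∑ q ∈ s, q := ⟨_, rfl⟩
      rw [← hP] at hsp h1
      have hPp : P * p = P := by
        rw [hP, Finset.sum_mul]; exact Finset.sum_congr rfl fun q hq => (hSg q (hs q hq)).2.2.1
      have hpP : IsStarProjection (p - P) := hsp.sub_of_mul_eq_left hp hPp
      have h2 : ‖P η₀‖ ^ 2 ≤ RCLike.re (phi A ξ p) := by
        have e : ‖P η₀‖ ^ 2 = ∑ q ∈ s, ‖q η₀‖ ^ 2 := by
          rw [hP, sum_apply]
          exact norm_sq_sum_orth s id (fun q hq => (hSg q (hs q hq)).2.1) ho (fun _ => η₀)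
        have h3 : RCLike.re (phi A ξ P) ≤ RCLike.re (phi A ξ p) := by
          have := sq_nonneg (semi A ξ (p - P))
          rw [semi_sq, hpP.isSelfAdjoint.star_eq, hpP.isIdempotentElem.eq, phi_sub, map_sub] at this
          linarith
        rw [e]
        refine le_trans ?_ h3
        rw [hP, phi_sum, map_sum]
        exact Finset.sum_le_sum fun q hq => (hSg q (hs q hq)).2.2.2.1
      have h4 : ‖P η₀‖ ≤ Real.sqrt (RCLike.re (phi A ξ p)) := Real.le_sqrt_of_sq_le h2
      have h5 : ‖G η₀‖ ≤ ‖(G - P) η₀‖ + ‖P η₀‖ := by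
        rw [sub_apply]; exact norm_le_norm_sub_add _ _
      linarith
    exact (pow_le_pow_left₀ (norm_nonneg _) this 2).trans (Real.sq_sqrt hphip).le
  obtain ⟨p', hp'⟩ : ∃ p' : H →L[ℂ] H, p' = p - G := ⟨_, rfl⟩
  have hp'p : IsStarProjection p' := hp' ▸ hGp.sub_of_mul_eq_left hp hGp'
  have hp'M : p' ∈ M := hp' ▸ sub_mem hpM (hGM M fun q hq => (hSg q hq).1)
  have hp'0 : p' ≠ 0 := by
    intro h
    have : p η₀ = G η₀ := by
      rw [hp', sub_eq_zero] at h
      rw [h]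
    rw [hη₀p] at this
    rw [← this] at hGbound
    linarith
  have hpp' : p * p' = p' := by rw [hp', mul_sub, hp.isIdempotentElem.eq, hpG]
  have hp'G : p' * G = 0 := by rw [hp', sub_mul, hpG, hGp.isIdempotentElem.eq, sub_self]
  have hkey : ∀ q ∈ M, IsStarProjection q → q * p' = q →
      RCLike.re (phi A ξ q) ≤ ‖q η₀‖ ^ 2 := by
    intro q hqM hq hqp'
    by_contra hcon
    push Not at hcon
    have hq0 : q ≠ 0 := fun h => by simp [h, phi_zero] at hcon
    have hqp : q * p = q := by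
      have e : p' * p = p' := by rw [hp', sub_mul, hp.isIdempotentElem.eq, hGp']
      rw [← hqp', mul_assoc, e]
    have horth : ∀ q' ∈ S, q * q' = 0 := by
      intro q' hq'
      have e : G * q' = q' := by
        have := congrArg star (hqG q' hq')
        rwa [star_mul, hGp.isSelfAdjoint.star_eq, (hSg q' hq').2.1.isSelfAdjoint.star_eq] at this
      rw [← hqp', ← e, mul_assoc, ← mul_assoc p', hp'G, zero_mul, mul_zero]
    have hmem : q ∈ S := hSmax q ⟨hqM, hq, hqp, hcon.le, hq0⟩ fun q' hq' => ⟨horth q' hq', by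
      have := congrArg star (horth q' hq')
      rwa [star_mul, hq.isSelfAdjoint.star_eq, (hSg q' hq').2.1.isSelfAdjoint.star_eq,
        star_zero] at this⟩
    have := horth q hmem
    rw [hq.isIdempotentElem.eq] at this
    exact hq0 this
  refine ⟨p', η₀, hp'M, hp'p, hp'0, hpp', fun z hz => ?_⟩
  obtain ⟨y, hy⟩ : ∃ y : H →L[ℂ] H, y = z * p' := ⟨_, rfl⟩
  obtain ⟨Y, hY⟩ : ∃ Y : H →L[ℂ] H, Y = star y * y := ⟨_, rfl⟩
  have hyM : y ∈ M := hy ▸ mul_mem hz hp'M
  have hYs : IsSelfAdjoint Y := hY ▸ IsSelfAdjoint.star_mul_self y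
  have hYM : Y ∈ M := hY ▸ mul_mem (star_mem hyM) hyM
  have hYp : Y * p' = Y := by rw [hY, hy, mul_assoc, mul_assoc, hp'p.isIdempotentElem.eq]
  have hpY : p' * Y = Y := by
    have := congrArg star hYp
    rwa [star_mul, hp'p.isSelfAdjoint.star_eq, hYs.star_eq] at this
  have hmain : RCLike.re (phi A ξ Y) ≤ RCLike.re ⟪η₀, Y η₀⟫_ℂ := by
    refine le_of_forall_pos_le_add fun t ht => ?_
    obtain ⟨c, hc⟩ : ∃ c : ℝ, c = ‖ξ‖ ^ 2 + ‖η₀‖ ^ 2 + 1 := ⟨_, rfl⟩
    have hc0 : 0 < c := by rw [hc]; positivity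
    have hspec : ∀ x ∈ spectrum ℝ Y, (0 : ℝ) ≤ x := fun x hx =>
      spectrum_nonneg_of_nonneg (hY ▸ star_mul_self_nonneg y) hx
    obtain ⟨N, s, m, hs0, hmp, -, -, hap, hmc, hmV⟩ :=
      exists_step_approx hYs (div_pos ht hc0) 0 hspec
    have hcm : ∀ j, Commute (m j) p' := fun j => hmc j p' (show Y * p' = p' * Y by rw [hYp, hpY])
    obtain ⟨T, hT⟩ : ∃ T : H →L[ℂ] H, T = (∑ j, (s j : ℂ) • m j) * p' := ⟨_, rfl⟩
    have hYT : ‖Y - T‖ ≤ t / c := by
      have e : Y - T = (Y - ∑ j, (s j : ℂ) • m j) * p' := by rw [hT, sub_mul, hYp]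
      rw [e]
      refine le_trans (norm_mul_le _ _) ?_
      calc _ ≤ t / c * 1 := mul_le_mul hap (norm_sa_proj_le hp'p) (norm_nonneg _)
            (div_pos ht hc0).le
        _ = _ := mul_one _
    have hTe : T = ∑ j, (s j : ℂ) • (m j * p') := by
      rw [hT, Finset.sum_mul]; simp only [smul_mul_assoc]
    have hφT : RCLike.re (phi A ξ T) ≤ RCLike.re ⟪η₀, T η₀⟫_ℂ := by
      rw [hTe, phi_sum, sum_apply, inner_sum, map_sum, map_sum]
      refine Finset.sum_le_sum fun j _ => ?_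
      rw [phi_smul, smul_apply, inner_smul_right]
      simp only [RCLike.re_to_complex, Complex.re_ofReal_mul]
      refine mul_le_mul_of_nonneg_left ?_ (hs0 j)
      have hq := (hmp j).mul hp'p (hcm j)
      have := hkey (m j * p') (mul_mem (hmV j M hYM) hp'M) hq
        (by rw [mul_assoc, hp'p.isIdempotentElem.eq])
      rw [RCLike.re_to_complex] at this
      rw [inner_proj_eq_norm_sq hq, Complex.ofReal_re]
      exact this
    have h1 : RCLike.re (phi A ξ Y) - RCLike.re (phi A ξ T) ≤ ‖ξ‖ ^ 2 * (t / c) := by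
      rw [← map_sub, ← phi_sub]
      exact le_trans (RCLike.re_le_norm _) (le_trans (phi_norm_le ξ _)
        (mul_le_mul_of_nonneg_left hYT (sq_nonneg _)))
    have h2 : RCLike.re ⟪η₀, T η₀⟫_ℂ - RCLike.re ⟪η₀, Y η₀⟫_ℂ ≤ ‖η₀‖ ^ 2 * (t / c) := by
      rw [← map_sub, ← inner_sub_right, ← sub_apply]
      refine le_trans (RCLike.re_le_norm _) (le_trans (norm_inner_le_norm _ _) ?_)
      have h3 := le_trans ((T - Y).le_opNorm η₀)
        (mul_le_mul_of_nonneg_right (norm_sub_rev T Y ▸ hYT) (norm_nonneg _))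
      calc ‖η₀‖ * ‖(T - Y) η₀‖ ≤ ‖η₀‖ * (t / c * ‖η₀‖) :=
            mul_le_mul_of_nonneg_left h3 (norm_nonneg _)
        _ = _ := by ring
    have h4 : (‖ξ‖ ^ 2 + ‖η₀‖ ^ 2) * (t / c) ≤ t := by
      have h5 : c * (t / c) = t := by field_simp
      have h6 : ‖ξ‖ ^ 2 + ‖η₀‖ ^ 2 ≤ c := by rw [hc]; linarith
      calc _ ≤ c * (t / c) := mul_le_mul_of_nonneg_right h6 (div_pos ht hc0).le
        _ = t := h5
    nlinarith
  have e : RCLike.re ⟪η₀, Y η₀⟫_ℂ = ‖z (p' η₀)‖ ^ 2 := by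
    rw [hY, hy, mul_apply', ContinuousLinearMap.star_eq_adjoint,
      ContinuousLinearMap.adjoint_inner_right, mul_apply']
    exact inner_self_eq_norm_sq _
  rw [e] at hmain
  rw [← hy, semi]
  refine le_trans (Real.sqrt_le_sqrt (hY ▸ hmain)) ?_
  rw [Real.sqrt_sq (norm_nonneg _)]

theorem span_mem_vn (hA : IsMasa M A) {p' : H →L[ℂ] H} (hp'M : p' ∈ M) {n : H →L[ℂ] H}
    (hn : n ∈ Submodule.span ℂ {w | ∃ y ∈ M, ∃ a ∈ A, w = y * p' * a}) : n ∈ M := by
  induction hn using Submodule.span_induction with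
  | mem w hw =>
    obtain ⟨y, hy, a, ha, rfl⟩ := hw
    exact mul_mem (mul_mem hy hp'M) (hA.le a ha)
  | zero => exact zero_mem M
  | add x y _ _ hx hy => exact add_mem hx hy
  | smul c x _ hx => exact vn_smul_mem c hx

theorem span_mul_left {p' : H →L[ℂ] H} {b : H →L[ℂ] H} (hb : b ∈ M) {n : H →L[ℂ] H}
    (hn : n ∈ Submodule.span ℂ {w | ∃ y ∈ M, ∃ a ∈ A, w = y * p' * a}) :
    b * n ∈ Submodule.span ℂ {w | ∃ y ∈ M, ∃ a ∈ A, w = y * p' * a} := by
  induction hn using Submodule.span_induction with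
  | mem w hw =>
    obtain ⟨y, hy, a, ha, rfl⟩ := hw
    exact Submodule.subset_span ⟨b * y, mul_mem hb hy, a, ha, by simp only [mul_assoc]⟩
  | zero => rw [mul_zero]; exact zero_mem _
  | add x y _ _ hx hy => rw [mul_add]; exact add_mem hx hy
  | smul c x _ hx => rw [mul_smul_comm]; exact Submodule.smul_mem _ c hx

theorem span_mul_right {p' : H →L[ℂ] H} {b : H →L[ℂ] H} (hb : b ∈ A) {n : H →L[ℂ] H}
    (hn : n ∈ Submodule.span ℂ {w | ∃ y ∈ M, ∃ a ∈ A, w = y * p' * a}) :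
    n * b ∈ Submodule.span ℂ {w | ∃ y ∈ M, ∃ a ∈ A, w = y * p' * a} := by
  induction hn using Submodule.span_induction with
  | mem w hw =>
    obtain ⟨y, hy, a, ha, rfl⟩ := hw
    exact Submodule.subset_span ⟨y, hy, a * b, mul_mem ha hb, by simp only [mul_assoc]⟩
  | zero => rw [zero_mul]; exact zero_mem _
  | add x y _ _ hx hy => rw [add_mul]; exact add_mem hx hy
  | smul c x _ hx => rw [smul_mul_assoc]; exact Submodule.smul_mem _ c hx

/-- The inner product of the seminorm, with its quadratic minimisation consequence. -/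
theorem near_orth (ξ : H) {u m : H →L[ℂ] H} {d e : ℝ}
    (hd : ∀ t : ℂ, d ≤ semi A ξ (u - t • m) ^ 2) (hu : semi A ξ u ^ 2 ≤ d + e ^ 2)
    (he : 0 ≤ e) : ‖phi A ξ (star u * m)‖ ≤ e * semi A ξ m := by
  obtain ⟨b, hb⟩ : ∃ b : ℂ, b = phi A ξ (star u * m) := ⟨_, rfl⟩
  obtain ⟨μ, hμ⟩ : ∃ μ : ℝ, μ = semi A ξ m ^ 2 := ⟨_, rfl⟩
  have hcs := phi_cs (A := A) ξ u m
  rw [← hb] at hcs ⊢
  rcases eq_or_ne μ 0 with h0 | h0
  · have : semi A ξ m = 0 := pow_eq_zero_iff (n := 2) two_ne_zero |>.1 (hμ ▸ h0)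
    rw [this, mul_zero] at hcs ⊢
    exact hcs
  · have hμpos : 0 < μ := lt_of_le_of_ne (hμ ▸ sq_nonneg _) (Ne.symm h0)
    have hcon : phi A ξ (star m * u) = starRingEnd ℂ b := by
      rw [hb, phi, phi, inner_conj_symm, show star m * u = star (star u * m) by
        rw [star_mul, star_star], expect_star, ContinuousLinearMap.star_eq_adjoint,
        ContinuousLinearMap.adjoint_inner_right]
    obtain ⟨t, ht⟩ : ∃ t : ℂ, t = starRingEnd ℂ b / (μ : ℂ) := ⟨_, rfl⟩
    have hexp : semi A ξ (u - t • m) ^ 2 = semi A ξ u ^ 2 - ‖b‖ ^ 2 / μ := by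
      have hm := phi_self_real (A := A) ξ m
      rw [← hμ] at hm
      rw [semi_sq, semi_sq, star_sub, star_smul, sub_mul, mul_sub, mul_sub, smul_mul_assoc,
        smul_mul_assoc, mul_smul_comm, mul_smul_comm, smul_smul, phi_sub, phi_sub, phi_sub,
        phi_smul, phi_smul, phi_smul, ← hb, hcon, hm, map_sub, map_sub, map_sub, ht,
        RCLike.star_def, map_div₀, Complex.conj_conj, Complex.conj_ofReal]
      have e1 : starRingEnd ℂ b / (μ : ℂ) * b = ((‖b‖ ^ 2 / μ : ℝ) : ℂ) := by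
        rw [div_mul_eq_mul_div, Complex.conj_mul']; push_cast; ring
      have e2 : b / (μ : ℂ) * starRingEnd ℂ b = ((‖b‖ ^ 2 / μ : ℝ) : ℂ) := by
        rw [div_mul_eq_mul_div, Complex.mul_conj']; push_cast; ring
      have hμc : (μ : ℂ) ≠ 0 := by exact_mod_cast h0
      have e3 : b / (μ : ℂ) * (starRingEnd ℂ b / (μ : ℂ)) * (μ : ℂ)
          = ((‖b‖ ^ 2 / μ : ℝ) : ℂ) := by
        rw [← e2]; field_simp
      simp only [e1, e2, e3, RCLike.re_to_complex, Complex.ofReal_re]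
      ring
    have h1 := hd t
    rw [hexp] at h1
    have h2 : ‖b‖ ^ 2 / μ ≤ e ^ 2 := by linarith
    rw [div_le_iff₀ hμpos, hμ, ← mul_pow] at h2
    exact (abs_le_of_sq_le_sq' h2 (mul_nonneg he (semi_nonneg _ _))).2

theorem exists_near_min (ξ : H) (N : Submodule ℂ (H →L[ℂ] H)) {t : ℝ} (ht : 0 < t) :
    ∃ n ∈ N, semi A ξ (1 - n) ≤ semi A ξ 1 + t ∧
      ∀ m ∈ N, ‖phi A ξ (star (1 - n) * m)‖ ≤ t * semi A ξ m := by
  obtain ⟨D, hD⟩ : ∃ D : Set ℝ, D = (fun n => semi A ξ (1 - n) ^ 2) '' (N : Set (H →L[ℂ] H)) :=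
    ⟨_, rfl⟩
  have hne : D.Nonempty := hD ▸ ⟨_, 0, zero_mem N, rfl⟩
  have hbdd : BddBelow D := hD ▸ ⟨0, by rintro _ ⟨n, -, rfl⟩; positivity⟩
  obtain ⟨x, hx, hxlt⟩ := exists_lt_of_csInf_lt hne
    (show sInf D < sInf D + t ^ 2 by linarith [pow_pos ht 2])
  rw [hD] at hx
  obtain ⟨n, hn, rfl⟩ := hx
  refine ⟨n, hn, ?_, fun m hm => ?_⟩
  · have h1 : sInf D ≤ semi A ξ 1 ^ 2 := csInf_le hbdd (hD ▸ ⟨0, zero_mem N, by simp⟩)
    have h2 : semi A ξ (1 - n) ^ 2 ≤ (semi A ξ 1 + t) ^ 2 := by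
      nlinarith [semi_nonneg (A := A) ξ 1]
    exact (abs_le_of_sq_le_sq' h2 (add_nonneg (semi_nonneg _ _) ht.le)).2
  · refine near_orth ξ (d := sInf D) (fun s => ?_) hxlt.le ht.le
    refine csInf_le hbdd (hD ▸ ⟨n + s • m, add_mem hn (N.smul_mem s hm), ?_⟩)
    simp only [sub_sub]

theorem phi_conj (ξ : H) (x : H →L[ℂ] H) :
    phi A ξ (star x) = starRingEnd ℂ (phi A ξ x) := by
  rw [phi, phi, inner_conj_symm, expect_star, ContinuousLinearMap.star_eq_adjoint,
    ContinuousLinearMap.adjoint_inner_right]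

theorem inner_near (ξ : H) {n m : H →L[ℂ] H} {t : ℝ}
    (h : ‖phi A ξ (star (1 - n) * m)‖ ≤ t * semi A ξ m) :
    ‖phi A ξ m - phi A ξ (star n * m)‖ ≤ t * semi A ξ m := by
  rwa [← phi_sub, show m - star n * m = star (1 - n) * m by rw [star_sub, star_one, sub_mul, one_mul]]

theorem almost_commute (ξ : H) (hA : IsMasa M A) {p' : H →L[ℂ] H} (hp'M : p' ∈ M)
    {n a : H →L[ℂ] H} (ha : a ∈ A)
    (hn : n ∈ Submodule.span ℂ {w | ∃ y ∈ M, ∃ a ∈ A, w = y * p' * a}) {t : ℝ} (ht : 0 ≤ t)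
    (h : ∀ m ∈ Submodule.span ℂ {w | ∃ y ∈ M, ∃ a ∈ A, w = y * p' * a},
      ‖phi A ξ (star (1 - n) * m)‖ ≤ t * semi A ξ m) :
    semi A ξ (a * n - n * a) ≤ 2 * t * ‖a‖ := by
  obtain ⟨w, hw⟩ : ∃ w : H →L[ℂ] H, w = a * n - n * a := ⟨_, rfl⟩
  have hwN := hw ▸ sub_mem (span_mul_left (hA.le a ha) hn) (span_mul_right ha hn)
  rw [← hw]
  have hwM := span_mem_vn hA hp'M hwN
  have hnM := span_mem_vn hA hp'M hn
  have h1 := inner_near ξ (h (star a * w) (span_mul_left (hA.le _ (star_mem ha)) hwN))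
  have h2 := inner_near ξ (h (w * star a) (span_mul_right (star_mem ha) hwN))
  have e : phi A ξ (star w * w)
      = phi A ξ (star n * (star a * w)) - phi A ξ (star n * (w * star a)) := by
    conv_lhs => arg 3; arg 1; rw [hw]
    rw [star_sub, star_mul, star_mul, sub_mul, phi_sub, mul_assoc (star n),
      mul_assoc (star a), phi_central ξ hA (star_mem ha) (mul_mem (star_mem hnM) hwM), mul_assoc]
  have e2 : phi A ξ (star a * w) = phi A ξ (w * star a) :=
    phi_central ξ hA (star_mem ha) hwM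
  have h3 : semi A ξ w ^ 2 ≤ 2 * t * ‖a‖ * semi A ξ w := by
    have hsq := phi_self_real (A := A) ξ w
    rw [e] at hsq
    have h4 : ‖((semi A ξ w ^ 2 : ℝ) : ℂ)‖ ≤ t * semi A ξ (star a * w) + t * semi A ξ (w * star a) := by
      rw [← hsq]
      rw [show phi A ξ (star n * (star a * w)) - phi A ξ (star n * (w * star a))
        = (phi A ξ (w * star a) - phi A ξ (star n * (w * star a)))
          - (phi A ξ (star a * w) - phi A ξ (star n * (star a * w))) by rw [e2]; ring]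
      exact le_trans (norm_sub_le _ _) (le_trans (add_le_add h2 h1) (le_of_eq (add_comm _ _)))
    rw [Complex.norm_real, Real.norm_eq_abs, abs_of_nonneg (sq_nonneg _)] at h4
    have h5 := semi_mul_left_le (A := A) ξ (star a) w
    have h6 := semi_mul_right_le ξ hA (star_mem ha) hwM
    rw [norm_star] at h5 h6
    nlinarith
  rcases eq_or_lt_of_le (semi_nonneg (A := A) ξ w) with h0 | h0
  · rw [← h0]; positivity
  · nlinarith

theorem span_small (ξ : H) (hA : IsMasa M A) {p' : H →L[ℂ] H} (hp'M : p' ∈ M) {η₀ : H}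
    (hdom : ∀ z ∈ M, semi A ξ (z * p') ≤ ‖z (p' η₀)‖) {n : H →L[ℂ] H}
    (hn : n ∈ Submodule.span ℂ {w | ∃ y ∈ M, ∃ a ∈ A, w = y * p' * a}) :
    ∀ t > (0 : ℝ), ∃ F : Finset H, ∃ d > (0 : ℝ), ∀ x ∈ M,
      (∀ v ∈ F, ‖x v‖ < d) → semi A ξ (x * n) < t := by
  classical
  induction hn using Submodule.span_induction with
  | mem w hw =>
    obtain ⟨y, hy, a, ha, rfl⟩ := hw
    intro t ht
    refine ⟨{y (p' η₀)}, t / (‖a‖ + 1), by positivity, fun x hx hF => ?_⟩
    have h1 := hF _ (Finset.mem_singleton_self _)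
    have h2 : semi A ξ (x * (y * p' * a)) ≤ ‖a‖ * semi A ξ (x * y * p') := by
      rw [show x * (y * p' * a) = x * y * p' * a by simp only [mul_assoc]]
      exact semi_mul_right_le ξ hA ha (mul_mem (mul_mem hx hy) hp'M)
    have h3 := hdom (x * y) (mul_mem hx hy)
    rw [mul_apply'] at h3
    rw [lt_div_iff₀ (by positivity)] at h1
    nlinarith [norm_nonneg a, norm_nonneg (x (y (p' η₀)))]
  | zero => exact fun t ht => ⟨∅, 1, one_pos, fun x _ _ => by rw [mul_zero, semi_zero]; exact ht⟩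
  | add u v _ _ hu hv =>
    intro t ht
    obtain ⟨F₁, d₁, hd₁, h₁⟩ := hu (t / 2) (by linarith)
    obtain ⟨F₂, d₂, hd₂, h₂⟩ := hv (t / 2) (by linarith)
    refine ⟨F₁ ∪ F₂, min d₁ d₂, lt_min hd₁ hd₂, fun x hx hF => ?_⟩
    have e₁ := h₁ x hx fun w hw => lt_of_lt_of_le (hF w (Finset.mem_union_left _ hw)) (min_le_left _ _)
    have e₂ := h₂ x hx fun w hw => lt_of_lt_of_le (hF w (Finset.mem_union_right _ hw)) (min_le_right _ _)
    rw [mul_add]
    linarith [semi_add_le (A := A) ξ (x * u) (x * v)]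
  | smul c u _ hu =>
    intro t ht
    obtain ⟨F, d, hd, h⟩ := hu (t / (‖c‖ + 1)) (by positivity)
    refine ⟨F, d, hd, fun x hx hF => ?_⟩
    have h1 := h x hx hF
    rw [mul_smul_comm, semi_smul]
    rw [lt_div_iff₀ (by positivity)] at h1
    nlinarith [semi_nonneg (A := A) ξ (x * u), norm_nonneg c]

/-- The approximating functionals. -/
noncomputable def psiApprox (A : StarSubalgebra ℂ (H →L[ℂ] H)) (ξ : H) (n : H →L[ℂ] H)
    (x : H →L[ℂ] H) : ℂ :=
  phi A ξ (star n * x * n)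

theorem psiApprox_diff (ξ : H) (n m x : H →L[ℂ] H) :
    ‖psiApprox A ξ n x - psiApprox A ξ m x‖
      ≤ ‖x‖ * semi A ξ (n - m) * (semi A ξ n + semi A ξ m) := by
  have e : psiApprox A ξ n x - psiApprox A ξ m x
      = phi A ξ (star n * (x * (n - m))) + phi A ξ (star (n - m) * (x * m)) := by
    simp only [psiApprox]
    rw [← phi_sub, ← phi_add]
    congr 1
    rw [star_sub]
    noncomm_ring
  rw [e]
  refine le_trans (norm_add_le _ _) ?_
  have h1 := le_trans (phi_cs (A := A) ξ n (x * (n - m)))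
    (mul_le_mul_of_nonneg_left (semi_mul_left_le ξ x (n - m)) (semi_nonneg _ _))
  have h2 := le_trans (phi_cs (A := A) ξ (n - m) (x * m))
    (mul_le_mul_of_nonneg_left (semi_mul_left_le ξ x m) (semi_nonneg _ _))
  nlinarith

/-- The key lemma: a projection below which `φ` is faithful gives a normal centralised functional
that does not vanish at `g`. -/
theorem exists_normal_central (hA : IsMasa M A) (ξ : H) {g : H →L[ℂ] H} (hgA : g ∈ A)
    (hgp : IsStarProjection g) (hgξ : g ξ = ξ) {p : H →L[ℂ] H} (hpM : p ∈ M)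
    (hp : IsStarProjection p) (hp0 : p ≠ 0)
    (hfaith : ∀ q ∈ M, IsStarProjection q → q ≠ 0 → p * q = q → phi A ξ q ≠ 0) :
    ∃ ψ : (H →L[ℂ] H) → ℂ, IsNormalCentral M A ψ ∧ ψ g ≠ 0 := by
  obtain ⟨p', η₀, hp'M, hp'p, hp'0, hpp', hdom⟩ := exists_dominated (A := A) ξ hpM hp hp0
  obtain ⟨N, hN⟩ : ∃ N : Submodule ℂ (H →L[ℂ] H),
      N = Submodule.span ℂ {w | ∃ y ∈ M, ∃ a ∈ A, w = y * p' * a} := ⟨_, rfl⟩
  have hp'N : p' ∈ N := hN ▸ Submodule.subset_span ⟨1, one_mem M, 1, one_mem A, by simp⟩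
  have hfp : phi A ξ p' ≠ 0 := hfaith p' hp'M hp'p hp'0 hpp'
  have hsp : 0 < semi A ξ p' := by
    refine lt_of_le_of_ne (semi_nonneg _ _) fun h => hfp ?_
    have e := phi_self_real (A := A) ξ p'
    rw [hp'p.isSelfAdjoint.star_eq, hp'p.isIdempotentElem.eq, ← h] at e
    simpa using e
  obtain ⟨ε, hε⟩ : ∃ ε : ℕ → ℝ, ε = fun k : ℕ => 1 / ((k : ℝ) + 1) := ⟨_, rfl⟩
  have hεpos : ∀ k, 0 < ε k := fun k => by rw [hε]; positivity
  have hε1 : ∀ k, ε k ≤ 1 := fun k => by
    rw [hε]; simp only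
    rw [div_le_one (by positivity)]
    linarith [(Nat.cast_nonneg k : (0 : ℝ) ≤ k)]
  have hεlim : Tendsto ε atTop (𝓝 0) := hε ▸ tendsto_one_div_add_atTop_nhds_zero_nat
  have hex : ∀ k, ∃ n ∈ N, semi A ξ (1 - n) ≤ semi A ξ 1 + ε k ∧
      ∀ m ∈ N, ‖phi A ξ (star (1 - n) * m)‖ ≤ ε k * semi A ξ m :=
    fun k => exists_near_min ξ N (hεpos k)
  choose n hnN hnb hno using hex
  obtain ⟨B, hB⟩ : ∃ B : ℝ, B = 2 * semi A ξ 1 + 1 := ⟨_, rfl⟩
  have hB0 : 0 < B := by rw [hB]; linarith [semi_nonneg (A := A) ξ 1]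
  have hnB : ∀ k, semi A ξ (n k) ≤ B := fun k => by
    have h := semi_sub_le (A := A) ξ 1 (1 - n k)
    rw [sub_sub_cancel] at h
    rw [hB]
    linarith [hnb k, hε1 k]
  have hdiff : ∀ k l, semi A ξ (n k - n l) ≤ ε k + ε l := by
    intro k l
    obtain ⟨D, hD⟩ : ∃ D : H →L[ℂ] H, D = n k - n l := ⟨_, rfl⟩
    have hDN : D ∈ N := hD ▸ sub_mem (hnN k) (hnN l)
    rw [← hD]
    have hsq : semi A ξ D ^ 2 ≤ (ε k + ε l) * semi A ξ D := by
      have e : ((semi A ξ D ^ 2 : ℝ) : ℂ)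
          = phi A ξ (star (1 - n l) * D) - phi A ξ (star (1 - n k) * D) := by
        rw [← phi_sub, ← phi_self_real]
        congr 1
        rw [← sub_mul, ← star_sub, hD]
        congr 2
        abel
      have h1 : ‖((semi A ξ D ^ 2 : ℝ) : ℂ)‖ ≤ ε l * semi A ξ D + ε k * semi A ξ D := by
        rw [e]; exact le_trans (norm_sub_le _ _) (add_le_add (hno l D hDN) (hno k D hDN))
      rw [Complex.norm_real, Real.norm_eq_abs, abs_of_nonneg (sq_nonneg _)] at h1
      linarith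
    rcases eq_or_lt_of_le (semi_nonneg (A := A) ξ D) with h0 | h0
    · rw [← h0]; linarith [hεpos k, hεpos l]
    · nlinarith
  have hcauchy : ∀ x, CauchySeq fun k => psiApprox A ξ (n k) x := by
    intro x
    refine Metric.cauchySeq_iff.2 fun t ht => ?_
    have hC : 0 < 4 * B * (‖x‖ + 1) := by positivity
    obtain ⟨K, hK⟩ := Metric.tendsto_atTop.1 hεlim (t / (4 * B * (‖x‖ + 1))) (by positivity)
    refine ⟨K, fun k hk l hl => ?_⟩
    rw [dist_eq_norm]
    refine lt_of_le_of_lt (psiApprox_diff ξ _ _ x) ?_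
    have hk' := hK k hk
    have hl' := hK l hl
    rw [Real.dist_eq, sub_zero, abs_of_pos (hεpos _), lt_div_iff₀ hC] at hk' hl'
    have h1 : ‖x‖ * semi A ξ (n k - n l) * (semi A ξ (n k) + semi A ξ (n l))
        ≤ ‖x‖ * (ε k + ε l) * (B + B) := by
      refine mul_le_mul (mul_le_mul_of_nonneg_left (hdiff k l) (norm_nonneg _))
        (add_le_add (hnB k) (hnB l)) (add_nonneg (semi_nonneg _ _) (semi_nonneg _ _)) ?_
      exact mul_nonneg (norm_nonneg _) (by linarith [hεpos k, hεpos l])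
    nlinarith [mul_pos (hεpos k) hB0, mul_pos (hεpos l) hB0, norm_nonneg x]
  choose ψ hψ using fun x => cauchySeq_tendsto_of_complete (hcauchy x)
  have hnM : ∀ k, n k ∈ M := fun k => span_mem_vn hA hp'M (hN ▸ hnN k)
  have hcomm : ∀ k, ∀ a ∈ A, semi A ξ (a * n k - n k * a) ≤ 2 * ε k * ‖a‖ := fun k a ha =>
    almost_commute ξ hA hp'M ha (hN ▸ hnN k) (hεpos k).le (fun m hm => hno k m (hN ▸ hm))
  have hψadd : ∀ x y, ψ (x + y) = ψ x + ψ y := fun x y =>
    tendsto_nhds_unique (hψ (x + y)) (((hψ x).add (hψ y)).congr fun k => by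
      simp only [psiApprox, mul_add, add_mul, phi_add])
  have hψsmul : ∀ (c : ℂ) x, ψ (c • x) = c * ψ x := fun c x =>
    tendsto_nhds_unique (hψ (c • x)) (((hψ x).const_mul c).congr fun k => by
      simp only [psiApprox, mul_smul_comm, smul_mul_assoc, phi_smul])
  have hψ1 : Tendsto (fun k => semi A ξ (n k) ^ 2) atTop (𝓝 (ψ 1).re) := by
    refine ((Complex.continuous_re.tendsto _).comp (hψ 1)).congr fun k => ?_
    simp only [Function.comp_apply, psiApprox, mul_one, phi_self_real, Complex.ofReal_re]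
  refine ⟨ψ, ⟨fun x _ y _ => hψadd x y, fun c x _ => hψsmul c x, ?_, ?_, ?_⟩, ?_⟩
  · intro x _
    have e : ∀ k, psiApprox A ξ (n k) (star x * x) = ((semi A ξ (x * n k) ^ 2 : ℝ) : ℂ) := fun k => by
      rw [← phi_self_real, star_mul, psiApprox]; simp only [mul_assoc]
    rw [Complex.nonneg_iff]
    constructor
    · exact ge_of_tendsto ((Complex.continuous_re.tendsto _).comp (hψ _))
        (Eventually.of_forall fun k => by
          simp only [Function.comp_apply, e, Complex.ofReal_re]; positivity)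
    · refine (tendsto_nhds_unique ((Complex.continuous_im.tendsto _).comp (hψ (star x * x))) ?_).symm
      refine tendsto_const_nhds.congr fun k => ?_
      simp only [Function.comp_apply, e, Complex.ofReal_im]
  · intro a ha x hx
    refine sub_eq_zero.1 (norm_le_zero_iff.1 ?_)
    refine le_of_tendsto_of_tendsto ((hψ (a * x)).sub (hψ (x * a))).norm
      (show Tendsto (fun k => (4 * ‖a‖ * ‖x‖ * B) * ε k) atTop (𝓝 0) by
        simpa using hεlim.const_mul (4 * ‖a‖ * ‖x‖ * B)) (Eventually.of_forall fun k => ?_)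
    have ec := phi_central ξ hA ha (mul_mem (mul_mem (star_mem (hnM k)) hx) (hnM k))
    have e : psiApprox A ξ (n k) (a * x) - psiApprox A ξ (n k) (x * a)
        = phi A ξ (star (star a * n k - n k * star a) * (x * n k))
          + phi A ξ (star (n k) * (x * (n k * a - a * n k))) := by
      simp only [psiApprox, star_sub, star_mul, star_star, sub_mul, mul_sub, phi_sub, mul_assoc]
        at ec ⊢
      rw [ec]
      ring
    simp only [e]
    refine le_trans (norm_add_le _ _) ?_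
    have h1 : ‖phi A ξ (star (star a * n k - n k * star a) * (x * n k))‖
        ≤ 2 * ε k * ‖a‖ * (‖x‖ * B) := by
      refine le_trans (phi_cs ξ _ _) (mul_le_mul ?_ ?_ (semi_nonneg _ _) ?_)
      · simpa using hcomm k (star a) (star_mem ha)
      · exact le_trans (semi_mul_left_le ξ x _) (mul_le_mul_of_nonneg_left (hnB k) (norm_nonneg _))
      · have := hεpos k; positivity
    have h2 : ‖phi A ξ (star (n k) * (x * (n k * a - a * n k)))‖
        ≤ B * (‖x‖ * (2 * ε k * ‖a‖)) := by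
      refine le_trans (phi_cs ξ _ _) (mul_le_mul (hnB k) ?_ (semi_nonneg _ _) hB0.le)
      refine le_trans (semi_mul_left_le ξ x _) (mul_le_mul_of_nonneg_left ?_ (norm_nonneg _))
      rw [← semi_neg, neg_sub]
      exact hcomm k a ha
    nlinarith
  · intro t ht
    obtain ⟨K, hK⟩ := Metric.tendsto_atTop.1 hεlim (t / (8 * B)) (by positivity)
    obtain ⟨F, d, hd, hF⟩ := span_small ξ hA hp'M hdom (hN ▸ hnN K) (t / (2 * B)) (by positivity)
    refine ⟨F, d, hd, fun x hx hx1 hxF => ?_⟩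
    have h1 : ‖psiApprox A ξ (n K) x‖ ≤ B * (t / (2 * B)) := by
      have := phi_cs (A := A) ξ (n K) (x * n K)
      rw [← mul_assoc] at this
      exact le_trans this (mul_le_mul (hnB K) (hF x hx hxF).le (semi_nonneg _ _) hB0.le)
    have h2 : ‖psiApprox A ξ (n K) x - ψ x‖ ≤ 2 * (t / (8 * B)) * (B + B) := by
      refine le_of_tendsto ((tendsto_const_nhds.sub (hψ x)).norm)
        (eventually_atTop.2 ⟨K, fun l hl => ?_⟩)
      refine le_trans (psiApprox_diff ξ _ _ x) ?_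
      have hk' := hK K le_rfl
      have hl' := hK l hl
      rw [Real.dist_eq, sub_zero, abs_of_pos (hεpos _)] at hk' hl'
      refine mul_le_mul ?_ (add_le_add (hnB K) (hnB l))
        (add_nonneg (semi_nonneg _ _) (semi_nonneg _ _)) (by positivity)
      calc ‖x‖ * semi A ξ (n K - n l) ≤ 1 * (ε K + ε l) :=
            mul_le_mul hx1 (hdiff K l) (semi_nonneg _ _) zero_le_one
        _ ≤ _ := by linarith
    have h3 : B * (t / (2 * B)) = t / 2 := by field_simp
    have h4 : 2 * (t / (8 * B)) * (B + B) = t / 2 := by field_simp; ring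
    rcases lt_or_eq_of_le (hF x hx hxF).le with h5 | h5
    · have h6 : ‖psiApprox A ξ (n K) x‖ < B * (t / (2 * B)) := by
        have := phi_cs (A := A) ξ (n K) (x * n K)
        rw [← mul_assoc] at this
        refine lt_of_le_of_lt (le_trans this (mul_le_mul_of_nonneg_right (hnB K) (semi_nonneg _ _))) ?_
        exact mul_lt_mul_of_pos_left h5 hB0
      calc ‖ψ x‖ = ‖psiApprox A ξ (n K) x - (psiApprox A ξ (n K) x - ψ x)‖ := by
            rw [sub_sub_cancel]
        _ ≤ _ := norm_sub_le _ _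
        _ < t := by linarith
    · exact absurd h5 (ne_of_lt (hF x hx hxF))
  · intro hg0
    have hg1 : ψ g = ψ 1 := by
      refine tendsto_nhds_unique (hψ g) ?_
      have hlim : Tendsto (fun k => psiApprox A ξ (n k) 1 - psiApprox A ξ (n k) g) atTop (𝓝 0) := by
        refine squeeze_zero_norm (fun k => ?_)
          (show Tendsto (fun k => B * (2 * ‖(1 : H →L[ℂ] H) - g‖) * ε k) atTop (𝓝 0) by
            simpa using hεlim.const_mul (B * (2 * ‖(1 : H →L[ℂ] H) - g‖)))
        have hbA : (1 : H →L[ℂ] H) - g ∈ A := sub_mem (one_mem A) hgA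
        have hzero : semi A ξ (n k * (1 - g)) = 0 := by
          have hb : ((1 : H →L[ℂ] H) - g) ξ = 0 := by simp [hgξ]
          simp only [semi, phi]
          rw [← mul_assoc, expect_mul_right hA hbA, mul_apply', hb]
          simp
        have h3 : semi A ξ ((1 - g) * n k) ≤ 2 * ε k * ‖(1 : H →L[ℂ] H) - g‖ := by
          have h4 := semi_add_le (A := A) ξ ((1 - g) * n k - n k * (1 - g)) (n k * (1 - g))
          rw [sub_add_cancel, hzero, add_zero] at h4
          exact le_trans h4 (hcomm k _ hbA)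
        have e : psiApprox A ξ (n k) 1 - psiApprox A ξ (n k) g
            = phi A ξ (star (n k) * ((1 - g) * n k)) := by
          simp only [psiApprox]
          rw [← phi_sub]
          congr 1
          noncomm_ring
        rw [e]
        refine le_trans (phi_cs ξ _ _) (le_trans (mul_le_mul (hnB k) h3 (semi_nonneg _ _) hB0.le) ?_)
        exact le_of_eq (by ring)
      have := (hψ 1).sub hlim
      simpa using this
    rw [hg1] at hg0
    rw [hg0] at hψ1
    simp only [Complex.zero_re] at hψ1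
    have hs0 : Tendsto (fun k => semi A ξ (n k)) atTop (𝓝 0) := by
      have := (Real.continuous_sqrt.tendsto _).comp hψ1
      simpa [Function.comp_def, Real.sqrt_sq (semi_nonneg _ _)] using this
    have hle : ‖phi A ξ p'‖ ≤ 0 := by
      refine ge_of_tendsto (show Tendsto (fun k => (semi A ξ (n k) + ε k) * semi A ξ p') atTop (𝓝 0)
        by simpa using (hs0.add hεlim).mul_const (semi A ξ p')) (Eventually.of_forall fun k => ?_)
      have h1 := inner_near ξ (hno k p' hp'N)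
      have h2 := phi_cs (A := A) ξ (n k) p'
      calc ‖phi A ξ p'‖ = ‖(phi A ξ p' - phi A ξ (star (n k) * p'))
            + phi A ξ (star (n k) * p')‖ := by rw [sub_add_cancel]
        _ ≤ _ := le_trans (norm_add_le _ _) (add_le_add h1 h2)
        _ = _ := by ring
    exact hfp (norm_le_zero_iff.1 hle)

end Vale.Agent.P078
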