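import Vale.Agent.P078.Semifinite

/-!
So-paving passes to algebras approximated, uniformly on the unit ball of the MASA, by semifinite
subalgebras containing it.
-/

namespace Vale.Agent.P078

open scoped InnerProductSpace ComplexOrder
open ContinuousLinearMap

variable {H : Type} [NormedAddCommGroup H] [InnerProductSpace ℂ H] [CompleteSpace H]
variable {M : VonNeumannAlgebra H} {A : StarSubalgebra ℂ (H →L[ℂ] H)}

/-- Each self-adjoint `x` in `M` is, at finitely many vectors and uniformly after the unit ball of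
`A`, a norm-bounded limit of self-adjoint elements of semifinite subalgebras containing `A`. -/
def HasSemifiniteApproximation (M : VonNeumannAlgebra H)
    (A : StarSubalgebra ℂ (H →L[ℂ] H)) : Prop :=
  ∀ x ∈ M, IsSelfAdjoint x → ∀ (F : Finset H) (δ : ℝ), 0 < δ →
    ∃ N : VonNeumannAlgebra H, (∀ z ∈ N, z ∈ M) ∧ (∀ a ∈ A, a ∈ N) ∧ HasSemifiniteTrace N ∧
      ∃ y ∈ N, IsSelfAdjoint y ∧ ‖y‖ ≤ ‖x‖ ∧
        ∀ a ∈ A, ‖a‖ ≤ 1 → ∀ ξ ∈ F, ‖(x - y) (a ξ)‖ < δ

/-- A semifinite algebra approximates itself. -/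
theorem hasSemifiniteApproximation_self (hA : IsMasa M A) (hM : HasSemifiniteTrace M) :
    HasSemifiniteApproximation M A := fun x hx hxs _ δ hδ =>
  ⟨M, fun _ hz => hz, hA.le, hM, x, hx, hxs, le_rfl, fun a _ _ ξ _ => by simpa using hδ⟩

/-- A MASA stays one in an intermediate algebra. -/
theorem IsMasa.intermediate (hA : IsMasa M A) {N : VonNeumannAlgebra H} (hNM : ∀ z ∈ N, z ∈ M)
    (hAN : ∀ a ∈ A, a ∈ N) : IsMasa N A :=
  ⟨hAN, hA.comm, fun B hAB hBN hB => hA.maximal B hAB (fun b hb => hNM b (hBN b hb)) hB⟩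

/-- Paving of the subalgebras at `ε / 2` gives paving of the algebra at `ε`. -/
theorem allSoPavable_of_approx (hA : IsMasa M A) (hap : HasSemifiniteApproximation M A) {ε : ℝ}
    (hε : 0 < ε) {r : ℕ} (hr : 0 < r)
    (hyp : ∀ N : VonNeumannAlgebra H, IsMasa N A → HasSemifiniteTrace N →
      AllSoPavable N A (ε / 2) r) :
    AllSoPavable M A ε r := by
  classical
  intro x hx hxs F δ hδ
  rcases eq_or_ne x 0 with hx0 | hx0
  · refine ⟨fun i => if i = ⟨0, hr⟩ then 1 else 0, ⟨fun i => ?_, fun i => ?_, fun i j hij => ?_,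
      by simp⟩, 0, zero_mem A, IsSelfAdjoint.zero _, by simp, 1, one_mem M,
      IsStarProjection.one _, fun ξ _ => by simpa using hδ, by simp [hx0, pinching]⟩
    · split_ifs
      · exact one_mem A
      · exact zero_mem A
    · split_ifs
      · exact IsStarProjection.one _
      · exact IsStarProjection.zero _
    · split_ifs with h1 h2
      · exact absurd (h1.trans h2.symm) hij
      all_goals simp
  have hxn : 0 < ‖x‖ := norm_pos_iff.2 hx0
  obtain ⟨θ, hθ⟩ : ∃ θ : ℝ, θ = ε / 2 * ‖x‖ := ⟨_, rfl⟩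
  have hθ0 : 0 < θ := by rw [hθ]; positivity
  obtain ⟨K, hK⟩ : ∃ K : ℝ, K = r + r * (2 * ‖x‖) + 1 := ⟨_, rfl⟩
  have hK0 : 0 < K := by rw [hK]; positivity
  obtain ⟨d, hd⟩ : ∃ d : ℝ, d = min (δ / 2) (θ * δ / (2 * K)) := ⟨_, rfl⟩
  have hd0 : 0 < d := hd ▸ lt_min (by linarith) (by positivity)
  have hd1 : d ≤ δ / 2 := hd ▸ min_le_left _ _
  have hd2 : K * d ≤ θ * δ / 2 := by
    have h := mul_le_mul_of_nonneg_left (hd ▸ min_le_right (δ / 2) (θ * δ / (2 * K)) :
      d ≤ θ * δ / (2 * K)) hK0.le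
    have e : K * (θ * δ / (2 * K)) = θ * δ / 2 := by field_simp
    linarith
  obtain ⟨N, hNM, hAN, hN, y, hyN, hys, hyn, hxy⟩ := hap x hx hxs F d hd0
  obtain ⟨p, hp, a, ha, has, han, q, hqN, hqp, hqd, hqn⟩ :=
    hyp N (hA.intermediate hNM hAN) hN y hyN hys F d hd0
  -- the error of the pinching
  obtain ⟨S, hS⟩ : ∃ S : H →L[ℂ] H, S = pinching p (x - y) := ⟨_, rfl⟩
  have hterm : ∀ i v, ‖(p i * (x - y) * p i) v‖ ≤ ‖(x - y) (p i v)‖ := fun i v => by
    rw [mul_apply', mul_apply']; exact proj_apply_norm_le (hp.proj i) _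
  have hSF : ∀ ξ ∈ F, ‖S ξ‖ ≤ r * d := fun ξ hξ => by
    rw [hS, pinching, sum_apply]
    refine (norm_sum_le _ _).trans ((Finset.sum_le_sum fun i _ =>
      (hterm i ξ).trans (hxy _ (hp.mem i) (norm_sa_proj_le (hp.proj i)) ξ hξ).le).trans ?_)
    simp
  have hSn : ∀ v, ‖S v‖ ≤ r * (2 * ‖x‖) * ‖v‖ := fun v => by
    rw [hS, pinching, sum_apply]
    have h2 : ‖x - y‖ ≤ 2 * ‖x‖ := (norm_sub_le _ _).trans (by linarith)
    refine (norm_sum_le _ _).trans ((Finset.sum_le_sum fun i _ => (hterm i v).trans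
      (((x - y).le_opNorm _).trans (mul_le_mul h2 (proj_apply_norm_le (hp.proj i) v)
        (norm_nonneg _) (by positivity)))).trans ?_)
    simp [mul_assoc]
  have hSs : IsSelfAdjoint S := by
    rw [hS, IsSelfAdjoint, pinching, star_sum]
    simp only [star_mul, (hp.proj _).isSelfAdjoint.star_eq, (hxs.sub hys).star_eq, mul_assoc]
  have hSM : S ∈ M := hS ▸ sum_mem fun i _ =>
    mul_mem (mul_mem (hA.le _ (hp.mem i)) (sub_mem hx (hNM y hyN))) (hA.le _ (hp.mem i))
  have hqM : q ∈ M := hNM q hqN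
  obtain ⟨Y, hY⟩ : ∃ Y : H →L[ℂ] H, Y = q * S * q := ⟨_, rfl⟩
  have hYs : IsSelfAdjoint Y := by
    rw [hY, IsSelfAdjoint, star_mul, star_mul, hqp.isSelfAdjoint.star_eq, hSs.star_eq, mul_assoc]
  have hYM : Y ∈ M := hY ▸ mul_mem (mul_mem hqM hSM) hqM
  obtain ⟨k, hkp, hkY, hkd, hkc, hkN, -⟩ := exists_cut hYs hθ0
  have hkq : Commute k q := hkc q (by
    show Y * q = q * Y
    rw [hY, mul_assoc (q * S), hqp.isIdempotentElem.eq, ← mul_assoc, ← mul_assoc,
      hqp.isIdempotentElem.eq])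
  have hk1 := norm_sa_proj_le hkp
  have hq1 := norm_sa_proj_le hqp
  refine ⟨p, hp, a, ha, has, han.trans hyn, q * k, mul_mem hqM (hkN M hYM),
    hqp.mul hkp hkq.symm, fun ξ hξ => ?_, ?_⟩
  · have hYξ : ‖Y ξ‖ ≤ K * d := by
      rw [hY, mul_apply', mul_apply']
      refine (proj_apply_norm_le hqp _).trans ?_
      have e : q ξ = ξ - (1 - q) ξ := by simp
      rw [e, map_sub]
      refine (norm_sub_le _ _).trans ?_
      have h1 := hSF ξ hξ
      have h2 : ‖S ((1 - q) ξ)‖ ≤ r * (2 * ‖x‖) * d :=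
        (hSn _).trans (mul_le_mul_of_nonneg_left (hqd ξ hξ).le (by positivity))
      rw [hK]
      nlinarith
    have h3 : ‖(1 - k) ξ‖ ≤ δ / 2 := by
      refine le_of_mul_le_mul_left ?_ hθ0
      linarith [hkd ξ]
    have e : (1 - q * k) ξ = (1 - q) ξ + q ((1 - k) ξ) := by
      simp only [sub_apply, one_apply_eq_self, map_sub, mul_apply']
      abel
    rw [e]
    refine lt_of_le_of_lt (norm_add_le _ _) ?_
    have h4 := hqd ξ hξ
    have h5 := proj_apply_norm_le hqp ((1 - k) ξ)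
    linarith
  · obtain ⟨Z, hZ⟩ : ∃ Z : H →L[ℂ] H, Z = q * (pinching p y - a) * q := ⟨_, rfl⟩
    have esplit : q * k * (pinching p x - a) * (q * k) = k * Z * k + k * (Y * k) := by
      have e1 : pinching p x - a = (pinching p y - a) + S := by
        rw [hS]
        simp only [pinching, mul_sub, sub_mul, Finset.sum_sub_distrib]
        abel
      rw [e1, hZ, hY]
      conv_lhs => arg 1; arg 1; rw [← hkq.eq]
      simp only [mul_add, add_mul, mul_assoc]
    rw [esplit]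
    refine (norm_add_le _ _).trans ?_
    have h1 : ‖k * Z * k‖ ≤ ε / 2 * ‖x‖ :=
      ((norm_mul_le _ _).trans (mul_le_of_le_one_right (norm_nonneg _) hk1)).trans
        (((norm_mul_le _ _).trans (mul_le_of_le_one_left (norm_nonneg _) hk1)).trans
          ((hZ ▸ hqn).trans (mul_le_mul_of_nonneg_left hyn (by positivity))))
    have h2 : ‖k * (Y * k)‖ ≤ θ := by
      refine ((norm_mul_le _ _).trans (mul_le_of_le_one_left (norm_nonneg _) hk1)).trans ?_
      refine ContinuousLinearMap.opNorm_le_bound _ hθ0.le fun v => ?_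
      rw [mul_apply']
      exact (hkY v).trans (mul_le_mul_of_nonneg_left (proj_apply_norm_le hkp v) hθ0.le)
    linarith

/-- The quadratic bound passes from semifinite algebras to algebras approximated by them. -/
theorem quadratic_approx_of_semifinite {C : ℝ}
    (hyp : ∀ (N : VonNeumannAlgebra H), IsMasa N A → HasSemifiniteTrace N → ∀ ε : ℝ, 0 < ε →
      ε < 1 → ∃ r : ℕ, (r : ℝ) ≤ C / ε ^ 2 ∧ AllSoPavable N A ε r)
    (hA : IsMasa M A) (hap : HasSemifiniteApproximation M A) {ε : ℝ} (hε : 0 < ε) (hε1 : ε < 1) :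
    ∃ r : ℕ, (r : ℝ) ≤ (4 * |C| + 2) / ε ^ 2 ∧ AllSoPavable M A ε r := by
  refine ⟨⌈C / (ε / 2) ^ 2⌉₊ + 1, ?_,
    allSoPavable_of_approx hA hap hε (Nat.succ_pos _) fun N hNA hN => ?_⟩
  · have h1 : (⌈C / (ε / 2) ^ 2⌉₊ : ℝ) ≤ |C| / (ε / 2) ^ 2 + 1 := by
      refine (Nat.cast_le.2 (Nat.ceil_le_ceil
        (div_le_div_of_nonneg_right (le_abs_self C) (sq_nonneg _)))).trans ?_
      exact (Nat.ceil_lt_add_one (by positivity)).le
    have h2 : 1 ≤ 1 / ε ^ 2 := by
      rw [le_div_iff₀ (by positivity)]; nlinarith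
    have h3 : (4 * |C| + 2) / ε ^ 2 = |C| / (ε / 2) ^ 2 + 2 * (1 / ε ^ 2) := by
      field_simp
      ring
    push_cast
    linarith
  · obtain ⟨r, hr, hp⟩ := hyp N hNA hN (ε / 2) (by linarith) (by linarith)
    refine hp.mono ((Nat.cast_le (α := ℝ)).1 ?_)
    push_cast
    linarith [Nat.le_ceil (C / (ε / 2) ^ 2)]

end Vale.Agent.P078
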