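import Vale.Agent.P078.Expect

/-!
Second moment of random colourings.
-/

namespace Vale.Agent.P078

open scoped InnerProductSpace

variable {H : Type} [NormedAddCommGroup H] [InnerProductSpace ℂ H]

theorem sum_norm_add_sq_of_sum_zero {r : ℕ} (w : H) (z : Fin r → H) (h : ∑ i, z i = 0) :
    ∑ i, ‖w + z i‖ ^ 2 = r * ‖w‖ ^ 2 + ∑ i, ‖z i‖ ^ 2 := by
  simp only [norm_add_sq (𝕜 := ℂ), Finset.sum_add_distrib, ← Finset.mul_sum]
  rw [← map_sum, ← inner_sum, h, inner_zero_right, map_zero]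
  simp

theorem linear_moment {r : ℕ} (φ : Fin r → ℝ) (hφ : ∑ i, φ i = 0) :
    ∀ (n : ℕ) (w : H) (v : Fin n → H),
      (r : ℝ) * ∑ f : Fin n → Fin r, ‖w + ∑ k, (φ (f k) : ℂ) • v k‖ ^ 2
        = (r : ℝ) ^ n * (r * ‖w‖ ^ 2 + (∑ i, φ i ^ 2) * ∑ k, ‖v k‖ ^ 2) := by
  intro n
  induction n with
  | zero => intro w v; simp
  | succ n ih =>
    intro w v
    rw [← (Fin.consEquiv fun _ => Fin r).sum_comp, Fintype.sum_prod_type]
    simp only [Fin.consEquiv_apply, Fin.sum_univ_succ, Fin.cons_zero, Fin.cons_succ, ← add_assoc]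
    rw [Finset.mul_sum]
    have e : ∀ i : Fin r, (r : ℝ) * ∑ f : Fin n → Fin r,
        ‖w + (φ i : ℂ) • v 0 + ∑ k : Fin n, (φ (f k) : ℂ) • v k.succ‖ ^ 2
        = (r : ℝ) ^ n * (r * ‖w + (φ i : ℂ) • v 0‖ ^ 2
          + (∑ i, φ i ^ 2) * ∑ k : Fin n, ‖v k.succ‖ ^ 2) :=
      fun i => ih (w + (φ i : ℂ) • v 0) (fun k => v k.succ)
    rw [Finset.sum_congr rfl fun i _ => e i]
    have hz : ∑ i, (φ i : ℂ) • v 0 = 0 := by
      rw [← Finset.sum_smul, ← Complex.ofReal_sum, hφ]; simp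
    have h2 : ∑ i, ‖w + (φ i : ℂ) • v 0‖ ^ 2
        = r * ‖w‖ ^ 2 + (∑ i, φ i ^ 2) * ‖v 0‖ ^ 2 := by
      rw [sum_norm_add_sq_of_sum_zero w _ hz, Finset.sum_mul]
      simp [norm_smul, mul_pow]
    rw [← Finset.mul_sum, Finset.sum_add_distrib, ← Finset.mul_sum, h2, Finset.sum_const,
      Finset.card_univ, Fintype.card_fin, nsmul_eq_mul]
    ring

/-- The centred indicator of a colour. -/
noncomputable def colFn {r : ℕ} (i j : Fin r) : ℝ := (if i = j then 1 else 0) - 1 / r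

theorem colFn_comm {r : ℕ} (i j : Fin r) : colFn i j = colFn j i := by
  simp [colFn, eq_comm]

theorem sum_colFn {r : ℕ} (hr : r ≠ 0) (j : Fin r) : ∑ i, colFn i j = 0 := by
  simp [colFn, Finset.sum_sub_distrib, hr]

theorem sum_colFn_sq {r : ℕ} (hr : r ≠ 0) (i : Fin r) : ∑ j, colFn i j ^ 2 ≤ 1 := by
  have e : ∀ j, colFn i j ^ 2 = colFn i j * (if i = j then 1 else 0) - colFn i j * (1 / r) :=
    fun j => by rw [← mul_sub]; exact sq (colFn i j)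
  have h0 : ∑ j, colFn i j = 0 :=
    (Finset.sum_congr rfl fun j _ => colFn_comm i j).trans (sum_colFn hr i)
  rw [Finset.sum_congr rfl fun j _ => e j, Finset.sum_sub_distrib, ← Finset.sum_mul, h0]
  simp [colFn]

/-- The off-diagonal fluctuation of a colouring. -/
noncomputable def fluct {r n : ℕ} (V : Fin n → Fin n → H) (f : Fin n → Fin r) : H :=
  ∑ k, ∑ l, if k = l then 0 else (colFn (f k) (f l) : ℂ) • V k l

theorem fluct_cons {r n : ℕ} (V : Fin (n + 1) → Fin (n + 1) → H) (i : Fin r)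
    (f : Fin n → Fin r) :
    fluct V (Fin.cons (α := fun _ => Fin r) i f) = fluct (fun k l => V k.succ l.succ) f
      + ∑ k : Fin n, (colFn i (f k) : ℂ) • (V 0 k.succ + V k.succ 0) := by
  simp only [fluct, Fin.sum_univ_succ, Fin.cons_zero, Fin.cons_succ, if_true,
    Fin.succ_inj, (Fin.succ_ne_zero _).symm, Fin.succ_ne_zero, if_false, zero_add,
    Finset.sum_add_distrib, smul_add]
  simp only [colFn_comm (f _) i]
  abel

theorem fluct_moment {r : ℕ} (hr : r ≠ 0) :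
    ∀ (n : ℕ) (V : Fin n → Fin n → H),
      ∑ f : Fin n → Fin r, ‖fluct V f‖ ^ 2 ≤ (r : ℝ) ^ n * (2 * ∑ k, ∑ l, ‖V k l‖ ^ 2) := by
  intro n
  induction n with
  | zero => intro V; simp [fluct]
  | succ n ih =>
    intro V
    have hr' : (1 : ℝ) ≤ r := by exact_mod_cast Nat.one_le_iff_ne_zero.2 hr
    rw [← (Fin.consEquiv fun _ => Fin r).sum_comp, Fintype.sum_prod_type, Finset.sum_comm]
    simp only [Fin.consEquiv, Equiv.coe_fn_mk, fluct_cons]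
    obtain ⟨W, hW⟩ : ∃ W : Fin n → H, W = fun k => V 0 k.succ + V k.succ 0 := ⟨_, rfl⟩
    have hW' : ∀ k, V 0 k.succ + V k.succ 0 = W k := fun k => by rw [hW]
    simp only [hW']
    have hz : ∀ f : Fin n → Fin r, ∑ i, ∑ k : Fin n, (colFn i (f k) : ℂ) • W k = 0 := by
      intro f
      rw [Finset.sum_comm]
      refine Finset.sum_eq_zero fun k _ => ?_
      rw [← Finset.sum_smul, ← Complex.ofReal_sum, sum_colFn hr]
      simp
    simp only [sum_norm_add_sq_of_sum_zero _ _ (hz _)]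
    rw [Finset.sum_add_distrib, ← Finset.mul_sum]
    have h1 : ∀ i : Fin r, (r : ℝ) * ∑ f : Fin n → Fin r,
        ‖∑ k : Fin n, (colFn i (f k) : ℂ) • W k‖ ^ 2 ≤ (r : ℝ) ^ n * ∑ k, ‖W k‖ ^ 2 := by
      intro i
      have h := linear_moment (H := H) (fun j => colFn i j)
        ((Finset.sum_congr rfl fun j _ => colFn_comm i j).trans (sum_colFn hr i)) n 0 W
      simp [-Complex.coe_smul] at h
      rw [h]
      refine mul_le_mul_of_nonneg_left ?_ (by positivity)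
      calc _ ≤ 1 * ∑ k, ‖W k‖ ^ 2 :=
            mul_le_mul_of_nonneg_right (sum_colFn_sq hr i) (by positivity)
        _ = _ := one_mul _
    have h2 : ∑ f : Fin n → Fin r, ∑ i, ‖∑ k : Fin n, (colFn i (f k) : ℂ) • W k‖ ^ 2
        ≤ (r : ℝ) ^ n * ∑ k, ‖W k‖ ^ 2 := by
      rw [Finset.sum_comm]
      have hs : (r : ℝ) * ∑ i, ∑ f : Fin n → Fin r, ‖∑ k : Fin n, (colFn i (f k) : ℂ) • W k‖ ^ 2
          ≤ r * ((r : ℝ) ^ n * ∑ k, ‖W k‖ ^ 2) := by
        rw [Finset.mul_sum]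
        refine le_trans (Finset.sum_le_sum fun i _ => h1 i) ?_
        simp
      exact le_of_mul_le_mul_left hs (by linarith)
    have h3 : ∑ k, ‖W k‖ ^ 2 ≤ 2 * (∑ k : Fin n, ‖V 0 k.succ‖ ^ 2 + ∑ k : Fin n, ‖V k.succ 0‖ ^ 2) := by
      rw [← Finset.sum_add_distrib, Finset.mul_sum]
      refine Finset.sum_le_sum fun k _ => ?_
      rw [← hW' k]
      have := norm_add_le (V 0 k.succ) (V k.succ 0)
      nlinarith [norm_nonneg (V 0 k.succ + V k.succ 0), sq_nonneg (‖V 0 k.succ‖ - ‖V k.succ 0‖)]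
    have h4 := ih (fun k l => V k.succ l.succ)
    have hsplit : ∑ k, ∑ l, ‖V k l‖ ^ 2 = ‖V 0 0‖ ^ 2 + ∑ l : Fin n, ‖V 0 l.succ‖ ^ 2
        + (∑ k : Fin n, ‖V k.succ 0‖ ^ 2 + ∑ k : Fin n, ∑ l : Fin n, ‖V k.succ l.succ‖ ^ 2) := by
      simp [Fin.sum_univ_succ, Finset.sum_add_distrib]
      ring
    rw [pow_succ, hsplit]
    have hp : (0 : ℝ) ≤ (r : ℝ) ^ n := by positivity
    have hS : 0 ≤ ∑ k : Fin n, ‖V 0 k.succ‖ ^ 2 + ∑ k : Fin n, ‖V k.succ 0‖ ^ 2 := by positivity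
    nlinarith [mul_le_mul_of_nonneg_left h4 (show (0 : ℝ) ≤ r by linarith),
      mul_le_mul_of_nonneg_left h3 hp, mul_nonneg (mul_nonneg hp (show (0 : ℝ) ≤ r by linarith))
        (sq_nonneg ‖V 0 0‖), mul_nonneg (mul_nonneg hp (sub_nonneg.2 hr')) hS]

theorem exists_colouring {r n : ℕ} (hr : r ≠ 0) (F : Finset H) (V : H → Fin n → Fin n → H) :
    ∃ f : Fin n → Fin r, ∀ ζ ∈ F,
      ‖fluct (V ζ) f‖ ^ 2 ≤ ∑ ξ ∈ F, 2 * ∑ k, ∑ l, ‖V ξ k l‖ ^ 2 := by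
  have : Nonempty (Fin r) := ⟨⟨0, Nat.pos_of_ne_zero hr⟩⟩
  have h : ∑ f : Fin n → Fin r, ∑ ξ ∈ F, ‖fluct (V ξ) f‖ ^ 2
      ≤ ∑ _f : Fin n → Fin r, ∑ ξ ∈ F, 2 * ∑ k, ∑ l, ‖V ξ k l‖ ^ 2 := by
    rw [Finset.sum_comm]
    refine le_trans (Finset.sum_le_sum fun ξ _ => fluct_moment hr n (V ξ)) ?_
    simp [Finset.mul_sum]
  obtain ⟨f, -, hf⟩ := Finset.exists_le_of_sum_le Finset.univ_nonempty h
  exact ⟨f, fun ζ hζ => le_trans (Finset.single_le_sum (f := fun ξ => ‖fluct (V ξ) f‖ ^ 2)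
    (fun ξ _ => by positivity) hζ) hf⟩

end Vale.Agent.P078
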