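import Mathlib

/-!
Definitions for so-paving over maximal abelian subalgebras of von Neumann algebras
(Popa-Vaes paving conjecture).
-/

namespace Vale.Agent.P078

open scoped ComplexOrder

variable {H : Type} [NormedAddCommGroup H] [InnerProductSpace ℂ H] [CompleteSpace H]

/-- `A` is a maximal abelian self-adjoint subalgebra of the von Neumann algebra `M`. -/
structure IsMasa (M : VonNeumannAlgebra H) (A : StarSubalgebra ℂ (H →L[ℂ] H)) : Prop where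
  le : ∀ a ∈ A, a ∈ M
  comm : ∀ a ∈ A, ∀ b ∈ A, a * b = b * a
  maximal : ∀ B : StarSubalgebra ℂ (H →L[ℂ] H), A ≤ B → (∀ b ∈ B, b ∈ M) →
    (∀ a ∈ B, ∀ b ∈ B, a * b = b * a) → B = A

/-- A partition of the identity in `A` with `r` pieces (zero pieces allowed). -/
structure IsPartition (A : StarSubalgebra ℂ (H →L[ℂ] H)) {r : ℕ}
    (p : Fin r → (H →L[ℂ] H)) : Prop where
  mem : ∀ i, p i ∈ A
  proj : ∀ i, IsStarProjection (p i)
  orth : ∀ i j, i ≠ j → p i * p j = 0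
  sum_eq : ∑ i, p i = 1

/-- The pinching by a finite family. -/
noncomputable def pinching {r : ℕ} (p : Fin r → (H →L[ℂ] H)) (x : H →L[ℂ] H) : H →L[ℂ] H :=
  ∑ i, p i * x * p i

/-- `x` is `(ε, r)` so-pavable over `A` inside `M`. -/
def SoPavable (M : VonNeumannAlgebra H) (A : StarSubalgebra ℂ (H →L[ℂ] H))
    (x : H →L[ℂ] H) (ε : ℝ) (r : ℕ) : Prop :=
  ∀ F : Finset H, ∀ δ : ℝ, 0 < δ → ∃ p : Fin r → (H →L[ℂ] H), IsPartition A p ∧
    ∃ a ∈ A, IsSelfAdjoint a ∧ ‖a‖ ≤ ‖x‖ ∧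
    ∃ q ∈ M, IsStarProjection q ∧ (∀ ξ ∈ F, ‖(1 - q) ξ‖ < δ) ∧
      ‖q * (pinching p x - a) * q‖ ≤ ε * ‖x‖

/-- Every self-adjoint element of `M` is `(ε, r)` so-pavable over `A`. -/
def AllSoPavable (M : VonNeumannAlgebra H) (A : StarSubalgebra ℂ (H →L[ℂ] H))
    (ε : ℝ) (r : ℕ) : Prop :=
  ∀ x ∈ M, IsSelfAdjoint x → SoPavable M A x ε r

/-- A normal positive linear functional on `M` that is centralised by `A`. Normality is
strong-operator continuity on the unit ball of `M`. -/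
structure IsNormalCentral (M : VonNeumannAlgebra H) (A : StarSubalgebra ℂ (H →L[ℂ] H))
    (ψ : (H →L[ℂ] H) → ℂ) : Prop where
  map_add : ∀ x ∈ M, ∀ y ∈ M, ψ (x + y) = ψ x + ψ y
  map_smul : ∀ (c : ℂ), ∀ x ∈ M, ψ (c • x) = c * ψ x
  nonneg : ∀ x ∈ M, 0 ≤ ψ (star x * x)
  central : ∀ a ∈ A, ∀ x ∈ M, ψ (a * x) = ψ (x * a)
  normal : ∀ t : ℝ, 0 < t → ∃ F : Finset H, ∃ d : ℝ, 0 < d ∧
    ∀ x ∈ M, ‖x‖ ≤ 1 → (∀ ξ ∈ F, ‖x ξ‖ < d) → ‖ψ x‖ < t

/-- There is no nonzero normal positive functional on `M` centralised by `A`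
(a positive functional vanishes exactly when its value at `1` vanishes). -/
def NoNormalCentral (M : VonNeumannAlgebra H) (A : StarSubalgebra ℂ (H →L[ℂ] H)) : Prop :=
  ∀ ψ : (H →L[ℂ] H) → ℂ, IsNormalCentral M A ψ → ψ 1 = 0

/-- The normal positive functionals centralised by `A` separate the projections of `A`. -/
def SeparatingNormalCentral (M : VonNeumannAlgebra H) (A : StarSubalgebra ℂ (H →L[ℂ] H)) :
    Prop :=
  ∀ g ∈ A, IsStarProjection g → g ≠ 0 →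
    ∃ ψ : (H →L[ℂ] H) → ℂ, IsNormalCentral M A ψ ∧ ψ g ≠ 0

/-- `A` has no minimal projection. -/
def IsDiffuse (A : StarSubalgebra ℂ (H →L[ℂ] H)) : Prop :=
  ∀ g ∈ A, IsStarProjection g → g ≠ 0 →
    ∃ h ∈ A, IsStarProjection h ∧ h ≠ 0 ∧ h ≠ g ∧ g * h = h

/-- The Popa-Vaes bound `n(ε) ≤ C / ε ^ 2` for every MASA of every von Neumann algebra. -/
def QuadraticPavingAll : Prop :=
  ∃ C : ℝ, ∀ (H : Type) [NormedAddCommGroup H] [InnerProductSpace ℂ H] [CompleteSpace H]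
    (M : VonNeumannAlgebra H) (A : StarSubalgebra ℂ (H →L[ℂ] H)), IsMasa M A →
    ∀ ε : ℝ, 0 < ε → ε < 1 → ∃ r : ℕ, (r : ℝ) ≤ C / ε ^ 2 ∧ AllSoPavable M A ε r

/-- The same bound, asked only for MASAs with separating normal centralised functionals. -/
def QuadraticPavingSeparating : Prop :=
  ∃ C : ℝ, ∀ (H : Type) [NormedAddCommGroup H] [InnerProductSpace ℂ H] [CompleteSpace H]
    (M : VonNeumannAlgebra H) (A : StarSubalgebra ℂ (H →L[ℂ] H)), IsMasa M A →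
    SeparatingNormalCentral M A →
    ∀ ε : ℝ, 0 < ε → ε < 1 → ∃ r : ℕ, (r : ℝ) ≤ C / ε ^ 2 ∧ AllSoPavable M A ε r

end Vale.Agent.P078
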