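import Vale.Agent.P078.Dense
import Vale.Agent.P078.All.Theorem

/-!
So-paving with `C / ε ^ 2` pieces for every MASA with dense semifinite intermediate algebras.
-/

namespace Vale.Agent.P078

/-- Every MASA with strongly dense semifinite intermediate subalgebras. -/
theorem allSoPavable_of_hasDenseSemifinite {H : Type} [NormedAddCommGroup H]
    [InnerProductSpace ℂ H] [CompleteSpace H] {M : VonNeumannAlgebra H}
    {A : StarSubalgebra ℂ (H →L[ℂ] H)} (hA : IsMasa M A) (hd : HasDenseSemifinite M A) {ε : ℝ}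
    (hε : 0 < ε) (hε1 : ε < 1) :
    ∃ r : ℕ, (r : ℝ) ≤ 812 / ε ^ 2 ∧ AllSoPavable M A ε r := by
  obtain ⟨R, hR⟩ : ∃ R : ℕ, R = ⌊202 / (ε / 2) ^ 2⌋₊ := ⟨_, rfl⟩
  have hR0 : 0 < R := by
    rw [hR, Nat.floor_pos, le_div_iff₀ (by positivity)]
    nlinarith
  refine ⟨R + (⌊1 / ε⌋₊ + 1), ?_, allSoPavable_of_corners hε hA fun U _ _ heA heM hsep =>
    allSoPavable_of_approx (corner_isMasa U heA heM hA)
      (hasSemifiniteApproximation_of_dense (corner_isMasa U heA heM hA) hsep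
        (hasDenseSemifinite_corner hd U heA heM)) hε hR0 fun N hN hT => ?_⟩
  · have h1 : (R : ℝ) ≤ 202 / (ε / 2) ^ 2 := hR ▸ Nat.floor_le (by positivity)
    have h2 : (⌊1 / ε⌋₊ : ℝ) ≤ 1 / ε := Nat.floor_le (by positivity)
    have h3 : 1 / ε ≤ 1 / ε ^ 2 := by
      rw [div_le_div_iff₀ hε (by positivity)]; nlinarith
    have h4 : 1 ≤ 1 / ε ^ 2 := by
      rw [le_div_iff₀ (by positivity)]; nlinarith
    have h5 : 812 / ε ^ 2 = 202 / (ε / 2) ^ 2 + 4 * (1 / ε ^ 2) := by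
      field_simp
      ring
    push_cast
    linarith
  · obtain ⟨r, hr, hp⟩ := All.allSoPavable_of_hasSemifiniteTrace hN hT
      (ε := ε / 2) (by linarith) (by linarith)
    exact hp.mono (hR ▸ Nat.le_floor hr)

end Vale.Agent.P078
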