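import Vale.Agent.P078.Reduce

/-!
Diffuse MASAs of `B(H)`: no normal centralised functional, a lower bound for the number of pieces,
and existence.
-/

namespace Vale.Agent.P078

open scoped InnerProductSpace ComplexOrder
open InnerProductSpace (rankOne)
open Filter Topology ContinuousLinearMap

variable {H : Type} [NormedAddCommGroup H] [InnerProductSpace ℂ H] [CompleteSpace H]
variable {M : VonNeumannAlgebra H} {A : StarSubalgebra ℂ (H →L[ℂ] H)}

theorem exists_pieces (hA : IsMasa M A) (hd : IsDiffuse A) :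
    ∀ (n : ℕ) (g : H →L[ℂ] H), g ∈ A → IsStarProjection g → g ≠ 0 →
      ∃ p : Fin n → (H →L[ℂ] H), (∀ i, p i ∈ A ∧ IsStarProjection (p i) ∧ p i ≠ 0 ∧ g * p i = p i) ∧
        ∀ i j, i ≠ j → p i * p j = 0 := by
  intro n
  induction n with
  | zero => exact fun g _ _ _ => ⟨fun i => i.elim0, fun i => i.elim0, fun i => i.elim0⟩
  | succ n ih =>
    intro g hg hgp hg0
    obtain ⟨h, hh, hhp, hh0, hhg, hgh⟩ := hd g hg hgp hg0
    have hd' : IsStarProjection (g - h) := hhp.sub_of_mul_eq_right hgp hgh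
    obtain ⟨p, hp, hpo⟩ := ih (g - h) (sub_mem hg hh) hd' (fun e => hhg (sub_eq_zero.1 e).symm)
    have hz : ∀ i, h * p i = 0 ∧ g * p i = p i := by
      intro i
      have e0 : h * (g - h) = 0 := by
        rw [mul_sub, hA.comm _ hh _ hg, hgh, hhp.isIdempotentElem.eq, sub_self]
      have e1 : g * (g - h) = g - h := by rw [mul_sub, hgp.isIdempotentElem.eq, hgh]
      constructor
      · rw [← (hp i).2.2.2, ← mul_assoc, e0, zero_mul]
      · conv_lhs => rw [← (hp i).2.2.2, ← mul_assoc, e1]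
        exact (hp i).2.2.2
    refine ⟨Fin.cons h p, fun i => ?_, fun i j hij => ?_⟩
    · refine Fin.cases ?_ (fun k => ?_) i
      · exact ⟨hh, hhp, hh0, hgh⟩
      · simp only [Fin.cons_succ]
        exact ⟨(hp k).1, (hp k).2.1, (hp k).2.2.1, (hz k).2⟩
    · revert hij
      refine Fin.cases ?_ (fun k => ?_) i <;> refine Fin.cases ?_ (fun l => ?_) j <;> intro hij
      · exact absurd rfl hij
      · simp only [Fin.cons_zero, Fin.cons_succ]; exact (hz l).1
      · simp only [Fin.cons_zero, Fin.cons_succ]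
        rw [hA.comm _ (hp k).1 _ hh]; exact (hz k).1
      · simp only [Fin.cons_succ]
        exact hpo k l fun e => hij (e ▸ rfl)

theorem exists_unit_vectors {n : ℕ} (p : Fin n → (H →L[ℂ] H))
    (hp : ∀ i, IsStarProjection (p i) ∧ p i ≠ 0) :
    ∃ v : Fin n → H, ∀ i, p i (v i) = v i ∧ ‖v i‖ = 1 := by
  have h : ∀ i, ∃ v, p i v = v ∧ ‖v‖ = 1 := by
    intro i
    obtain ⟨w, hw⟩ : ∃ w, p i w ≠ 0 := by
      by_contra hcon
      push Not at hcon
      exact (hp i).2 (ContinuousLinearMap.ext fun w => by simpa using hcon w)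
    refine ⟨(‖p i w‖⁻¹ : ℂ) • p i w, ?_, norm_smul_inv_norm hw⟩
    rw [map_smul, ← mul_apply', (hp i).1.isIdempotentElem.eq]
  choose v hv using h
  exact ⟨v, hv⟩

theorem normalCentral_bound {ψ : (H →L[ℂ] H) → ℂ} (hψ : IsNormalCentral M A ψ) :
    ∃ C : ℝ, ∀ x ∈ M, ‖ψ x‖ ≤ C * ‖x‖ := by
  obtain ⟨F, d, hd, hF⟩ := hψ.normal 1 one_pos
  obtain ⟨K, hK⟩ : ∃ K : ℝ, K = ∑ v ∈ F, ‖v‖ + 1 := ⟨_, rfl⟩
  have hK0 : 0 < K := by rw [hK]; positivity
  obtain ⟨s, hs⟩ : ∃ s : ℝ, s = min 1 (d / (2 * K)) := ⟨_, rfl⟩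
  have hs0 : 0 < s := hs ▸ lt_min one_pos (by positivity)
  refine ⟨1 / s, fun x hx => ?_⟩
  rcases eq_or_ne x 0 with rfl | hx0
  · simp [normalCentral_zero hψ]
  have hn : 0 < ‖x‖ := norm_pos_iff.2 hx0
  obtain ⟨c, hc⟩ : ∃ c : ℝ, c = s / ‖x‖ := ⟨_, rfl⟩
  have hc0 : 0 < c := hc ▸ div_pos hs0 hn
  have hcx : ‖(c : ℂ) • x‖ = s := by
    rw [norm_smul, Complex.norm_real, Real.norm_eq_abs, abs_of_pos hc0, hc]; field_simp
  have h1 := hF ((c : ℂ) • x) (vn_smul_mem _ hx) (by rw [hcx, hs]; exact min_le_left _ _)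
    fun v hv => by
      refine lt_of_le_of_lt (ContinuousLinearMap.le_opNorm _ v) ?_
      rw [hcx]
      have hv' : ‖v‖ ≤ K := by
        rw [hK]
        linarith [Finset.single_le_sum (f := fun w : H => ‖w‖) (fun w _ => norm_nonneg w) hv]
      calc s * ‖v‖ ≤ d / (2 * K) * K :=
            mul_le_mul (hs ▸ min_le_right _ _) hv' (norm_nonneg _) (by positivity)
        _ = d / 2 := by field_simp
        _ < d := by linarith
  rw [hψ.map_smul _ x hx, norm_mul, Complex.norm_real, Real.norm_eq_abs, abs_of_pos hc0, hc] at h1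
  rw [div_mul_eq_mul_div, div_lt_one hn] at h1
  rw [div_mul_eq_mul_div, one_mul, le_div_iff₀ hs0]
  linarith

theorem noNormalCentral_of_diffuse (hM : ∀ x : H →L[ℂ] H, x ∈ M) (hA : IsMasa M A)
    (hd : IsDiffuse A) : NoNormalCentral M A := by
  classical
  intro ψ hψ
  obtain ⟨C, hC⟩ := normalCentral_bound hψ
  have hadd : ∀ x y, ψ (x + y) = ψ x + ψ y := fun x y => hψ.map_add x (hM x) y (hM y)
  have hsmul : ∀ (c : ℂ) x, ψ (c • x) = c * ψ x := fun c x => hψ.map_smul c x (hM x)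
  obtain ⟨B, hB⟩ : ∃ B : H →L⋆[ℂ] H →L[ℂ] ℂ, ∀ u v, B u v = ψ (rankOne ℂ v u) := by
    refine ⟨LinearMap.mkContinuous₂
      (LinearMap.mk₂'ₛₗ (starRingEnd ℂ) (RingHom.id ℂ) (fun u v => ψ (rankOne ℂ v u))
        (fun u u' v => by rw [map_add, hadd])
        (fun c u v => by rw [map_smulₛₗ, hsmul]; rfl)
        (fun u v v' => by rw [map_add, ← hadd]; rfl)
        (fun c u v => by rw [map_smul, RingHom.id_apply, smul_eq_mul, ← hsmul]; rfl))
      (max C 0) (fun u v => ?_), fun u v => rfl⟩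
    refine le_trans (hC _ (hM _)) ?_
    rw [InnerProductSpace.norm_rankOne]
    calc C * (‖v‖ * ‖u‖) ≤ max C 0 * (‖v‖ * ‖u‖) :=
          mul_le_mul_of_nonneg_right (le_max_left _ _) (by positivity)
      _ = _ := by ring
  obtain ⟨T, hT⟩ : ∃ T : H →L[ℂ] H, ∀ u v, ⟪u, T v⟫_ℂ = ψ (rankOne ℂ v u) :=
    ⟨star (InnerProductSpace.continuousLinearMapOfBilin B), fun u v => by
      rw [ContinuousLinearMap.star_eq_adjoint, ContinuousLinearMap.adjoint_inner_right,
        InnerProductSpace.continuousLinearMapOfBilin_apply, hB]⟩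
  have hpos : ∀ v, 0 ≤ ⟪v, T v⟫_ℂ := by
    intro v
    rw [hT]
    rcases eq_or_ne v 0 with rfl | hv
    · rw [show rankOne ℂ (0 : H) (0 : H) = 0 by simp, normalCentral_zero hψ]
    obtain ⟨e, he⟩ : ∃ e : H, e = (‖v‖⁻¹ : ℂ) • v := ⟨_, rfl⟩
    have he1 : ‖e‖ = 1 := he ▸ norm_smul_inv_norm hv
    have h := hψ.nonneg (rankOne ℂ e v) (hM _)
    have e1 : star (rankOne ℂ e v) * rankOne ℂ e v = rankOne ℂ v v := by
      rw [ContinuousLinearMap.star_eq_adjoint, InnerProductSpace.adjoint_rankOne,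
        ContinuousLinearMap.mul_def, InnerProductSpace.rankOne_comp_rankOne,
        inner_self_eq_norm_sq_to_K, he1]
      simp
    rwa [e1] at h
  have hTs : IsSelfAdjoint T := by
    refine ((ContinuousLinearMap.isPositive_iff_complex T).2 fun v => ?_).isSelfAdjoint
    have h := hpos v
    rw [Complex.nonneg_iff] at h
    have e : ⟪T v, v⟫_ℂ = ⟪v, T v⟫_ℂ := by
      rw [← inner_conj_symm (T v) v]
      exact Complex.conj_eq_iff_im.2 h.2.symm
    rw [e]
    exact ⟨Complex.ext (by simp) (by simp [← h.2]), h.1⟩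
  have hTA : T ∈ A := by
    refine hA.mem_of_commute (hM T) fun a ha => ?_
    ext v
    refine ext_inner_left ℂ fun u => ?_
    rw [mul_apply', mul_apply', hT, ← ContinuousLinearMap.adjoint_inner_left a, hT]
    have h := hψ.central a ha (rankOne ℂ v u) (hM _)
    rw [ContinuousLinearMap.mul_def, ContinuousLinearMap.mul_def, InnerProductSpace.comp_rankOne,
      InnerProductSpace.rankOne_comp] at h
    exact h
  have hT0 : ∀ v, ⟪v, T v⟫_ℂ = 0 := by
    intro v
    have hle : ‖⟪v, T v⟫_ℂ‖ ≤ 0 := by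
      refine le_of_forall_pos_le_add fun t ht => ?_
      obtain ⟨η, hη⟩ : ∃ η : ℝ, η = t / (3 * (‖v‖ ^ 2 + 1)) := ⟨_, rfl⟩
      have hη0 : 0 < η := by rw [hη]; positivity
      have hspec : ∀ x ∈ spectrum ℝ T, (0 : ℝ) ≤ x := by
        intro x hx
        refine spectrum_nonneg_of_nonneg ?_ hx
        rw [ContinuousLinearMap.nonneg_iff_isPositive]
        refine (ContinuousLinearMap.isPositive_iff_complex T).2 fun w => ?_
        have h := hpos w
        rw [Complex.nonneg_iff] at h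
        have e : ⟪T w, w⟫_ℂ = ⟪w, T w⟫_ℂ := sa_inner hTs w w
        rw [e]
        exact ⟨Complex.ext (by simp) (by simp [← h.2]), h.1⟩
      obtain ⟨N, s, m, hs, hmp, hmo, -, hap, hmc, hmV⟩ := exists_step_approx hTs hη0 0 hspec
      obtain ⟨S, hS⟩ : ∃ S : H →L[ℂ] H, S = ∑ j, (s j : ℂ) • m j := ⟨_, rfl⟩
      rw [← hS] at hap
      have hsmall : ∀ j, m j ≠ 0 → s j ≤ 2 * η := by
        intro j hj
        by_contra hcon
        push Not at hcon
        have hmA : m j ∈ A := hA.mem_of_commute (hM _)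
          fun a ha => (hmc j a (hA.comm T hTA a ha)).eq
        obtain ⟨n, hn⟩ := exists_nat_gt (max C 0 / η)
        obtain ⟨p, hp, hpo⟩ := exists_pieces hA hd n (m j) hmA (hmp j) hj
        obtain ⟨w, hw⟩ := exists_unit_vectors p fun i => ⟨(hp i).2.1, (hp i).2.2.1⟩
        have horth : ∀ i k, i ≠ k → ⟪w i, w k⟫_ℂ = 0 := fun i k hik => by
          rw [← (hw i).1, ← (hw k).1]; exact inner_orth_zero (hp i).2.1 (hpo i k hik) _ _
        obtain ⟨R, hR⟩ : ∃ R : H →L[ℂ] H, R = ∑ i, rankOne ℂ (w i) (w i) := ⟨_, rfl⟩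
        have hRp : IsStarProjection R := hR ▸ isStarProjection_sum_orth _ _
          (fun i _ => InnerProductSpace.isStarProjection_rankOne_self (hw i).2)
          (fun i _ k _ hik => by
            rw [ContinuousLinearMap.mul_def, InnerProductSpace.rankOne_comp_rankOne, horth i k hik,
              zero_smul])
        have hψR : ψ R = ∑ i, ⟪w i, T (w i)⟫_ℂ := by
          rw [hR, normalCentral_sum hψ _ _ fun i _ => hM _]
          exact Finset.sum_congr rfl fun i _ => (hT _ _).symm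
        have hlow : ∀ i, η ≤ RCLike.re ⟪w i, T (w i)⟫_ℂ := by
          intro i
          have hmw : m j (w i) = w i := by
            rw [← (hw i).1, ← mul_apply', (hp i).2.2.2]
          have hSw : S (w i) = (s j : ℂ) • w i := by
            rw [hS, sum_apply, Finset.sum_eq_single j]
            · rw [smul_apply, hmw]
            · intro k _ hk
              rw [smul_apply, ← hmw, ← mul_apply', hmo k j hk]; simp
            · simp
          have h1 : ‖⟪w i, (T - S) (w i)⟫_ℂ‖ ≤ η := by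
            refine le_trans (norm_inner_le_norm _ _) ?_
            rw [(hw i).2, one_mul]
            refine le_trans ((T - S).le_opNorm _) ?_
            rw [(hw i).2, mul_one]; exact hap
          have h2 := neg_le_of_abs_le (le_trans (RCLike.abs_re_le_norm _) h1)
          rw [sub_apply, inner_sub_right, map_sub, hSw, inner_smul_right,
            inner_self_eq_norm_sq_to_K, (hw i).2] at h2
          simp at h2 ⊢
          linarith
        have h3 := le_trans (RCLike.re_le_norm (ψ R)) (le_trans (hC R (hM R))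
          (mul_le_mul (le_max_left C 0) (norm_sa_proj_le hRp) (norm_nonneg _) (le_max_right _ _)))
        rw [hψR, map_sum] at h3
        have h4 : (n : ℝ) * η ≤ ∑ i, RCLike.re ⟪w i, T (w i)⟫_ℂ := by
          calc (n : ℝ) * η = ∑ _i : Fin n, η := by simp
            _ ≤ _ := Finset.sum_le_sum fun i _ => hlow i
        rw [div_lt_iff₀ hη0] at hn
        linarith
      have hS' : ‖S v‖ ^ 2 ≤ (2 * η * ‖v‖) ^ 2 := by
        have e : S v = ∑ j, m j ((s j : ℂ) • v) := by
          rw [hS, sum_apply]; simp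
        rw [e, norm_sq_sum_orth _ m (fun j _ => hmp j) (fun i _ k _ h => hmo i k h)
          (fun j => (s j : ℂ) • v), mul_pow]
        refine le_trans (Finset.sum_le_sum fun j _ => ?_)
          ((Finset.mul_sum _ _ _).symm.le.trans (mul_le_mul_of_nonneg_left
            (sum_norm_sq_le _ m (fun j _ => hmp j) (fun i _ k _ h => hmo i k h) v) (sq_nonneg _)))
        rcases eq_or_ne (m j) 0 with h | h
        · simp [h]
        · rw [map_smul, norm_smul, mul_pow, Complex.norm_real, Real.norm_eq_abs, sq_abs]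
          exact mul_le_mul_of_nonneg_right (pow_le_pow_left₀ (hs j) (hsmall j h) 2) (sq_nonneg _)
      have hS'' : ‖S v‖ ≤ 2 * η * ‖v‖ := (abs_le_of_sq_le_sq' hS' (by positivity)).2
      have hTv : ‖T v‖ ≤ 3 * η * ‖v‖ := by
        have h1 := le_trans ((T - S).le_opNorm v)
          (mul_le_mul_of_nonneg_right hap (norm_nonneg _))
        rw [sub_apply] at h1
        linarith [norm_le_norm_sub_add (T v) (S v)]
      refine le_trans (norm_inner_le_norm _ _) (le_trans
        (mul_le_mul_of_nonneg_left hTv (norm_nonneg _)) ?_)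
      have e : 3 * η * (‖v‖ ^ 2 + 1) = t := by rw [hη]; field_simp
      nlinarith
    exact norm_le_zero_iff.1 hle
  refine norm_le_zero_iff.1 (le_of_forall_pos_le_add fun t ht => ?_)
  obtain ⟨F, d, hd0, hF⟩ := hψ.normal t ht
  obtain ⟨U, hU⟩ : ∃ U : Submodule ℂ H, U = Submodule.span ℂ (F : Set H) := ⟨_, rfl⟩
  have hfd : FiniteDimensional ℂ U := by
    rw [hU]; exact FiniteDimensional.span_finset ℂ F
  have hP0 : ψ U.starProjection = 0 := by
    rw [(stdOrthonormalBasis ℂ U).starProjection_eq_sum_rankOne,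
      normalCentral_sum hψ _ _ fun i _ => hM _]
    exact Finset.sum_eq_zero fun i _ => (hT _ _).symm.trans (hT0 _)
  have h1 := hF (1 - U.starProjection) (hM _)
    (norm_sa_proj_le (isStarProjection_starProjection.one_sub)) fun v hv => by
      have : U.starProjection v = v := Submodule.starProjection_eq_self_iff.2
        (hU ▸ Submodule.subset_span hv)
      rw [sub_apply, one_apply_eq_self, this, sub_self, norm_zero]
      exact hd0
  rw [normalCentral_sub hψ (hM _) (hM _), hP0, sub_zero] at h1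
  linarith

/-- Signs of the Walsh system. -/
noncomputable def walsh {k : ℕ} (m j : Fin k → Bool) : ℂ :=
  ∏ i, if m i && j i then -1 else 1

theorem walsh_orth {k : ℕ} (m n : Fin k → Bool) :
    ∑ j, starRingEnd ℂ (walsh m j) * walsh n j = if m = n then (2 : ℂ) ^ k else 0 := by
  classical
  obtain ⟨u, hu⟩ : ∃ u : Fin k → Bool → ℂ, u = fun i b =>
      starRingEnd ℂ (if m i && b then (-1 : ℂ) else 1) * (if n i && b then (-1 : ℂ) else 1) :=
    ⟨_, rfl⟩
  have e : ∀ j : Fin k → Bool, starRingEnd ℂ (walsh m j) * walsh n j = ∏ i, u i (j i) := by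
    intro j
    rw [walsh, walsh, map_prod, ← Finset.prod_mul_distrib, hu]
  simp only [e]
  rw [← Fintype.prod_sum u]
  have h : ∀ i, ∑ b, u i b = if m i = n i then (2 : ℂ) else 0 := by
    intro i
    rw [hu, Fintype.sum_bool]
    simp only [Bool.and_true, Bool.and_false]
    cases m i <;> cases n i <;> norm_num
  simp only [h]
  split_ifs with hmn
  · subst hmn; simp
  · obtain ⟨i, hi⟩ := Function.ne_iff.1 hmn
    exact Finset.prod_eq_zero (Finset.mem_univ i) (if_neg hi)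

theorem lower_bound (hM : ∀ x : H →L[ℂ] H, x ∈ M) (hA : IsMasa M A) (hd : IsDiffuse A)
    [Nontrivial H] {ε : ℝ} (hε : 0 ≤ ε) {r : ℕ} (hP : AllSoPavable M A ε r) :
    (1 : ℝ) / r ≤ 2 * ε := by
  classical
  have h10 : (1 : H →L[ℂ] H) ≠ 0 := by
    intro h
    obtain ⟨v, hv⟩ := exists_ne (0 : H)
    exact hv (by simpa using congrArg (fun T : H →L[ℂ] H => T v) h)
  refine le_of_forall_pos_le_add fun t ht => ?_
  obtain ⟨k, hk⟩ := exists_nat_gt (2 / t)
  obtain ⟨N, hN⟩ : ∃ N : ℕ, N = 2 ^ k := ⟨_, rfl⟩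
  have hkN : (k : ℝ) ≤ N := by
    rw [hN]; exact_mod_cast (Nat.lt_two_pow_self).le
  have hN0 : (0 : ℝ) < N := lt_of_lt_of_le (lt_trans (by positivity) hk) hkN
  obtain ⟨g, hg, hgo⟩ := exists_pieces hA hd (Fintype.card (Fin k → Bool)) 1 (one_mem A)
    (IsStarProjection.one _) h10
  obtain ⟨e⟩ : Nonempty ((Fin k → Bool) ≃ Fin (Fintype.card (Fin k → Bool))) :=
    ⟨Fintype.equivFin _⟩
  obtain ⟨v₀, hv₀⟩ := exists_unit_vectors g fun i => ⟨(hg i).2.1, (hg i).2.2.1⟩
  obtain ⟨v, hv⟩ : ∃ v : (Fin k → Bool) → H, v = fun j => v₀ (e j) := ⟨_, rfl⟩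
  have hv1 : ∀ j, g (e j) (v j) = v j ∧ ‖v j‖ = 1 := fun j => hv ▸ hv₀ (e j)
  have hcard : (Fintype.card (Fin k → Bool) : ℂ) = (N : ℂ) := by
    rw [hN]; simp
  obtain ⟨c, hc⟩ : ∃ c : ℝ, c = 1 / Real.sqrt N := ⟨_, rfl⟩
  have hc2 : c * c = 1 / N := by
    rw [hc, div_mul_div_comm, one_mul, Real.mul_self_sqrt hN0.le]
  obtain ⟨z, hz⟩ : ∃ z : (Fin k → Bool) → H, z = fun m => (c : ℂ) • ∑ j, walsh m j • v j :=
    ⟨_, rfl⟩
  have horth : ∀ i j, i ≠ j → ⟪v i, v j⟫_ℂ = 0 := fun i j hij => by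
    rw [← (hv1 i).1, ← (hv1 j).1]
    exact inner_orth_zero (hg _).2.1 (hgo _ _ (e.injective.ne hij)) _ _
  have hform : ∀ (B : H →L[ℂ] H) m n, (∀ i j, i ≠ j → ⟪v i, B (v j)⟫_ℂ = 0) →
      ⟪z m, B (z n)⟫_ℂ
        = ((c * c : ℝ) : ℂ) * ∑ j, starRingEnd ℂ (walsh m j) * walsh n j * ⟪v j, B (v j)⟫_ℂ := by
    intro B m n hB
    simp only [hz]
    rw [map_smul, inner_smul_left, inner_smul_right, map_sum, sum_inner, Complex.conj_ofReal,
      ← mul_assoc, ← Complex.ofReal_mul]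
    congr 1
    refine Finset.sum_congr rfl fun i _ => ?_
    rw [inner_sum, Finset.sum_eq_single i]
    · rw [map_smul, inner_smul_left, inner_smul_right]; ring
    · intro j _ hji
      rw [map_smul, inner_smul_left, inner_smul_right, hB i j (Ne.symm hji)]; simp
    · simp
  have hv2 : ∀ j, ⟪v j, v j⟫_ℂ = 1 := fun j => by
    rw [inner_self_eq_norm_sq_to_K, (hv1 j).2]; simp
  have hzo : Orthonormal ℂ z := by
    rw [orthonormal_iff_ite]
    intro m n
    have h := hform 1 m n (fun i j hij => horth i j hij)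
    simp only [one_apply_eq_self, hv2, mul_one] at h
    rw [h, walsh_orth, hc2]
    split_ifs with hmn
    · rw [show (2 : ℂ) ^ k = (N : ℂ) by rw [hN]; simp]
      push_cast
      field_simp
      exact div_self (by exact_mod_cast hN0.ne')
    · simp
  obtain ⟨z₀, hz₀⟩ : ∃ z₀ : H, z₀ = z (fun _ => false) := ⟨_, rfl⟩
  have hz₀n : ‖z₀‖ = 1 := hz₀ ▸ hzo.1 _
  obtain ⟨x, hx⟩ : ∃ x : H →L[ℂ] H, x = rankOne ℂ z₀ z₀ := ⟨_, rfl⟩
  have hxn : ‖x‖ = 1 := by rw [hx, InnerProductSpace.norm_rankOne, hz₀n, one_mul]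
  have hxs : IsSelfAdjoint x := hx ▸ (InnerProductSpace.isStarProjection_rankOne_self hz₀n).isSelfAdjoint
  obtain ⟨p, hp, a, ha, -, han, q, -, hqp, hqd, hqn⟩ :=
    hP x (hM x) hxs (Finset.univ.image z) (t / 16) (by positivity)
  have hr0 : r ≠ 0 := by
    rintro rfl
    have := hp.sum_eq
    simp at this
  obtain ⟨S, hS⟩ : ∃ S : H →L[ℂ] H, S = pinching p x := ⟨_, rfl⟩
  rw [← hS] at hqn
  have hSn : ‖S‖ ≤ 1 := by
    have : S = (FPart.mk (A := A) (Fin r) inferInstance p hp.mem hp.proj hp.orth hp.sum_eq).D x := hS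
    rw [this]
    exact ContinuousLinearMap.opNorm_le_bound _ zero_le_one fun w => by
      have := (FPart.mk (A := A) (Fin r) inferInstance p hp.mem hp.proj hp.orth hp.sum_eq).norm_D_apply x w
      rwa [hxn] at this
  have hY : ∀ m, ‖⟪z m, (S - a) (z m)⟫_ℂ‖ ≤ ε + t / 4 := by
    intro m
    obtain ⟨Y, hYdef⟩ : ∃ Y : H →L[ℂ] H, Y = S - a := ⟨_, rfl⟩
    rw [← hYdef] at hqn ⊢
    have hYn : ‖Y‖ ≤ 2 := by
      rw [hYdef]
      exact le_trans (norm_sub_le _ _) (by rw [hxn] at han; linarith)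
    have hd1 : ‖(1 - q) (z m)‖ ≤ t / 16 :=
      (hqd _ (Finset.mem_image_of_mem _ (Finset.mem_univ m))).le
    have hzn : ‖z m‖ = 1 := hzo.1 m
    have hqz : ‖q (z m)‖ ≤ 1 := hzn ▸ proj_apply_norm_le hqp _
    have e : ⟪z m, Y (z m)⟫_ℂ = ⟪z m, (q * Y * q) (z m)⟫_ℂ
        + ⟪q (z m), Y ((1 - q) (z m))⟫_ℂ + ⟪(1 - q) (z m), Y (z m)⟫_ℂ := by
      rw [mul_apply', mul_apply', ← sa_inner hqp.isSelfAdjoint, ← inner_add_right, ← map_add,
        sub_apply, one_apply_eq_self, add_sub_cancel, ← inner_add_left, add_sub_cancel]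
    rw [e]
    refine le_trans (norm_add₃_le ..) ?_
    have h1 : ‖⟪z m, (q * Y * q) (z m)⟫_ℂ‖ ≤ ε := by
      refine le_trans (norm_inner_le_norm _ _) ?_
      rw [hzn, one_mul]
      refine le_trans ((q * Y * q).le_opNorm _) ?_
      rw [hzn, mul_one]; rw [hxn, mul_one] at hqn; exact hqn
    have h2 : ‖⟪q (z m), Y ((1 - q) (z m))⟫_ℂ‖ ≤ 1 * (2 * (t / 16)) :=
      le_trans (norm_inner_le_norm _ _) (mul_le_mul hqz (le_trans (Y.le_opNorm _)
        (mul_le_mul hYn hd1 (norm_nonneg _) (by norm_num))) (norm_nonneg _) zero_le_one)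
    have h3 : ‖⟪(1 - q) (z m), Y (z m)⟫_ℂ‖ ≤ t / 16 * (2 * 1) :=
      le_trans (norm_inner_le_norm _ _) (mul_le_mul hd1 (le_trans (Y.le_opNorm _)
        (mul_le_mul hYn hzn.le (norm_nonneg _) (by norm_num))) (norm_nonneg _) (by positivity))
    linarith
  obtain ⟨α, hα⟩ : ∃ α : ℝ, α = RCLike.re ⟪z₀, a z₀⟫_ℂ := ⟨_, rfl⟩
  have hαm : ∀ m, RCLike.re ⟪z m, a (z m)⟫_ℂ = α := by
    have hoff : ∀ i j, i ≠ j → ⟪v i, a (v j)⟫_ℂ = 0 := fun i j hij => by
      rw [← (hv1 i).1, ← (hv1 j).1, ← mul_apply', hA.comm _ ha _ (hg (e j)).1, mul_apply']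
      exact inner_orth_zero (hg _).2.1 (hgo _ _ (e.injective.ne hij)) _ _
    have hone : ∀ m j : Fin k → Bool, starRingEnd ℂ (walsh m j) * walsh m j = 1 := by
      intro m j
      rw [walsh, map_prod, ← Finset.prod_mul_distrib]
      exact Finset.prod_eq_one fun i _ => by split_ifs <;> simp
    intro m
    rw [hα, hz₀, hform a m m hoff, hform a _ _ hoff]
    simp only [hone]
  have hSin : ∀ m, RCLike.re ⟪z m, S (z m)⟫_ℂ = ∑ i, ‖⟪z m, p i z₀⟫_ℂ‖ ^ 2 := by
    intro m
    rw [hS, pinching, sum_apply, inner_sum, map_sum]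
    refine Finset.sum_congr rfl fun i _ => ?_
    rw [mul_apply', mul_apply', hx, InnerProductSpace.rankOne_apply, map_smul, inner_smul_right,
      ← sa_inner (hp.proj i).isSelfAdjoint z₀ (z m), ← inner_conj_symm (p i z₀) (z m),
      Complex.conj_mul', ← Complex.ofReal_pow]
    exact Complex.ofReal_re _
  have hsum1 : ∑ m, RCLike.re ⟪z m, S (z m)⟫_ℂ ≤ 1 := by
    simp only [hSin]
    rw [Finset.sum_comm]
    calc ∑ i, ∑ m, ‖⟪z m, p i z₀⟫_ℂ‖ ^ 2 ≤ ∑ i, ‖p i z₀‖ ^ 2 :=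
          Finset.sum_le_sum fun i _ => hzo.sum_inner_products_le _
      _ ≤ ‖z₀‖ ^ 2 := sum_norm_sq_le _ p (fun i _ => hp.proj i) (fun i _ j _ => hp.orth i j) _
      _ = 1 := by rw [hz₀n, one_pow]
  have hbig : 1 / (r : ℝ) ≤ RCLike.re ⟪z₀, S z₀⟫_ℂ := by
    rw [hz₀, hSin, ← hz₀]
    have hs1 : ∑ i, ‖⟪z₀, p i z₀⟫_ℂ‖ = 1 := by
      have e : ∀ i, ‖⟪z₀, p i z₀⟫_ℂ‖ = ‖p i z₀‖ ^ 2 := fun i => by
        rw [inner_proj_eq_norm_sq (hp.proj i), Complex.norm_real, Real.norm_eq_abs,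
          abs_of_nonneg (sq_nonneg _)]
      simp only [e]
      rw [← norm_sq_sum_orth _ p (fun i _ => hp.proj i) (fun i _ j _ => hp.orth i j) (fun _ => z₀),
        ← sum_apply, hp.sum_eq, one_apply_eq_self, hz₀n, one_pow]
    have h := sq_sum_le_card_mul_sum_sq (s := Finset.univ) (f := fun i => ‖⟪z₀, p i z₀⟫_ℂ‖)
    rw [hs1, one_pow, Finset.card_univ, Fintype.card_fin] at h
    rw [div_le_iff₀ (by positivity), mul_comm]
    exact h
  have hre : ∀ m, |RCLike.re ⟪z m, S (z m)⟫_ℂ - α| ≤ ε + t / 4 := by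
    intro m
    rw [← hαm m, ← map_sub, ← inner_sub_right, ← sub_apply]
    exact le_trans (RCLike.abs_re_le_norm _) (hY m)
  have h1 := (abs_le.1 (hre (fun _ => false))).2
  rw [← hz₀] at h1
  have h2 : (N : ℝ) * α ≤ 1 + N * (ε + t / 4) := by
    have h3 : ∑ _m : Fin k → Bool, α
        ≤ ∑ m, (RCLike.re ⟪z m, S (z m)⟫_ℂ + (ε + t / 4)) := Finset.sum_le_sum fun m _ => by
      linarith [(abs_le.1 (hre m)).1]
    rw [Finset.sum_add_distrib, Finset.sum_const, Finset.sum_const] at h3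
    have hc' : (Fintype.card (Fin k → Bool) : ℝ) = N := by rw [hN]; simp
    rw [Finset.card_univ, nsmul_eq_mul, nsmul_eq_mul, hc'] at h3
    linarith
  have h5 : α ≤ 1 / N + (ε + t / 4) := by
    have e : (1 + N * (ε + t / 4)) / (N : ℝ) = 1 / N + (ε + t / 4) := by field_simp
    rw [← e, le_div_iff₀ hN0]; linarith
  have h6 : 1 / (N : ℝ) ≤ t / 2 := by
    rw [div_le_iff₀ hN0]
    rw [div_lt_iff₀ ht] at hk
    nlinarith
  linarith

/-- A maximal commuting self-adjoint set through a given one. -/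
theorem exists_masa_containing (S₀ : Set (H →L[ℂ] H)) (hs : ∀ a ∈ S₀, star a ∈ S₀)
    (hc : ∀ a ∈ S₀, ∀ b ∈ S₀, a * b = b * a) (hM : ∀ x : H →L[ℂ] H, x ∈ M) :
    ∃ A : StarSubalgebra ℂ (H →L[ℂ] H), IsMasa M A ∧ ∀ a ∈ S₀, a ∈ A := by
  obtain ⟨S, hS₀, hS⟩ := zorn_subset_nonempty
    {S : Set (H →L[ℂ] H) | (∀ a ∈ S, star a ∈ S) ∧ ∀ a ∈ S, ∀ b ∈ S, a * b = b * a}
    (fun c hc' hchain _ => ⟨⋃₀ c, ⟨fun a ⟨T, hT, ha⟩ => ⟨T, hT, (hc' hT).1 a ha⟩,
      fun a ⟨T, hT, ha⟩ b ⟨T', hT', hb⟩ => by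
        rcases hchain.total hT hT' with h | h
        · exact (hc' hT').2 a (h ha) b hb
        · exact (hc' hT).2 a ha b (h hb)⟩,
      fun T hT => Set.subset_sUnion_of_mem hT⟩) S₀ ⟨hs, hc⟩
  obtain ⟨A, hA⟩ : ∃ A : StarSubalgebra ℂ (H →L[ℂ] H), A = StarSubalgebra.centralizer ℂ S :=
    ⟨_, rfl⟩
  have hmem : ∀ x, x ∈ A ↔ ∀ s ∈ S, s * x = x * s := by
    intro x
    rw [hA, StarSubalgebra.mem_centralizer_iff]
    exact ⟨fun h s hs => (h s hs).1, fun h s hs => ⟨h s hs, h _ (hS.prop.1 s hs)⟩⟩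
  have hsa : ∀ x ∈ A, IsSelfAdjoint x → x ∈ S := by
    intro x hx hxs
    have hin : insert x S ∈ {S : Set (H →L[ℂ] H) |
        (∀ a ∈ S, star a ∈ S) ∧ ∀ a ∈ S, ∀ b ∈ S, a * b = b * a} := by
      refine ⟨fun a ha => ha.elim (fun h => by subst h; rw [hxs.star_eq]; exact Set.mem_insert _ _)
        (fun h => Set.mem_insert_of_mem _ (hS.prop.1 a h)), ?_⟩
      rintro a (rfl | ha) b (rfl | hb)
      · rfl
      · exact ((hmem a).1 hx b hb).symm
      · exact (hmem b).1 hx a ha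
      · exact hS.prop.2 a ha b hb
    exact hS.le_of_ge hin (Set.subset_insert _ _) (Set.mem_insert _ _)
  refine ⟨A, ⟨fun a _ => hM a, fun a ha b hb => ?_, fun B hB _ hBc => ?_⟩,
    fun a ha => (hmem a).2 fun s hs => hS.prop.2 s hs a (hS₀ ha)⟩
  · have h1 : a + star a ∈ S := hsa _ (add_mem ha (star_mem ha)) (IsSelfAdjoint.add_star_self a)
    have h2 : Complex.I • (a - star a) ∈ S := hsa _
      (SMulMemClass.smul_mem _ (sub_mem ha (star_mem ha))) (by
        rw [IsSelfAdjoint, star_smul, star_sub, star_star, RCLike.star_def, Complex.conj_I,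
          neg_smul, ← smul_neg, neg_sub])
    have c1 : Commute (a + star a) b := (hmem b).1 hb _ h1
    have c2 : Commute (Complex.I • (a - star a)) b := (hmem b).1 hb _ h2
    have e : a = (1 / 2 : ℂ) • ((a + star a) + (-Complex.I) • (Complex.I • (a - star a))) := by
      rw [smul_smul, neg_mul, Complex.I_mul_I, neg_neg, one_smul]
      module
    rw [e]
    exact ((c1.add_left (c2.smul_left _)).smul_left _).eq
  · refine le_antisymm (fun b hb => (hmem b).2 fun s hs => hBc s (hB ?_) b hb) hB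
    exact (hmem s).2 fun u hu => hS.prop.2 u hu s hs

theorem diffuse_of_no_eigen (hM : ∀ x : H →L[ℂ] H, x ∈ M) (hA : IsMasa M A) {u : H →L[ℂ] H}
    (hu : u ∈ A) (hno : ∀ (l : ℂ) (v : H), u v = l • v → v = 0) : IsDiffuse A := by
  intro g hg hgp hg0
  by_contra hcon
  push Not at hcon
  have key : ∀ x : H →L[ℂ] H, g * x * g ∈ A → IsSelfAdjoint (g * x * g) →
      ∃ t : ℝ, g * x * g = (t : ℂ) • g := by
    intro x hbA hbs
    obtain ⟨b, hb⟩ : ∃ b : H →L[ℂ] H, b = g * x * g := ⟨_, rfl⟩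
    rw [← hb] at hbA hbs ⊢
    have hbg : b * g = b := by rw [hb, mul_assoc, hgp.isIdempotentElem.eq]
    obtain ⟨w, hw⟩ := exists_unit_vectors (fun _ : Fin 1 => g) fun _ => ⟨hgp, hg0⟩
    refine ⟨RCLike.re ⟪w 0, b (w 0)⟫_ℂ, sub_eq_zero.1 (norm_le_zero_iff.1
      (le_of_forall_pos_le_add fun η hη => ?_))⟩
    obtain ⟨lo, hlo⟩ := (spectrum.isBounded (𝕜 := ℝ) b).bddBelow
    obtain ⟨N, s, m, -, hmp, hmo, hms, hap, hmc, -⟩ :=
      exists_step_approx hbs (half_pos hη) lo (fun y hy => hlo hy)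
    have hmA : ∀ j, m j ∈ A := fun j => hA.mem_of_commute (hM _)
      fun a ha => (hmc j a (hA.comm b hbA a ha)).eq
    have hdich : ∀ j, m j * g = 0 ∨ m j * g = g := by
      intro j
      by_contra hor
      push Not at hor
      refine hor.2 (hcon (m j * g) (mul_mem (hmA j) hg)
        ((hmp j).mul hgp (hA.comm _ (hmA j) _ hg)) hor.1 hor.2 ?_).elim
      rw [hA.comm _ (hmA j) _ hg, ← mul_assoc, hgp.isIdempotentElem.eq]
    obtain ⟨j₀, hj₀⟩ : ∃ j, m j * g ≠ 0 := by
      by_contra hall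
      push Not at hall
      refine hg0 ?_
      rw [← one_mul g, ← hms, Finset.sum_mul]
      exact Finset.sum_eq_zero fun j _ => hall j
    have hj₀' : m j₀ * g = g := (hdich j₀).resolve_left hj₀
    have happ : ‖b - (s j₀ : ℂ) • g‖ ≤ η / 2 := by
      have e : b - (s j₀ : ℂ) • g = (b - ∑ j, (s j : ℂ) • m j) * g := by
        rw [sub_mul, hbg, Finset.sum_mul, Finset.sum_eq_single j₀]
        · rw [smul_mul_assoc, hj₀']
        · intro j _ hj
          rw [smul_mul_assoc, ← hj₀', ← mul_assoc, hmo j j₀ hj, zero_mul, smul_zero]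
        · simp
      rw [e]
      refine le_trans (norm_mul_le _ _) ?_
      calc _ ≤ η / 2 * 1 :=
            mul_le_mul hap (norm_sa_proj_le hgp) (norm_nonneg _) (by linarith)
        _ = _ := mul_one _
    obtain ⟨T, hT⟩ : ∃ T : ℝ, T = RCLike.re ⟪w 0, b (w 0)⟫_ℂ := ⟨_, rfl⟩
    rw [← hT]
    have h1 : |T - s j₀| ≤ η / 2 := by
      have e : T - s j₀ = RCLike.re ⟪w 0, (b - (s j₀ : ℂ) • g) (w 0)⟫_ℂ := by
        rw [sub_apply, smul_apply, (hw 0).1, inner_sub_right, inner_smul_right,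
          inner_self_eq_norm_sq_to_K, (hw 0).2, map_sub, hT]
        simp
      rw [e]
      refine le_trans (RCLike.abs_re_le_norm _) (le_trans (norm_inner_le_norm _ _) ?_)
      rw [(hw 0).2, one_mul]
      refine le_trans (ContinuousLinearMap.le_opNorm _ _) ?_
      rw [(hw 0).2, mul_one]; exact happ
    have e : b - (T : ℂ) • g = (b - (s j₀ : ℂ) • g) - ((T - s j₀ : ℝ) : ℂ) • g := by
      push_cast; rw [sub_smul]; abel
    rw [e, zero_add]
    refine le_trans (norm_sub_le _ _) ?_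
    rw [norm_smul, Complex.norm_real, Real.norm_eq_abs]
    have h2 := mul_le_mul h1 (norm_sa_proj_le hgp) (norm_nonneg _) (by linarith)
    linarith
  have hge : ∀ a ∈ A, g * a * g = a * g := fun a ha => by
    rw [hA.comm _ hg _ ha, mul_assoc, hgp.isIdempotentElem.eq]
  have hsm : ∀ a ∈ A, IsSelfAdjoint a → ∃ t : ℝ, a * g = (t : ℂ) • g := by
    intro a ha has
    rw [← hge a ha]
    refine key a (mul_mem (mul_mem hg ha) hg) ?_
    rw [hge a ha]
    exact (IsSelfAdjoint.commute_iff has hgp.isSelfAdjoint).1 (hA.comm _ ha _ hg)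
  obtain ⟨t₁, h1⟩ := hsm (u + star u) (add_mem hu (star_mem hu)) (IsSelfAdjoint.add_star_self u)
  obtain ⟨t₂, h2⟩ := hsm (Complex.I • (u - star u))
    (SMulMemClass.smul_mem _ (sub_mem hu (star_mem hu))) (by
      rw [IsSelfAdjoint, star_smul, star_sub, star_star, RCLike.star_def, Complex.conj_I,
        neg_smul, ← smul_neg, neg_sub])
  have e : u = (1 / 2 : ℂ) • ((u + star u) + (-Complex.I) • (Complex.I • (u - star u))) := by
    rw [smul_smul, neg_mul, Complex.I_mul_I, neg_neg, one_smul]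
    module
  have hug : u * g = ((1 / 2 : ℂ) * ((t₁ : ℂ) + -Complex.I * t₂)) • g := by
    rw [e, smul_mul_assoc, add_mul, smul_mul_assoc, h1, h2, smul_smul, ← add_smul, smul_smul]
  obtain ⟨w, hw⟩ := exists_unit_vectors (fun _ : Fin 1 => g) fun _ => ⟨hgp, hg0⟩
  have h3 := congrArg (fun T : H →L[ℂ] H => T (w 0)) hug
  simp only [mul_apply', smul_apply, (hw 0).1] at h3
  have h4 := hno _ _ h3
  have h5 := (hw 0).2
  rw [h4, norm_zero] at h5
  exact zero_ne_one h5

section Shift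

/-- The sequence space on the integers. -/
abbrev Seq : Type := lp (fun _ : ℤ => ℂ) 2

theorem memℓp_shift (k : ℤ) (f : Seq) : Memℓp (fun i => f (i + k)) 2 := by
  refine memℓp_gen ?_
  exact ((Equiv.addRight k).summable_iff (f := fun i => ‖f i‖ ^ (2 : ENNReal).toReal)).2
    ((lp.hasSum_norm (by norm_num) f).summable)

/-- The shift by `k`. -/
noncomputable def shiftLin (k : ℤ) : Seq →ₗ[ℂ] Seq where
  toFun f := ⟨fun i => f (i + k), memℓp_shift k f⟩
  map_add' f g := by ext i; rfl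
  map_smul' c f := by ext i; rfl

theorem norm_shiftLin (k : ℤ) (f : Seq) : ‖shiftLin k f‖ = ‖f‖ := by
  have h : (2 : ENNReal).toReal = 2 := by norm_num
  have h1 := lp.norm_rpow_eq_tsum (p := 2) (by norm_num) (shiftLin k f)
  have h2 := lp.norm_rpow_eq_tsum (p := 2) (by norm_num) f
  have e : ∑' i : ℤ, ‖f (i + k)‖ ^ (2 : ENNReal).toReal
      = ∑' i : ℤ, ‖f i‖ ^ (2 : ENNReal).toReal :=
    (Equiv.addRight k).tsum_eq (fun i => ‖f i‖ ^ (2 : ENNReal).toReal)
  rw [show ∑' i : ℤ, ‖(shiftLin k f) i‖ ^ (2 : ENNReal).toReal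
    = ∑' i : ℤ, ‖f (i + k)‖ ^ (2 : ENNReal).toReal from rfl, e, ← h2, h] at h1
  exact (Real.rpow_left_inj (norm_nonneg _) (norm_nonneg _) (by norm_num)).1 h1

/-- The shift as a bounded operator. -/
noncomputable def shift (k : ℤ) : Seq →L[ℂ] Seq :=
  (shiftLin k).mkContinuous 1 fun f => by rw [norm_shiftLin, one_mul]

theorem shift_apply (k : ℤ) (f : Seq) (i : ℤ) : shift k f i = f (i + k) := rfl

theorem shift_mul (k l : ℤ) : shift k * shift l = shift (k + l) := by
  ext f i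
  simp [shift_apply, add_assoc]

theorem shift_star (k : ℤ) : star (shift k) = shift (-k) := by
  rw [ContinuousLinearMap.star_eq_adjoint, eq_comm, ContinuousLinearMap.eq_adjoint_iff]
  intro f g
  rw [lp.inner_eq_tsum, lp.inner_eq_tsum]
  have := (Equiv.addRight k).tsum_eq (fun i => ⟪(shift (-k) f) i, g i⟫_ℂ)
  rw [← this]
  congr 1
  funext i
  simp [shift_apply]

theorem shift_no_eigen (l : ℂ) (f : Seq) (h : shift 1 f = l • f) : f = 0 := by
  by_contra hf
  have hn : ‖f‖ ≠ 0 := norm_ne_zero_iff.2 hf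
  have hl : ‖l‖ = 1 := by
    have h1 : ‖shift 1 f‖ = ‖f‖ := norm_shiftLin 1 f
    rw [h, norm_smul] at h1
    exact (mul_eq_right₀ hn).1 h1
  have hstep : ∀ i, ‖f (i + 1)‖ = ‖f i‖ := by
    intro i
    have := congrArg (fun g : Seq => g i) h
    simp only [shift_apply] at this
    rw [this]
    simp [hl]
  have hconst : ∀ i, ‖f i‖ = ‖f 0‖ := by
    intro i
    induction i using Int.induction_on with
    | zero => rfl
    | succ i ih => rw [hstep, ih]
    | pred i ih =>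
      rw [← hstep (-(i : ℤ) - 1), sub_add_cancel]; exact ih
  have hs := (lp.hasSum_norm (p := 2) (by norm_num) f).summable
  simp only [hconst] at hs
  rw [summable_const_iff] at hs
  refine hf ?_
  ext i
  have : ‖f 0‖ = 0 := by simpa using hs
  have := (hconst i).trans this
  simpa using this

theorem exists_diffuse :
    ∃ (H : Type) (_ : NormedAddCommGroup H) (_ : InnerProductSpace ℂ H) (_ : CompleteSpace H)
      (M : VonNeumannAlgebra H) (A : StarSubalgebra ℂ (H →L[ℂ] H)),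
      Nontrivial H ∧ (∀ x : H →L[ℂ] H, x ∈ M) ∧ IsMasa M A ∧ IsDiffuse A := by
  classical
  have hc : Set.centralizer (Set.centralizer ((⊤ : StarSubalgebra ℂ (Seq →L[ℂ] Seq)).carrier))
      = (⊤ : StarSubalgebra ℂ (Seq →L[ℂ] Seq)).carrier :=
    Set.Subset.antisymm (fun _ _ => trivial) Set.subset_centralizer_centralizer
  let M : VonNeumannAlgebra Seq := ⟨⊤, hc⟩
  have hM : ∀ x : Seq →L[ℂ] Seq, x ∈ M := fun _ => trivial
  obtain ⟨A, hA, hS⟩ := exists_masa_containing (M := M) (Set.range shift)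
    (by rintro _ ⟨k, rfl⟩; exact ⟨-k, (shift_star k).symm⟩)
    (by rintro _ ⟨k, rfl⟩ _ ⟨l, rfl⟩; rw [shift_mul, shift_mul, add_comm]) hM
  refine ⟨Seq, inferInstance, inferInstance, inferInstance, M, A,
    ⟨⟨lp.single 2 0 1, 0, fun h => ?_⟩⟩, hM, hA,
    diffuse_of_no_eigen hM hA (hS _ ⟨1, rfl⟩) shift_no_eigen⟩
  have := congrArg (fun f : Seq => f 0) h
  simp at this

end Shift

end Vale.Agent.P078
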