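import Vale.Agent.P078.Orth

/-!
Finite partitions in a MASA and the conditional expectation obtained as a weak cluster point of
pinchings.
-/

namespace Vale.Agent.P078

open scoped InnerProductSpace
open Filter Topology ContinuousLinearMap

variable {H : Type} [NormedAddCommGroup H] [InnerProductSpace ℂ H] [CompleteSpace H]
variable {M : VonNeumannAlgebra H} {A : StarSubalgebra ℂ (H →L[ℂ] H)}

/-- A finite partition of the identity by projections of `A`. -/
structure FPart (A : StarSubalgebra ℂ (H →L[ℂ] H)) where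
  ι : Type
  fin : Fintype ι
  c : ι → (H →L[ℂ] H)
  mem : ∀ i, c i ∈ A
  proj : ∀ i, IsStarProjection (c i)
  orth : ∀ i j, i ≠ j → c i * c j = 0
  sum_eq : ∑ i, c i = 1

attribute [instance] FPart.fin

namespace FPart

/-- The trivial partition. -/
def triv : FPart A where
  ι := Unit
  fin := inferInstance
  c := fun _ => 1
  mem := fun _ => one_mem A
  proj := fun _ => .one _
  orth := fun i j h => (h rfl).elim
  sum_eq := by simp

/-- The partition into a projection and its complement. -/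
def two (g : H →L[ℂ] H) (hg : g ∈ A) (hgp : IsStarProjection g) : FPart A where
  ι := Bool
  fin := inferInstance
  c := fun b => if b then g else 1 - g
  mem := fun b => by cases b <;> simp [hg, sub_mem, one_mem]
  proj := fun b => by cases b <;> simp [hgp, hgp.one_sub]
  orth := fun i j h => by
    cases i <;> cases j <;> simp at h ⊢
    · exact hgp.one_sub_mul_self
    · exact hgp.mul_one_sub_self
  sum_eq := by simp

instance : Preorder (FPart A) where
  le P Q := ∀ j, ∃ i, P.c i * Q.c j = Q.c j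
  le_refl P j := ⟨j, (P.proj j).isIdempotentElem.eq⟩
  le_trans P Q R h₁ h₂ k := by
    obtain ⟨j, hj⟩ := h₂ k
    obtain ⟨i, hi⟩ := h₁ j
    exact ⟨i, by rw [← hj, ← mul_assoc, hi]⟩

theorem le_def {P Q : FPart A} : P ≤ Q ↔ ∀ j, ∃ i, P.c i * Q.c j = Q.c j := Iff.rfl

/-- A common refinement, using that `A` is commutative. -/
noncomputable def join (hA : IsMasa M A) (P Q : FPart A) : FPart A where
  ι := P.ι × Q.ι
  fin := inferInstance
  c := fun x => P.c x.1 * Q.c x.2
  mem := fun x => mul_mem (P.mem _) (Q.mem _)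
  proj := fun x => (P.proj _).mul (Q.proj _) (hA.comm _ (P.mem _) _ (Q.mem _))
  orth := fun x y h => by
    have e : P.c x.1 * Q.c x.2 * (P.c y.1 * Q.c y.2)
        = P.c x.1 * P.c y.1 * (Q.c x.2 * Q.c y.2) := by
      rw [mul_assoc, mul_assoc, ← mul_assoc (Q.c x.2), hA.comm _ (Q.mem x.2) _ (P.mem y.1),
        mul_assoc]
    rw [e]
    by_cases h1 : x.1 = y.1
    · rw [Q.orth x.2 y.2 (fun h2 => h (Prod.ext h1 h2)), mul_zero]
    · rw [P.orth x.1 y.1 h1, zero_mul]
  sum_eq := by
    rw [Fintype.sum_prod_type]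
    simp only [← Finset.mul_sum, Q.sum_eq, mul_one, P.sum_eq]

theorem le_join_left (hA : IsMasa M A) (P Q : FPart A) : P ≤ P.join hA Q := fun x =>
  ⟨x.1, show P.c x.1 * (P.c x.1 * Q.c x.2) = P.c x.1 * Q.c x.2 by
    rw [← mul_assoc, (P.proj x.1).isIdempotentElem.eq]⟩

theorem le_join_right (hA : IsMasa M A) (P Q : FPart A) : Q ≤ P.join hA Q := fun x =>
  ⟨x.2, show Q.c x.2 * (P.c x.1 * Q.c x.2) = P.c x.1 * Q.c x.2 by
    rw [hA.comm _ (P.mem x.1) _ (Q.mem x.2), ← mul_assoc, (Q.proj x.2).isIdempotentElem.eq]⟩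

/-- The pinching by a partition. -/
noncomputable def D (P : FPart A) (x : H →L[ℂ] H) : H →L[ℂ] H := ∑ i, P.c i * x * P.c i

theorem D_apply (P : FPart A) (x : H →L[ℂ] H) (v : H) :
    P.D x v = ∑ i, P.c i (x (P.c i v)) := by
  simp [D, sum_apply]

theorem norm_D_apply (P : FPart A) (x : H →L[ℂ] H) (v : H) :
    ‖P.D x v‖ ≤ ‖x‖ * ‖v‖ := by
  have h : ‖P.D x v‖ ^ 2 ≤ (‖x‖ * ‖v‖) ^ 2 := by
    rw [D_apply, norm_sq_sum_orth _ P.c (fun i _ => P.proj i) (fun i _ j _ => P.orth i j)
      (fun i => x (P.c i v))]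
    calc _ ≤ ∑ i, ‖x‖ ^ 2 * ‖P.c i v‖ ^ 2 := Finset.sum_le_sum fun i _ => by
          rw [← mul_pow]
          exact pow_le_pow_left₀ (norm_nonneg _)
            (le_trans (proj_apply_norm_le (P.proj i) _) (x.le_opNorm _)) 2
      _ ≤ ‖x‖ ^ 2 * ‖v‖ ^ 2 := by
          rw [← Finset.mul_sum]
          exact mul_le_mul_of_nonneg_left
            (sum_norm_sq_le _ P.c (fun i _ => P.proj i) (fun i _ j _ => P.orth i j) v)
            (by positivity)
      _ = (‖x‖ * ‖v‖) ^ 2 := by ring
  exact (abs_le_of_sq_le_sq' h (by positivity)).2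

theorem D_add (P : FPart A) (x y : H →L[ℂ] H) : P.D (x + y) = P.D x + P.D y := by
  simp [D, mul_add, add_mul, Finset.sum_add_distrib]

theorem D_smul (P : FPart A) (c : ℂ) (x : H →L[ℂ] H) : P.D (c • x) = c • P.D x := by
  simp [D, Finset.smul_sum]

theorem D_star (P : FPart A) (x : H →L[ℂ] H) : P.D (star x) = star (P.D x) := by
  simp [D, star_sum, star_mul, (P.proj _).isSelfAdjoint.star_eq, mul_assoc]

theorem D_mul_left (hA : IsMasa M A) (P : FPart A) {a : H →L[ℂ] H} (ha : a ∈ A)
    (x : H →L[ℂ] H) : P.D (a * x) = a * P.D x := by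
  simp only [D, Finset.mul_sum]
  refine Finset.sum_congr rfl fun i _ => ?_
  rw [← mul_assoc, hA.comm _ (P.mem i) _ ha]
  simp only [mul_assoc]

theorem D_mul_right (hA : IsMasa M A) (P : FPart A) {a : H →L[ℂ] H} (ha : a ∈ A)
    (x : H →L[ℂ] H) : P.D (x * a) = P.D x * a := by
  simp only [D, Finset.sum_mul]
  refine Finset.sum_congr rfl fun i _ => ?_
  simp only [mul_assoc]
  rw [hA.comm _ ha _ (P.mem i)]

theorem D_one (P : FPart A) : P.D 1 = 1 := by
  simp only [D, mul_one, (P.proj _).isIdempotentElem.eq, P.sum_eq]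

theorem D_mem (hA : IsMasa M A) (P : FPart A) {x : H →L[ℂ] H} (hx : x ∈ M) : P.D x ∈ M :=
  sum_mem fun i _ => mul_mem (mul_mem (hA.le _ (P.mem i)) hx) (hA.le _ (P.mem i))

theorem commute_of_le (hA : IsMasa M A) {g : H →L[ℂ] H} (hg : g ∈ A) (hgp : IsStarProjection g)
    {P : FPart A} (hP : FPart.two g hg hgp ≤ P) (x : H →L[ℂ] H) :
    Commute (P.D x) g := by
  refine Commute.sum_left _ _ _ fun j _ => ?_
  obtain ⟨b, hb⟩ := hP j
  have hcg : g * P.c j = P.c j * g := hA.comm _ hg _ (P.mem j)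
  cases b
  · have h0 : g * P.c j = 0 := by
      have hb' : (1 - g) * P.c j = P.c j := hb
      rw [← hb', ← mul_assoc, hgp.mul_one_sub_self, zero_mul]
    have h0' : P.c j * g = 0 := hcg ▸ h0
    show P.c j * x * P.c j * g = g * (P.c j * x * P.c j)
    rw [mul_assoc, h0', mul_zero, mul_assoc (P.c j) x, ← mul_assoc g, h0, zero_mul]
  · have h0 : g * P.c j = P.c j := hb
    have h0' : P.c j * g = P.c j := hcg ▸ h0
    show P.c j * x * P.c j * g = g * (P.c j * x * P.c j)
    rw [mul_assoc, h0', mul_assoc (P.c j) x, ← mul_assoc g, h0]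

end FPart

/-- The ultrafilter on partitions used to define the conditional expectation. -/
noncomputable def pUltra (A : StarSubalgebra ℂ (H →L[ℂ] H)) : Filter (FPart A) :=
  @dite _ ((atTop : Filter (FPart A)).NeBot) (Classical.propDecidable _)
    (fun h => ((@Ultrafilter.of _ (atTop : Filter (FPart A)) h : Ultrafilter (FPart A)) :
      Filter (FPart A)))
    (fun _ => (pure FPart.triv : Filter (FPart A)))

theorem exists_ultra (A : StarSubalgebra ℂ (H →L[ℂ] H)) :
    ∃ U : Ultrafilter (FPart A), (U : Filter (FPart A)) = pUltra A := by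
  unfold pUltra
  split_ifs with h
  · exact ⟨_, rfl⟩
  · exact ⟨pure FPart.triv, rfl⟩

instance pUltra_neBot (A : StarSubalgebra ℂ (H →L[ℂ] H)) : (pUltra A).NeBot := by
  obtain ⟨U, hU⟩ := exists_ultra A
  exact hU ▸ U.neBot

theorem eventually_le (hA : IsMasa M A) (P : FPart A) : ∀ᶠ Q in pUltra A, P ≤ Q := by
  have : Nonempty (FPart A) := ⟨FPart.triv⟩
  have : IsDirected (FPart A) (· ≤ ·) :=
    ⟨fun P Q => ⟨P.join hA Q, P.le_join_left hA Q, P.le_join_right hA Q⟩⟩
  have hne : (atTop : Filter (FPart A)).NeBot := atTop_neBot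
  unfold pUltra
  rw [dif_pos hne]
  exact Ultrafilter.of_le _ (eventually_ge_atTop P)

theorem exists_lim (x : H →L[ℂ] H) :
    ∃ T : H →L[ℂ] H, ∀ u v : H,
      Tendsto (fun P : FPart A => ⟪u, P.D x v⟫_ℂ) (pUltra A) (𝓝 ⟪u, T v⟫_ℂ) := by
  obtain ⟨U, hU⟩ := exists_ultra A
  have hb : ∀ (P : FPart A) (u v : H), ‖⟪u, P.D x v⟫_ℂ‖ ≤ ‖x‖ * ‖u‖ * ‖v‖ := fun P u v =>
    le_trans (norm_inner_le_norm _ _) (by
      rw [mul_comm ‖x‖, mul_assoc]
      exact mul_le_mul_of_nonneg_left (P.norm_D_apply x v) (norm_nonneg _))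
  have hex : ∀ u v : H, ∃ l : ℂ, ‖l‖ ≤ ‖x‖ * ‖u‖ * ‖v‖ ∧
      Tendsto (fun P : FPart A => ⟪u, P.D x v⟫_ℂ) (pUltra A) (𝓝 l) := by
    intro u v
    obtain ⟨l, hl, hlt⟩ := (isCompact_closedBall (0 : ℂ) (‖x‖ * ‖u‖ * ‖v‖)).ultrafilter_le_nhds
      (U.map fun P : FPart A => ⟪u, P.D x v⟫_ℂ) (by
        rw [le_principal_iff]
        exact Filter.mem_map.2 (Filter.univ_mem' fun P => by simpa using hb P u v))
    exact ⟨l, by simpa using hl, by rw [← hU]; exact hlt⟩
  choose l hl ht using hex
  let B : H →L⋆[ℂ] H →L[ℂ] ℂ := LinearMap.mkContinuous₂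
    (LinearMap.mk₂'ₛₗ (starRingEnd ℂ) (RingHom.id ℂ) (fun u v => l u v)
      (fun u u' v => tendsto_nhds_unique (ht (u + u') v)
        (by simpa only [inner_add_left] using (ht u v).add (ht u' v)))
      (fun c u v => tendsto_nhds_unique (ht (c • u) v)
        (by simpa only [inner_smul_left, smul_eq_mul] using (ht u v).const_mul (starRingEnd ℂ c)))
      (fun u v v' => tendsto_nhds_unique (ht u (v + v'))
        (by simpa only [map_add, inner_add_right] using (ht u v).add (ht u v')))
      (fun c u v => tendsto_nhds_unique (ht u (c • v))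
        (by simpa only [map_smul, inner_smul_right, smul_eq_mul, RingHom.id_apply]
          using (ht u v).const_mul c)))
    ‖x‖ (fun u v => hl u v)
  refine ⟨star (InnerProductSpace.continuousLinearMapOfBilin B), fun u v => ?_⟩
  rw [ContinuousLinearMap.star_eq_adjoint, ContinuousLinearMap.adjoint_inner_right,
    InnerProductSpace.continuousLinearMapOfBilin_apply]
  exact ht u v

/-- The conditional expectation: the weak limit of the pinchings. -/
noncomputable def expect (A : StarSubalgebra ℂ (H →L[ℂ] H)) (x : H →L[ℂ] H) : H →L[ℂ] H :=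
  Classical.choose (exists_lim (A := A) x)

theorem tendsto_expect (x : H →L[ℂ] H) (u v : H) :
    Tendsto (fun P : FPart A => ⟪u, P.D x v⟫_ℂ) (pUltra A) (𝓝 ⟪u, expect A x v⟫_ℂ) :=
  Classical.choose_spec (exists_lim (A := A) x) u v

theorem expect_eq_of_tendsto {x T : H →L[ℂ] H}
    (h : ∀ u v, Tendsto (fun P : FPart A => ⟪u, P.D x v⟫_ℂ) (pUltra A) (𝓝 ⟪u, T v⟫_ℂ)) :
    expect A x = T :=
  ContinuousLinearMap.ext fun v => ext_inner_left ℂ fun u =>
    tendsto_nhds_unique (tendsto_expect x u v) (h u v)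

theorem expect_add (x y : H →L[ℂ] H) : expect A (x + y) = expect A x + expect A y :=
  expect_eq_of_tendsto fun u v => by
    simpa only [FPart.D_add, add_apply, inner_add_right] using
      (tendsto_expect (A := A) x u v).add (tendsto_expect (A := A) y u v)

theorem expect_smul (c : ℂ) (x : H →L[ℂ] H) : expect A (c • x) = c • expect A x :=
  expect_eq_of_tendsto fun u v => by
    simpa only [FPart.D_smul, smul_apply, inner_smul_right] using
      (tendsto_expect (A := A) x u v).const_mul c

theorem expect_zero : expect A (0 : H →L[ℂ] H) = 0 := by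
  have h := expect_smul (A := A) (0 : ℂ) 0
  simpa using h

theorem expect_sum {ι : Type*} (s : Finset ι) (f : ι → (H →L[ℂ] H)) :
    expect A (∑ i ∈ s, f i) = ∑ i ∈ s, expect A (f i) := by
  classical
  induction s using Finset.induction_on with
  | empty => simp [expect_zero]
  | @insert a s ha ih => rw [Finset.sum_insert ha, Finset.sum_insert ha, expect_add, ih]

theorem expect_sub (x y : H →L[ℂ] H) : expect A (x - y) = expect A x - expect A y := by
  rw [eq_sub_iff_add_eq, ← expect_add, sub_add_cancel]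

theorem expect_norm_le (x : H →L[ℂ] H) : ‖expect A x‖ ≤ ‖x‖ := by
  refine ContinuousLinearMap.opNorm_le_bound _ (norm_nonneg _) fun v => ?_
  set w := expect A x v
  have h : ‖⟪w, w⟫_ℂ‖ ≤ ‖w‖ * (‖x‖ * ‖v‖) :=
    le_of_tendsto (tendsto_expect x w v).norm (Eventually.of_forall fun P =>
      le_trans (norm_inner_le_norm _ _)
        (mul_le_mul_of_nonneg_left (P.norm_D_apply x v) (norm_nonneg _)))
  rw [inner_self_eq_norm_sq_to_K, norm_pow] at h
  simp at h
  rcases eq_or_ne w 0 with h0 | h0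
  · rw [h0, norm_zero]; positivity
  · have := norm_pos_iff.2 h0
    nlinarith

theorem expect_star (x : H →L[ℂ] H) : expect A (star x) = star (expect A x) :=
  expect_eq_of_tendsto fun u v => by
    have h := (Complex.continuous_conj.tendsto _).comp (tendsto_expect (A := A) x v u)
    have e : ∀ T : H →L[ℂ] H, starRingEnd ℂ ⟪v, T u⟫_ℂ = ⟪u, (star T) v⟫_ℂ := fun T => by
      rw [inner_conj_symm, ContinuousLinearMap.star_eq_adjoint,
        ContinuousLinearMap.adjoint_inner_right]
    simpa only [Function.comp_def, e, ← FPart.D_star] using h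

theorem expect_isSelfAdjoint {x : H →L[ℂ] H} (hx : IsSelfAdjoint x) :
    IsSelfAdjoint (expect A x) := by
  rw [IsSelfAdjoint, ← expect_star, hx.star_eq]

theorem expect_mul_left (hA : IsMasa M A) {a : H →L[ℂ] H} (ha : a ∈ A) (x : H →L[ℂ] H) :
    expect A (a * x) = a * expect A x :=
  expect_eq_of_tendsto fun u v => by
    simpa only [FPart.D_mul_left hA _ ha, mul_apply', ← ContinuousLinearMap.adjoint_inner_left]
      using tendsto_expect (A := A) x (adjoint a u) v

theorem expect_mul_right (hA : IsMasa M A) {a : H →L[ℂ] H} (ha : a ∈ A) (x : H →L[ℂ] H) :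
    expect A (x * a) = expect A x * a :=
  expect_eq_of_tendsto fun u v => by
    simpa only [FPart.D_mul_right hA _ ha, mul_apply'] using tendsto_expect (A := A) x u (a v)

theorem expect_one : expect A (1 : H →L[ℂ] H) = 1 :=
  expect_eq_of_tendsto fun u v => by
    simp only [FPart.D_one]
    exact tendsto_const_nhds

theorem expect_inner_nonneg {y : H →L[ℂ] H} (u : H) :
    0 ≤ RCLike.re ⟪u, expect A (star y * y) u⟫_ℂ := by
  refine ge_of_tendsto ((RCLike.continuous_re.tendsto _).comp (tendsto_expect (star y * y) u u))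
    (Eventually.of_forall fun P => ?_)
  simp only [Function.comp_apply, FPart.D_apply, inner_sum, map_sum]
  refine Finset.sum_nonneg fun i _ => ?_
  rw [← sa_inner (P.proj i).isSelfAdjoint, mul_apply', ContinuousLinearMap.star_eq_adjoint,
    ContinuousLinearMap.adjoint_inner_right]
  exact inner_self_nonneg

theorem commute_of_commute_proj (hA : IsMasa M A) {T : H →L[ℂ] H}
    (h : ∀ g ∈ A, IsStarProjection g → Commute T g) {a : H →L[ℂ] H} (ha : a ∈ A) :
    Commute T a := by
  have hsa : ∀ b ∈ A, IsSelfAdjoint b → Commute T b := by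
    intro b hb hbs
    obtain ⟨lo, hlo⟩ := (spectrum.isBounded (𝕜 := ℝ) b).bddBelow
    have key : ∀ η > 0, ‖T * b - b * T‖ ≤ 2 * η * ‖T‖ := by
      intro η hη
      obtain ⟨N, t, m, -, hmp, -, -, hap, hmc, hmV⟩ := exists_step_approx hbs hη lo (fun x hx => hlo hx)
      have hmA : ∀ j, m j ∈ A := fun j => hA.mem_of_commute (hmV j M (hA.le b hb))
        (fun c hc => (hmc j c (hA.comm b hb c hc)).eq)
      obtain ⟨S, hS⟩ : ∃ S : H →L[ℂ] H, S = ∑ j, (t j : ℂ) • m j := ⟨_, rfl⟩
      have hc : Commute T S := hS ▸ Commute.sum_right _ _ _ fun j _ =>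
        (h _ (hmA j) (hmp j)).smul_right _
      have e : T * b - b * T = T * (b - S) - (b - S) * T := by
        rw [mul_sub, sub_mul, hc.eq]; abel
      rw [← hS] at hap
      rw [e]
      refine le_trans (norm_sub_le _ _) ?_
      have h1 := norm_mul_le T (b - S)
      have h2 := norm_mul_le (b - S) T
      nlinarith [norm_nonneg T]
    have : ‖T * b - b * T‖ ≤ 0 := by
      refine le_of_forall_pos_le_add fun ε hε => ?_
      have hT : 0 < 2 * ‖T‖ + 1 := by positivity
      refine le_trans (key (ε / (2 * ‖T‖ + 1)) (by positivity)) ?_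
      rw [zero_add, show 2 * (ε / (2 * ‖T‖ + 1)) * ‖T‖ = ε * (2 * ‖T‖) / (2 * ‖T‖ + 1) by ring,
        div_le_iff₀ hT]
      nlinarith
    exact sub_eq_zero.1 (norm_le_zero_iff.1 this)
  have h1 := hsa (a + star a) (add_mem ha (star_mem ha)) (IsSelfAdjoint.add_star_self a)
  have h2 := hsa (Complex.I • (a - star a)) (SMulMemClass.smul_mem _ (sub_mem ha (star_mem ha))) (by
    rw [IsSelfAdjoint, star_smul, star_sub, star_star, RCLike.star_def, Complex.conj_I,
      neg_smul, ← smul_neg, neg_sub])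
  have : a = (1 / 2 : ℂ) • ((a + star a) + (-Complex.I) • (Complex.I • (a - star a))) := by
    rw [smul_smul, neg_mul, Complex.I_mul_I, neg_neg, one_smul]
    module
  rw [this]
  exact (h1.add_right (h2.smul_right _)).smul_right _

theorem expect_commute_proj (hA : IsMasa M A) (x : H →L[ℂ] H) {g : H →L[ℂ] H} (hg : g ∈ A)
    (hgp : IsStarProjection g) : Commute (expect A x) g := by
  ext v
  refine ext_inner_left ℂ fun u => ?_
  simp only [mul_apply']
  have h1 := tendsto_expect (A := A) x u (g v)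
  have h2 := tendsto_expect (A := A) x (g u) v
  rw [← sa_inner hgp.isSelfAdjoint]
  refine tendsto_nhds_unique (h1.congr' ?_) h2
  filter_upwards [eventually_le hA (FPart.two g hg hgp)] with P hP
  have := congrArg (fun T : H →L[ℂ] H => T v) (FPart.commute_of_le hA hg hgp hP x).eq
  simp only [mul_apply'] at this
  rw [this, sa_inner hgp.isSelfAdjoint]

theorem expect_mem_vn (hA : IsMasa M A) {x : H →L[ℂ] H} (hx : x ∈ M) : expect A x ∈ M := by
  rw [mem_vn_iff]
  intro z hz
  ext v
  refine ext_inner_left ℂ fun u => ?_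
  simp only [mul_apply']
  rw [← ContinuousLinearMap.adjoint_inner_left]
  have h1 := tendsto_expect (A := A) x (adjoint z u) v
  have h2 := tendsto_expect (A := A) x u (z v)
  refine tendsto_nhds_unique h1 (h2.congr fun P => ?_)
  rw [ContinuousLinearMap.adjoint_inner_left]
  have := congrArg (fun T : H →L[ℂ] H => T v) ((mem_vn_iff.1 (P.D_mem hA hx)) z hz)
  simp only [mul_apply'] at this
  rw [this]

theorem expect_mem (hA : IsMasa M A) {x : H →L[ℂ] H} (hx : x ∈ M) : expect A x ∈ A :=
  hA.mem_of_commute (expect_mem_vn hA hx) fun _ ha =>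
    (commute_of_commute_proj hA (fun _ hg hgp => expect_commute_proj hA x hg hgp) ha).eq

end Vale.Agent.P078
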