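import Vale.Agent.P078.Defs

/-!
Normal conditional expectations and semifinite traces, for the statement.
-/

namespace Vale.Agent.P078

open scoped InnerProductSpace ENNReal

variable {H : Type} [NormedAddCommGroup H] [InnerProductSpace ℂ H] [CompleteSpace H]

/-- `A` is the range of a normal conditional expectation of `M`: a positive linear bimodular map of
`M` onto `A` fixing `A`, whose matrix coefficients are strongly continuous on the unit ball. -/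
def HasNormalExpectation (M : VonNeumannAlgebra H) (A : StarSubalgebra ℂ (H →L[ℂ] H)) : Prop :=
  ∃ Φ : (H →L[ℂ] H) → (H →L[ℂ] H),
    (∀ x ∈ M, Φ x ∈ A) ∧ (∀ a ∈ A, Φ a = a) ∧
    (∀ x ∈ M, ∀ y ∈ M, Φ (x + y) = Φ x + Φ y) ∧
    (∀ (c : ℂ), ∀ x ∈ M, Φ (c • x) = c • Φ x) ∧
    (∀ x ∈ M, (Φ (star x * x)).IsPositive) ∧
    (∀ a ∈ A, ∀ x ∈ M, Φ (a * x) = a * Φ x ∧ Φ (x * a) = Φ x * a) ∧
    (∀ u v : H, ∀ t : ℝ, 0 < t → ∃ F : Finset H, ∃ d : ℝ, 0 < d ∧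
      ∀ x ∈ M, ‖x‖ ≤ 1 → (∀ ξ ∈ F, ‖x ξ‖ < d) → ‖⟪u, Φ x v⟫_ℂ‖ < t)

/-- The value at `star x * x` of the weight `∑ i, ⟪η i, · (η i)⟫`. -/
noncomputable def traceSq {ι : Type} (η : ι → H) (x : H →L[ℂ] H) : ℝ≥0∞ :=
  ∑' i, ENNReal.ofReal (‖x (η i)‖ ^ 2)

/-- `M` has a faithful normal semifinite trace `∑ i, ⟪η i, · (η i)⟫` for which `A` has no nonzero
projection of finite trace. -/
def HasTraceWithoutFiniteProjection (M : VonNeumannAlgebra H)
    (A : StarSubalgebra ℂ (H →L[ℂ] H)) : Prop :=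
  ∃ (ι : Type) (η : ι → H),
    (∀ x ∈ M, traceSq η x = traceSq η (star x)) ∧
    (∀ x ∈ M, traceSq η x = 0 → x = 0) ∧
    (∀ (F : Finset H) (δ : ℝ), 0 < δ → ∃ q ∈ M, IsStarProjection q ∧ traceSq η q < ⊤ ∧
      ∀ v ∈ F, ‖(1 - q) v‖ < δ) ∧
    (∀ g ∈ A, IsStarProjection g → traceSq η g < ⊤ → g = 0)

/-- The quadratic bound, asked only for MASAs which are ranges of normal conditional
expectations. -/
def QuadraticPavingExpectation : Prop :=
  ∃ C : ℝ, ∀ (H : Type) [NormedAddCommGroup H] [InnerProductSpace ℂ H] [CompleteSpace H]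
    (M : VonNeumannAlgebra H) (A : StarSubalgebra ℂ (H →L[ℂ] H)), IsMasa M A →
    HasNormalExpectation M A →
    ∀ ε : ℝ, 0 < ε → ε < 1 → ∃ r : ℕ, (r : ℝ) ≤ C / ε ^ 2 ∧ AllSoPavable M A ε r

end Vale.Agent.P078
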