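import Vale.Agent.P078.Example
import Vale.Agent.P078.ExpectationDefs

/-!
Separating normal centralised functionals are the same as a normal conditional expectation;
semifinite algebras.
-/

namespace Vale.Agent.P078

open scoped InnerProductSpace ComplexOrder ENNReal
open Filter Topology ContinuousLinearMap

variable {H : Type} [NormedAddCommGroup H] [InnerProductSpace ℂ H] [CompleteSpace H]
variable {M : VonNeumannAlgebra H} {A : StarSubalgebra ℂ (H →L[ℂ] H)}

/-- A normal functional is uniformly approximated by finite sums of vector functionals. -/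
theorem normal_approx {ψ : (H →L[ℂ] H) → ℂ} (hψ : IsNormalCentral M A ψ) {t : ℝ} (ht : 0 < t) :
    ∃ (F : Finset H) (w : F → H), ∀ x ∈ M,
      ‖ψ x - ∑ ξ : F, ⟪w ξ, x ξ⟫_ℂ‖ ≤ t * ‖x‖ := by
  classical
  obtain ⟨F, d, hd, hF⟩ := hψ.normal (t / 4) (by linarith)
  obtain ⟨L, hL⟩ : ∃ L : (H →L[ℂ] H) →ₗ[ℂ] (H →L[ℂ] H) × (F → H),
      ∀ x, L x = (x, fun ξ : F => (d : ℂ)⁻¹ • x ξ) :=
    ⟨{ toFun := fun x => (x, fun ξ : F => (d : ℂ)⁻¹ • x ξ)
       map_add' := fun x y => by ext <;> simp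
       map_smul' := fun c x => by ext <;> simp [smul_comm (d : ℂ)⁻¹ c] }, fun _ => rfl⟩
  let MS : Submodule ℂ (H →L[ℂ] H) := M.toStarSubalgebra.toSubalgebra.toSubmodule
  obtain ⟨P, hP⟩ : ∃ P : Submodule ℂ ((H →L[ℂ] H) × (F → H)), P = MS.map L := ⟨_, rfl⟩
  have hmem : ∀ z : P, z.1.1 ∈ M ∧ L z.1.1 = z.1 := by
    rintro ⟨z, hz⟩
    rw [hP] at hz
    obtain ⟨x, hx, rfl⟩ := hz
    have e : (L x).1 = x := by rw [hL]
    exact ⟨by rw [e]; exact hx, by rw [e]⟩
  have hbound : ∀ x ∈ M, ‖ψ x‖ ≤ t * ‖L x‖ := by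
    intro x hx
    obtain ⟨m, hm⟩ : ∃ m : ℝ, m = ‖L x‖ := ⟨_, rfl⟩
    rcases eq_or_lt_of_le (hm ▸ norm_nonneg (L x) : 0 ≤ m) with h0 | h0
    · have hL0 : L x = 0 := norm_eq_zero.1 (hm.symm.trans h0.symm)
      have hx0 : x = 0 := by
        have := congrArg Prod.fst hL0
        rw [hL] at this; exact this
      rw [hx0, normalCentral_zero hψ, norm_zero]
      exact mul_nonneg ht.le (norm_nonneg _)
    · obtain ⟨c, hc⟩ : ∃ c : ℝ, c = 1 / (2 * m) := ⟨_, rfl⟩
      have hc0 : 0 < c := by rw [hc]; positivity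
      have h1 : ‖x‖ ≤ m := by
        rw [hm, hL, Prod.norm_def]; exact le_max_left _ _
      have h2 : ∀ ξ ∈ F, ‖x ξ‖ ≤ m * d := by
        intro ξ hξ
        have h3 : ‖(d : ℂ)⁻¹ • x ξ‖ ≤ m := by
          rw [hm, hL]
          refine le_trans (norm_le_pi_norm (fun η : F => (d : ℂ)⁻¹ • x η) ⟨ξ, hξ⟩) ?_
          rw [Prod.norm_def]
          exact le_max_right _ _
        rw [norm_smul, norm_inv, Complex.norm_real, Real.norm_eq_abs, abs_of_pos hd,
          inv_mul_le_iff₀ hd] at h3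
        linarith
      have hcm : c * m = 1 / 2 := by rw [hc]; field_simp
      have h4 := hF ((c : ℂ) • x) (vn_smul_mem _ hx)
        (by
          rw [norm_smul, Complex.norm_real, Real.norm_eq_abs, abs_of_pos hc0]
          nlinarith)
        (fun ξ hξ => by
          rw [smul_apply, norm_smul, Complex.norm_real, Real.norm_eq_abs, abs_of_pos hc0]
          nlinarith [h2 ξ hξ])
      rw [hψ.map_smul _ x hx, norm_mul, Complex.norm_real, Real.norm_eq_abs, abs_of_pos hc0] at h4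
      rw [← hm]
      nlinarith [norm_nonneg (ψ x)]
  obtain ⟨f, hf⟩ : ∃ f : StrongDual ℂ P, (∀ z : P, f z = ψ z.1.1) ∧ ‖f‖ ≤ t := by
    refine ⟨LinearMap.mkContinuous
      { toFun := fun z : P => ψ z.1.1
        map_add' := fun a b => hψ.map_add _ (hmem a).1 _ (hmem b).1
        map_smul' := fun c a => hψ.map_smul c _ (hmem a).1 }
      t (fun z => ?_), fun z => rfl, LinearMap.mkContinuous_norm_le _ ht.le _⟩
    have h := hbound _ (hmem z).1
    rw [(hmem z).2] at h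
    exact h
  obtain ⟨g, hg, hgn⟩ := exists_extension_norm_eq P f
  refine ⟨F, fun ξ => (d : ℝ)⁻¹ • (InnerProductSpace.toDual ℂ H).symm
    ((g.comp (ContinuousLinearMap.inr ℂ (H →L[ℂ] H) (F → H))).comp
      (ContinuousLinearMap.single ℂ (fun _ : F => H) ξ)), fun x hx => ?_⟩
  have hLP : L x ∈ P := hP ▸ Submodule.mem_map_of_mem hx
  have e1 : g (L x) = ψ x := by
    have h := hg ⟨L x, hLP⟩
    rw [hf.1] at h
    rw [h]
    show ψ (L x).1 = ψ x
    rw [hL]
  have e2 : L x = (x, 0) + ∑ ξ : F, ContinuousLinearMap.inr ℂ (H →L[ℂ] H) (F → H)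
      (ContinuousLinearMap.single ℂ (fun _ : F => H) ξ ((d : ℂ)⁻¹ • x ξ)) := by
    rw [hL, ← map_sum]
    have : ∑ ξ : F, ContinuousLinearMap.single ℂ (fun _ : F => H) ξ ((d : ℂ)⁻¹ • x ξ)
        = fun ξ : F => (d : ℂ)⁻¹ • x ξ :=
      Finset.univ_sum_single (fun ξ : F => (d : ℂ)⁻¹ • x ξ)
    rw [this]
    simp [ContinuousLinearMap.inr_apply]
  rw [e2, map_add, map_sum] at e1
  have e3 : ψ x - ∑ ξ : F, ⟪(d : ℝ)⁻¹ • (InnerProductSpace.toDual ℂ H).symm
      ((g.comp (ContinuousLinearMap.inr ℂ (H →L[ℂ] H) (F → H))).comp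
        (ContinuousLinearMap.single ℂ (fun _ : F => H) ξ)), x ξ⟫_ℂ = g (x, 0) := by
    rw [← e1, sub_eq_iff_eq_add]
    congr 1
    refine Finset.sum_congr rfl fun ξ _ => ?_
    rw [← Complex.coe_smul, inner_smul_left, Complex.conj_ofReal,
      InnerProductSpace.toDual_symm_apply, map_smul, map_smul, map_smul, smul_eq_mul]
    push_cast
    rfl
  rw [e3]
  refine le_trans (g.le_opNorm _) ?_
  rw [Prod.norm_mk, norm_zero, max_eq_left (norm_nonneg x)]
  exact mul_le_mul_of_nonneg_right (hgn ▸ hf.2) (norm_nonneg _)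

theorem normalCentral_D (hA : IsMasa M A) {ψ : (H →L[ℂ] H) → ℂ} (hψ : IsNormalCentral M A ψ)
    (P : FPart A) {x : H →L[ℂ] H} (hx : x ∈ M) : ψ (P.D x) = ψ x := by
  have hc : ∀ i, P.c i ∈ M := fun i => hA.le _ (P.mem i)
  calc ψ (P.D x) = ∑ i, ψ (P.c i * x * P.c i) :=
        normalCentral_sum hψ _ _ fun i _ => mul_mem (mul_mem (hc i) hx) (hc i)
    _ = ∑ i, ψ (x * P.c i) := Finset.sum_congr rfl fun i _ => by
        rw [mul_assoc, hψ.central _ (P.mem i) _ (mul_mem hx (hc i)), mul_assoc,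
          (P.proj i).isIdempotentElem.eq]
    _ = ψ x := by
        rw [← normalCentral_sum hψ _ _ fun i _ => mul_mem hx (hc i), ← Finset.mul_sum, P.sum_eq,
          mul_one]

theorem normalCentral_expect (hA : IsMasa M A) {ψ : (H →L[ℂ] H) → ℂ}
    (hψ : IsNormalCentral M A ψ) {x : H →L[ℂ] H} (hx : x ∈ M) : ψ (expect A x) = ψ x := by
  refine sub_eq_zero.1 (norm_le_zero_iff.1 (le_of_forall_pos_le_add fun t ht => ?_))
  rw [zero_add]
  obtain ⟨F, w, hw⟩ := normal_approx hψ (show 0 < t / (2 * ‖x‖ + 1) by positivity)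
  obtain ⟨s, hs⟩ : ∃ s : ℝ, s = t / (2 * ‖x‖ + 1) := ⟨_, rfl⟩
  rw [← hs] at hw
  have hlim : Tendsto (fun P : FPart A => ‖∑ ξ : F, ⟪w ξ, expect A x ξ⟫_ℂ
      - ∑ ξ : F, ⟪w ξ, P.D x ξ⟫_ℂ‖) (pUltra A) (𝓝 0) := by
    have h := (tendsto_const_nhds (x := ∑ ξ : F, ⟪w ξ, expect A x ξ⟫_ℂ)).sub
      (tendsto_finsetSum (Finset.univ : Finset F) fun ξ _ => tendsto_expect (A := A) x (w ξ) ξ)
    rw [sub_self] at h
    simpa using h.norm
  refine ge_of_tendsto (show Tendsto (fun P : FPart A => s * ‖x‖ + ‖∑ ξ : F, ⟪w ξ, expect A x ξ⟫_ℂ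
      - ∑ ξ : F, ⟪w ξ, P.D x ξ⟫_ℂ‖ + s * ‖x‖) (pUltra A) (𝓝 (s * ‖x‖ + 0 + s * ‖x‖)) from
    (tendsto_const_nhds.add hlim).add tendsto_const_nhds) (Eventually.of_forall fun P => ?_)
    |>.trans ?_
  · have hs0 : 0 ≤ s := by rw [hs]; positivity
    have hPn : ‖P.D x‖ ≤ ‖x‖ :=
      ContinuousLinearMap.opNorm_le_bound _ (norm_nonneg _) (P.norm_D_apply x)
    have h1 := le_trans (hw _ (hA.le _ (expect_mem hA hx)))
      (mul_le_mul_of_nonneg_left (expect_norm_le x) hs0)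
    have h2 := le_trans (hw _ (P.D_mem hA hx)) (mul_le_mul_of_nonneg_left hPn hs0)
    rw [normalCentral_D hA hψ P hx, norm_sub_rev] at h2
    exact le_trans (norm_sub_le_norm_sub_add_norm_sub _ (∑ ξ : F, ⟪w ξ, P.D x ξ⟫_ℂ) _)
      (add_le_add (le_trans (norm_sub_le_norm_sub_add_norm_sub _
        (∑ ξ : F, ⟪w ξ, expect A x ξ⟫_ℂ) _) (add_le_add h1 le_rfl)) h2)
  · have e : s * (2 * ‖x‖ + 1) = t := by rw [hs]; field_simp
    have hs0 : 0 ≤ s := by rw [hs]; positivity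
    linarith

theorem normalCentral_sq_small {ψ : (H →L[ℂ] H) → ℂ} (hψ : IsNormalCentral M A ψ) {t : ℝ}
    (ht : 0 < t) : ∃ F : Finset H, ∃ d : ℝ, 0 < d ∧ ∀ x ∈ M, ‖x‖ ≤ 1 →
      (∀ ξ ∈ F, ‖x ξ‖ < d) → ‖ψ (star x * x)‖ < t := by
  classical
  obtain ⟨F, w, hw⟩ := normal_approx hψ (half_pos ht)
  obtain ⟨K, hK⟩ : ∃ K : ℝ, K = ∑ ξ : F, ‖w ξ‖ + 1 := ⟨_, rfl⟩
  have hK0 : 0 < K := by rw [hK]; positivity
  refine ⟨F, t / (2 * K), by positivity, fun x hx hx1 hxF => ?_⟩
  have h1 := hw _ (mul_mem (star_mem hx) hx)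
  have hn : ‖star x * x‖ ≤ 1 := by
    rw [CStarRing.norm_star_mul_self]; nlinarith [norm_nonneg x]
  have h2 : ‖∑ ξ : F, ⟪w ξ, (star x * x) ξ⟫_ℂ‖ ≤ (K - 1) * (t / (2 * K)) := by
    rw [hK, add_sub_cancel_right, Finset.sum_mul]
    refine le_trans (norm_sum_le _ _) (Finset.sum_le_sum fun ξ _ => ?_)
    refine le_trans (norm_inner_le_norm _ _) ?_
    refine mul_le_mul_of_nonneg_left ?_ (norm_nonneg _)
    rw [mul_apply']
    refine le_trans ((star x).le_opNorm _) ?_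
    rw [norm_star, ← one_mul (t / (2 * ((∑ ξ : F, ‖w ξ‖) + 1)))]
    exact mul_le_mul hx1 (hK ▸ (hxF ξ ξ.2).le) (norm_nonneg _) zero_le_one
  have h3 : ‖ψ (star x * x)‖ ≤ t / 2 + (K - 1) * (t / (2 * K)) := by
    have h4 := norm_le_norm_sub_add (ψ (star x * x)) (∑ ξ : F, ⟪w ξ, (star x * x) ξ⟫_ℂ)
    have h5 : t / 2 * ‖star x * x‖ ≤ t / 2 * 1 := mul_le_mul_of_nonneg_left hn (by linarith)
    linarith
  have h6 : (K - 1) * (t / (2 * K)) = t / 2 - t / (2 * K) := by field_simp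
  have h7 : 0 < t / (2 * K) := by positivity
  linarith

theorem expect_pos_sqrt (hA : IsMasa M A) {x : H →L[ℂ] H} (hx : x ∈ M) :
    ∃ R ∈ A, IsSelfAdjoint R ∧ R * R = expect A (star x * x) := by
  have hE := expect_mem hA (mul_mem (star_mem hx) hx)
  have hs : IsSelfAdjoint (expect A (star x * x)) :=
    expect_isSelfAdjoint (IsSelfAdjoint.star_mul_self x)
  refine ⟨cfc Real.sqrt (expect A (star x * x)), masa_cfc_mem hA hE _, cfc_predicate _ _, ?_⟩
  rw [← cfc_mul _ _ _]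
  conv_rhs => rw [← cfc_id' ℝ (expect A (star x * x))]
  refine cfc_congr fun t ht => Real.mul_self_sqrt (spectrum_nonneg_of_nonneg ?_ ht)
  rw [ContinuousLinearMap.nonneg_iff_isPositive]
  refine (ContinuousLinearMap.isPositive_iff_complex _).2 fun v => ?_
  have h := phi_self_real (A := A) v x
  simp only [phi] at h
  rw [sa_inner hs, h]
  exact ⟨by simp [← Complex.ofReal_pow],
    by simp only [RCLike.re_to_complex, Complex.ofReal_re]; positivity⟩

theorem semi_eq_norm {R x : H →L[ℂ] H} (hR : IsSelfAdjoint R)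
    (h : R * R = expect A (star x * x)) (v : H) : semi A v x = ‖R v‖ := by
  rw [semi, phi, ← h, mul_apply', ← sa_inner hR, inner_self_eq_norm_sq,
    Real.sqrt_sq (norm_nonneg _)]

/-- The vector functional of the expectation at `ξ` is normal. -/
def NormalVec (M : VonNeumannAlgebra H) (A : StarSubalgebra ℂ (H →L[ℂ] H)) (ξ : H) : Prop :=
  ∀ t : ℝ, 0 < t → ∃ F : Finset H, ∃ d : ℝ, 0 < d ∧ ∀ x ∈ M, ‖x‖ ≤ 1 →
    (∀ v ∈ F, ‖x v‖ < d) → semi A ξ x < t

theorem normalVec_sub (hA : IsMasa M A) :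
    ∃ U : Submodule ℂ H, (∀ ξ, ξ ∈ U ↔ NormalVec M A ξ) ∧ IsClosed (U : Set H) ∧
      ∀ z : H →L[ℂ] H, (∀ a ∈ A, z * a = a * z) → ∀ ξ ∈ U, z ξ ∈ U := by
  classical
  have hz : ∀ (z : H →L[ℂ] H) (ξ : H), (∀ a ∈ A, z * a = a * z) → NormalVec M A ξ →
      NormalVec M A (z ξ) := by
    intro z ξ hzA hξ t ht
    obtain ⟨F, d, hd, hF⟩ := hξ (t / (‖z‖ + 1)) (by positivity)
    refine ⟨F, d, hd, fun x hx hx1 hxF => ?_⟩
    obtain ⟨R, hRA, hRs, hR⟩ := expect_pos_sqrt hA hx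
    have h := hF x hx hx1 hxF
    rw [semi_eq_norm hRs hR] at h ⊢
    rw [← mul_apply', ← hzA R hRA, mul_apply']
    refine lt_of_le_of_lt (z.le_opNorm _) ?_
    rw [lt_div_iff₀ (by positivity)] at h
    nlinarith [norm_nonneg (R ξ), norm_nonneg z]
  refine ⟨{ carrier := {ξ | NormalVec M A ξ}
            add_mem' := ?_
            zero_mem' := ?_
            smul_mem' := ?_ }, fun ξ => Iff.rfl, ?_, fun z hzA ξ hξ => hz z ξ hzA hξ⟩
  · intro u v hu hv t ht
    obtain ⟨F₁, d₁, hd₁, h₁⟩ := hu (t / 2) (by linarith)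
    obtain ⟨F₂, d₂, hd₂, h₂⟩ := hv (t / 2) (by linarith)
    refine ⟨F₁ ∪ F₂, min d₁ d₂, lt_min hd₁ hd₂, fun x hx hx1 hxF => ?_⟩
    have e₁ := h₁ x hx hx1 fun w hw =>
      lt_of_lt_of_le (hxF w (Finset.mem_union_left _ hw)) (min_le_left _ _)
    have e₂ := h₂ x hx hx1 fun w hw =>
      lt_of_lt_of_le (hxF w (Finset.mem_union_right _ hw)) (min_le_right _ _)
    obtain ⟨R, _, hRs, hR⟩ := expect_pos_sqrt hA hx
    rw [semi_eq_norm hRs hR] at e₁ e₂ ⊢
    rw [map_add]
    linarith [norm_add_le (R u) (R v)]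
  · intro t ht
    refine ⟨∅, 1, one_pos, fun x hx _ _ => ?_⟩
    obtain ⟨R, _, hRs, hR⟩ := expect_pos_sqrt hA hx
    rw [semi_eq_norm hRs hR, map_zero, norm_zero]
    exact ht
  · intro c u hu
    have h := hz (c • 1) u (fun a _ => by simp) hu
    simpa using h
  · refine isClosed_of_closure_subset fun ξ hξ t ht => ?_
    obtain ⟨η, hη, hd⟩ := Metric.mem_closure_iff.1 hξ (t / 2) (by linarith)
    obtain ⟨F, d, hd0, hF⟩ := hη (t / 2) (by linarith)
    refine ⟨F, d, hd0, fun x hx hx1 hxF => ?_⟩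
    have h := hF x hx hx1 hxF
    obtain ⟨R, _, hRs, hR⟩ := expect_pos_sqrt hA hx
    rw [semi_eq_norm hRs hR] at h ⊢
    have hRn : ‖R‖ ≤ 1 := by
      have h1 : ‖R * R‖ ≤ 1 := by
        rw [hR]
        refine le_trans (expect_norm_le _) ?_
        rw [CStarRing.norm_star_mul_self]; nlinarith [norm_nonneg x]
      have h2 := CStarRing.norm_star_mul_self (x := R)
      rw [hRs.star_eq] at h2
      rw [h2] at h1
      nlinarith [norm_nonneg R]
    rw [dist_eq_norm] at hd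
    have h3 : ‖R (ξ - η)‖ ≤ 1 * ‖ξ - η‖ :=
      le_trans (R.le_opNorm _) (mul_le_mul_of_nonneg_right hRn (norm_nonneg _))
    rw [map_sub] at h3
    linarith [norm_le_norm_sub_add (R ξ) (R η)]

theorem exists_normalVec (hA : IsMasa M A) {ψ : (H →L[ℂ] H) → ℂ} (hψ : IsNormalCentral M A ψ)
    {g : H →L[ℂ] H} (hgA : g ∈ A) (hgp : IsStarProjection g) {ξ : H}
    (hsep : ∀ a ∈ A, a ξ = 0 → a * g = 0) (hlt : ‖ξ‖ ^ 2 < (ψ g).re) :
    ∃ h ∈ A, h ξ ≠ 0 ∧ g * h = h ∧ NormalVec M A (h ξ) := by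
  classical
  obtain ⟨S, hSg, hSo, hSmax⟩ := exists_maximal_orth (fun q : H →L[ℂ] H =>
    q ∈ A ∧ IsStarProjection q ∧ q * g = q ∧ q ≠ 0 ∧ (ψ q).re ≤ ‖q ξ‖ ^ 2)
  obtain ⟨G, hGp, hqG, hGM, hGcomm, hGle, hGapp⟩ :=
    exists_sup_proj S (fun q hq => (hSg q hq).2.1) hSo
  have hGM' : G ∈ M := hGM M fun q hq => hA.le q (hSg q hq).1
  have hGA : G ∈ A := hA.mem_of_commute hGM' fun a ha =>
    (hGcomm a (fun q hq => hA.comm q (hSg q hq).1 a ha)
      (fun q hq => hA.comm q (hSg q hq).1 (star a) (star_mem ha))).eq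
  have hgG : g * G = G :=
    hGle g fun q hq => sum_orth_apply_fix hgp (hSg q hq).2.1 (hSg q hq).2.2.1
  have hGg : G * g = G := by rw [hA.comm _ hGA _ hgA]; exact hgG
  have hψG : (ψ G).re ≤ ‖ξ‖ ^ 2 := by
    refine le_of_forall_pos_le_add fun t ht => ?_
    obtain ⟨F, d, hd, hF⟩ := hψ.normal t ht
    obtain ⟨s, hs, hsG, hsp, hsd⟩ := hGapp F d hd
    have hsM : ∀ q ∈ s, q ∈ M := fun q hq => hA.le q (hSg q (hs q hq)).1
    have h1 := hF (G - ∑ q ∈ s, q) (sub_mem hGM' (sum_mem hsM))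
      (norm_sa_proj_le (hsp.sub_of_mul_eq_left hGp hsG)) hsd
    rw [normalCentral_sub hψ hGM' (sum_mem hsM), normalCentral_sum hψ s (fun q => q) hsM] at h1
    have h2 := le_trans (Complex.re_le_norm _) h1.le
    rw [Complex.sub_re, Complex.re_sum] at h2
    have h3 : ∑ q ∈ s, (ψ q).re ≤ ‖ξ‖ ^ 2 :=
      le_trans (Finset.sum_le_sum fun q hq => (hSg q (hs q hq)).2.2.2.2)
        (sum_norm_sq_le s id (fun q hq => (hSg q (hs q hq)).2.1)
          (fun q hq q' hq' h => hSo q (hs q hq) q' (hs q' hq') h) ξ)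
    linarith
  obtain ⟨h, hh⟩ : ∃ h : H →L[ℂ] H, h = g - G := ⟨_, rfl⟩
  have hhA : h ∈ A := hh ▸ sub_mem hgA hGA
  have hhp : IsStarProjection h := hh ▸ hGp.sub_of_mul_eq_left hgp hGg
  have hgh : g * h = h := by rw [hh, mul_sub, hgp.isIdempotentElem.eq, hgG]
  have hhg : h * g = h := by rw [hA.comm _ hhA _ hgA]; exact hgh
  have hhξ : h ξ ≠ 0 := by
    intro h0
    have h1 := hsep h hhA h0
    rw [hhg, hh, sub_eq_zero] at h1
    rw [h1] at hlt
    linarith
  refine ⟨h, hhA, hhξ, hgh, ?_⟩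
  have hkey : ∀ q ∈ A, IsStarProjection q → q * h = q → ‖q ξ‖ ^ 2 ≤ (ψ q).re := by
    intro q hqA hq hqh
    by_contra hcon
    push Not at hcon
    have hq0 : q ≠ 0 := fun e => by simp [e, normalCentral_zero hψ] at hcon
    have hqg : q * g = q := by rw [← hqh, mul_assoc, hhg]
    have horth : ∀ q' ∈ S, q * q' = 0 := by
      intro q' hq'
      rw [← hqh, ← sum_orth_apply_fix hGp (hSg q' hq').2.1 (hqG q' hq'), mul_assoc,
        ← mul_assoc h, hh, sub_mul, hgG, hGp.isIdempotentElem.eq, sub_self, zero_mul, mul_zero]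
    have hmem := hSmax q ⟨hqA, hq, hqg, hq0, hcon.le⟩ fun q' hq' => ⟨horth q' hq', by
      rw [hA.comm _ (hSg q' hq').1 _ hqA]; exact horth q' hq'⟩
    have h2 := horth q hmem
    rw [hq.isIdempotentElem.eq] at h2
    exact hq0 h2
  obtain ⟨C, hC⟩ := normalCentral_bound hψ
  have hdom : ∀ x ∈ M, semi A (h ξ) x ^ 2 ≤ (ψ (star (x * h) * (x * h))).re := by
    intro x hx
    have hxM : star x * x ∈ M := mul_mem (star_mem hx) hx
    obtain ⟨R, hRA, hRs, hR⟩ := expect_pos_sqrt hA hx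
    obtain ⟨b, hb⟩ : ∃ b : H →L[ℂ] H, b = expect A (star x * x) := ⟨_, rfl⟩
    have hbA : b ∈ A := hb ▸ expect_mem hA hxM
    have hbs : IsSelfAdjoint b := hb ▸ expect_isSelfAdjoint (IsSelfAdjoint.star_mul_self x)
    have hb0 : ∀ y ∈ spectrum ℝ b, (0 : ℝ) ≤ y := fun y hy =>
      spectrum_nonneg_of_nonneg (by
        rw [hb, ← hR]
        conv_rhs => arg 1; rw [← hRs.star_eq]
        exact star_mul_self_nonneg R) hy
    have e1 : ψ (star (x * h) * (x * h)) = ψ (b * h) := by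
      rw [star_mul, hhp.isSelfAdjoint.star_eq, mul_assoc,
        hψ.central h hhA _ (mul_mem (star_mem hx) (mul_mem hx (hA.le h hhA))), ← mul_assoc,
        mul_assoc (star x * x), hhp.isIdempotentElem.eq,
        ← normalCentral_expect hA hψ (mul_mem hxM (hA.le h hhA)), expect_mul_right hA hhA, hb]
    rw [e1, semi_sq, phi, ← hb]
    refine le_of_forall_pos_le_add fun t ht => ?_
    obtain ⟨c, hc⟩ : ∃ c : ℝ, c = ‖h ξ‖ ^ 2 + max C 0 + 1 := ⟨_, rfl⟩
    have hc0 : 0 < c := by rw [hc]; positivity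
    obtain ⟨N, s, m, hs0, hmp, -, -, hap, hmc, hmV⟩ := exists_step_approx hbs (div_pos ht hc0) 0 hb0
    have hmA : ∀ j, m j ∈ A := fun j => hA.mem_of_commute (hmV j M (hA.le b hbA))
      (fun a ha => (hmc j a (hA.comm b hbA a ha)).eq)
    obtain ⟨T, hT⟩ : ∃ T : H →L[ℂ] H, T = ∑ j, (s j : ℂ) • m j := ⟨_, rfl⟩
    have hTA : T ∈ A := hT ▸ sum_mem fun j _ => SMulMemClass.smul_mem _ (hmA j)
    rw [← hT] at hap
    have h1 : RCLike.re ⟪h ξ, T (h ξ)⟫_ℂ ≤ (ψ (T * h)).re := by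
      rw [hT, sum_apply, inner_sum, map_sum, Finset.sum_mul,
        normalCentral_sum hψ _ _ (fun j _ => mul_mem (vn_smul_mem _ (hA.le _ (hmA j))) (hA.le h hhA)),
        Complex.re_sum]
      refine Finset.sum_le_sum fun j _ => ?_
      have hq := (hmp j).mul hhp (hA.comm _ (hmA j) _ hhA)
      rw [smul_apply, inner_smul_right, smul_mul_assoc,
        hψ.map_smul _ _ (mul_mem (hA.le _ (hmA j)) (hA.le h hhA)),
        inner_proj_eq_norm_sq (hmp j), RCLike.re_to_complex, Complex.re_ofReal_mul,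
        Complex.re_ofReal_mul, Complex.ofReal_re]
      refine mul_le_mul_of_nonneg_left ?_ (hs0 j)
      have h2 := hkey _ (mul_mem (hmA j) hhA) hq (by rw [mul_assoc, hhp.isIdempotentElem.eq])
      rwa [mul_apply'] at h2
    have h2 : RCLike.re ⟪h ξ, b (h ξ)⟫_ℂ - RCLike.re ⟪h ξ, T (h ξ)⟫_ℂ ≤ ‖h ξ‖ ^ 2 * (t / c) := by
      rw [← map_sub, ← inner_sub_right, ← sub_apply]
      refine le_trans (RCLike.re_le_norm _) (le_trans (norm_inner_le_norm _ _) ?_)
      have h3 := le_trans ((b - T).le_opNorm (h ξ))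
        (mul_le_mul_of_nonneg_right hap (norm_nonneg _))
      calc ‖h ξ‖ * ‖(b - T) (h ξ)‖ ≤ ‖h ξ‖ * (t / c * ‖h ξ‖) :=
            mul_le_mul_of_nonneg_left h3 (norm_nonneg _)
        _ = _ := by ring
    have h3 : (ψ (T * h)).re - (ψ (b * h)).re ≤ max C 0 * (t / c) := by
      rw [← Complex.sub_re, ← normalCentral_sub hψ (mul_mem (hA.le _ hTA) (hA.le h hhA))
        (mul_mem (hA.le _ hbA) (hA.le h hhA)), ← sub_mul]
      refine le_trans (Complex.re_le_norm _) (le_trans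
        (hC _ (mul_mem (sub_mem (hA.le _ hTA) (hA.le _ hbA)) (hA.le h hhA))) ?_)
      refine mul_le_mul (le_max_left _ _) ?_ (norm_nonneg _) (le_max_right _ _)
      refine le_trans (norm_mul_le _ _) ?_
      calc _ ≤ t / c * 1 := mul_le_mul (norm_sub_rev T b ▸ hap) (norm_sa_proj_le hhp)
            (norm_nonneg _) (div_pos ht hc0).le
        _ = _ := mul_one _
    have h4 : (‖h ξ‖ ^ 2 + max C 0) * (t / c) ≤ t := by
      have h5 : c * (t / c) = t := by field_simp
      calc _ ≤ c * (t / c) :=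
            mul_le_mul_of_nonneg_right (by rw [hc]; linarith) (div_pos ht hc0).le
        _ = t := h5
    linarith
  intro t ht
  obtain ⟨F, d, hd, hF⟩ := normalCentral_sq_small hψ (pow_pos ht 2)
  refine ⟨F.image h, d, hd, fun x hx hx1 hxF => ?_⟩
  have h1 := hF (x * h) (mul_mem hx (hA.le h hhA)) (le_trans (norm_mul_le _ _) (by
    calc ‖x‖ * ‖h‖ ≤ 1 * 1 := mul_le_mul hx1 (norm_sa_proj_le hhp) (norm_nonneg _) zero_le_one
      _ = 1 := mul_one _))
    (fun v hv => hxF _ (Finset.mem_image_of_mem _ hv))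
  by_contra hcon
  push Not at hcon
  have h2 := pow_le_pow_left₀ ht.le hcon 2
  have h3 := le_trans (hdom x hx) (Complex.re_le_norm _)
  linarith

theorem normalExpectation_of_separating (hA : IsMasa M A) (hsep : SeparatingNormalCentral M A) :
    HasNormalExpectation M A := by
  classical
  obtain ⟨U, hU, hUc, hUz⟩ := normalVec_sub (M := M) (A := A) hA
  have : CompleteSpace U := hUc.completeSpace_coe
  have hP : U.starProjection ∈ A := by
    refine hA.mem_of_commute (proj_mem_vn _ fun z hz => hUz z fun a ha =>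
      (mem_vn_iff.1 (hA.le a ha)) z hz) fun a ha => ?_
    exact (proj_comm_of_invariant _ (hUz a fun b hb => hA.comm a ha b hb)
      (hUz _ fun b hb => hA.comm _ (star_mem ha) b hb)).eq
  have hall : ∀ v, NormalVec M A v := by
    intro v
    rw [← hU, ← Submodule.starProjection_eq_self_iff]
    by_contra hne
    obtain ⟨w, hw⟩ : ∃ w : H, w = (1 - U.starProjection) v := ⟨_, rfl⟩
    have hw0 : w ≠ 0 := fun h => hne (by
      rw [hw, sub_apply, one_apply_eq_self, sub_eq_zero] at h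
      exact h.symm)
    obtain ⟨g, hgA, hgp, hgw, hgsep, hgle⟩ := exists_cyclic w hA
    have hg0 : g ≠ 0 := fun h => hw0 (by rw [← hgw, h]; rfl)
    obtain ⟨ψ, hψ, hψg⟩ := hsep g hgA hgp hg0
    have hpos : 0 < (ψ g).re := by
      have h := hψ.nonneg g (hA.le g hgA)
      rw [hgp.isSelfAdjoint.star_eq, hgp.isIdempotentElem.eq, Complex.nonneg_iff] at h
      refine lt_of_le_of_ne h.1 fun h' => hψg (Complex.ext h'.symm ?_)
      exact h.2.symm
    obtain ⟨s, hs⟩ : ∃ s : ℝ, s = Real.sqrt ((ψ g).re / 2) / ‖w‖ := ⟨_, rfl⟩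
    have hwn : 0 < ‖w‖ := norm_pos_iff.2 hw0
    have hs0 : 0 < s := hs ▸ div_pos (Real.sqrt_pos.2 (by linarith)) hwn
    have hlt : ‖(s : ℂ) • w‖ ^ 2 < (ψ g).re := by
      rw [norm_smul, Complex.norm_real, Real.norm_eq_abs, abs_of_pos hs0, hs,
        div_mul_cancel₀ _ hwn.ne', Real.sq_sqrt (by linarith)]
      linarith
    obtain ⟨h, hhA, hhξ, hgh, hnv⟩ := exists_normalVec hA hψ hgA hgp (ξ := (s : ℂ) • w)
      (fun a ha h0 => hgsep a ha (by
        rw [map_smul, smul_eq_zero] at h0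
        exact h0.resolve_left (by exact_mod_cast hs0.ne'))) hlt
    refine hhξ ?_
    have h1 : U.starProjection (h ((s : ℂ) • w)) = h ((s : ℂ) • w) :=
      Submodule.starProjection_eq_self_iff.2 ((hU _).2 hnv)
    have h2 : U.starProjection w = 0 := by
      rw [hw, ← mul_apply', isStarProjection_starProjection.mul_one_sub_self]
      rfl
    rw [← h1, ← mul_apply', hA.comm _ hP _ hhA, mul_apply', map_smul, h2, smul_zero, map_zero]
  refine ⟨expect A, fun x hx => expect_mem hA hx, fun a ha => ?_, fun x _ y _ => expect_add x y,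
    fun c x _ => expect_smul c x, fun x hx => ?_,
    fun a ha x _ => ⟨expect_mul_left hA ha x, expect_mul_right hA ha x⟩, fun u v t ht => ?_⟩
  · have h := expect_mul_left hA ha (1 : H →L[ℂ] H)
    rwa [mul_one, expect_one, mul_one] at h
  · obtain ⟨R, hRA, hRs, hR⟩ := expect_pos_sqrt hA hx
    rw [← hR, ← ContinuousLinearMap.nonneg_iff_isPositive]
    conv_rhs => arg 1; rw [← hRs.star_eq]
    exact star_mul_self_nonneg R
  · obtain ⟨F, d, hd, hF⟩ := hall v (t / (‖u‖ + 1)) (by positivity)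
    refine ⟨F, d, hd, fun x hx hx1 hxF => ?_⟩
    have h := hF x hx hx1 hxF
    have hcs := expect_cs (A := A) (1 : H →L[ℂ] H) x u v
    rw [star_one, one_mul, one_mul, expect_one, one_apply_eq_self, inner_self_eq_norm_sq] at hcs
    rw [show RCLike.re ⟪v, expect A (star x * x) v⟫_ℂ = semi A v x ^ 2 from
      (semi_sq v x).symm, ← mul_pow] at hcs
    have h2 : ‖⟪u, expect A x v⟫_ℂ‖ ≤ ‖u‖ * semi A v x :=
      (abs_le_of_sq_le_sq' hcs (mul_nonneg (norm_nonneg _) (semi_nonneg _ _))).2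
    rw [lt_div_iff₀ (by positivity)] at h
    nlinarith [semi_nonneg (A := A) v x, norm_nonneg u]

theorem separating_of_normalExpectation (hA : IsMasa M A) (hE : HasNormalExpectation M A) :
    SeparatingNormalCentral M A := by
  intro g hgA hgp hg0
  obtain ⟨Φ, hΦA, hΦid, hΦadd, hΦsmul, hΦpos, hΦmod, hΦn⟩ := hE
  obtain ⟨w, hw⟩ := exists_unit_vectors (fun _ : Fin 1 => g) fun _ => ⟨hgp, hg0⟩
  refine ⟨fun x => ⟪w 0, Φ x (w 0)⟫_ℂ, ⟨fun x hx y hy => ?_, fun c x hx => ?_, fun x hx => ?_,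
    fun a ha x hx => ?_, fun t ht => hΦn (w 0) (w 0) t ht⟩, ?_⟩
  · rw [hΦadd x hx y hy, add_apply, inner_add_right]
  · rw [hΦsmul c x hx, smul_apply, inner_smul_right]
  · have h := (hΦpos x hx).inner_nonneg_right (w 0)
    exact h
  · rw [(hΦmod a ha x hx).1, (hΦmod a ha x hx).2, hA.comm _ ha _ (hΦA x hx)]
  · show ⟪w 0, Φ g (w 0)⟫_ℂ ≠ 0
    rw [hΦid g hgA, (hw 0).1, inner_self_eq_norm_sq_to_K, (hw 0).2]
    simp

theorem separating_iff (hA : IsMasa M A) :
    SeparatingNormalCentral M A ↔ HasNormalExpectation M A :=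
  ⟨normalExpectation_of_separating hA, separating_of_normalExpectation hA⟩

theorem quadratic_expectation_iff : QuadraticPavingAll ↔ QuadraticPavingExpectation := by
  refine quadratic_iff.trans ?_
  constructor
  · rintro ⟨C, hC⟩
    exact ⟨C, fun H _ _ _ M A hA hE => hC H M A hA (separating_of_normalExpectation hA hE)⟩
  · rintro ⟨C, hC⟩
    exact ⟨C, fun H _ _ _ M A hA hS => hC H M A hA (normalExpectation_of_separating hA hS)⟩

/-- Below a projection of `A` not killed by a normal central functional, `A` has a nonzero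
projection of finite trace. -/
theorem exists_finite_below {ι : Type} {η : ι → H} (hA : IsMasa M A)
    (htr : ∀ x ∈ M, traceSq η x = traceSq η (star x))
    (hsf : ∀ (F : Finset H) (δ : ℝ), 0 < δ → ∃ q ∈ M, IsStarProjection q ∧ traceSq η q < ⊤ ∧
      ∀ v ∈ F, ‖(1 - q) v‖ < δ)
    {ψ : (H →L[ℂ] H) → ℂ} (hψ : IsNormalCentral M A ψ) {g : H →L[ℂ] H} (hgA : g ∈ A)
    (hgp : IsStarProjection g) (hψg : ψ g ≠ 0) :
    ∃ e ∈ A, IsStarProjection e ∧ e ≠ 0 ∧ g * e = e ∧ traceSq η e < ⊤ := by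
  classical
  by_contra hcon
  have hfin : ∀ e ∈ A, IsStarProjection e → g * e = e → traceSq η e < ⊤ → e = 0 :=
    fun e he hep hge het => by_contra fun h0 => hcon ⟨e, he, hep, h0, hge, het⟩
  have hgM : g ∈ M := hA.le g hgA
  have hEq : ∀ q ∈ M, IsStarProjection q → traceSq η q < ⊤ → g * expect A q = 0 := by
    intro q hqM hq hqt
    have hqq : star q * q = q := by rw [hq.isSelfAdjoint.star_eq, hq.isIdempotentElem.eq]
    obtain ⟨R, hRA, hRs, hR⟩ := expect_pos_sqrt hA hqM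
    have hle : traceSq η R ≤ traceSq η q := by
      unfold traceSq
      rw [ENNReal.tsum_eq_iSup_sum]
      refine iSup_le fun s => ?_
      rw [← ENNReal.ofReal_sum_of_nonneg (fun i _ => sq_nonneg _)]
      have hlim : Tendsto (fun P : FPart A => ∑ i ∈ s, ∑ j, ‖q (P.c j (η i))‖ ^ 2) (pUltra A)
          (𝓝 (∑ i ∈ s, ‖R (η i)‖ ^ 2)) := by
        refine tendsto_finsetSum s fun i _ => ?_
        have h1 := (RCLike.continuous_re.tendsto _).comp
          (tendsto_expect (A := A) (star q * q) (η i) (η i))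
        rw [← semi_eq_norm hRs hR, semi_sq, phi]
        refine h1.congr fun P => ?_
        simp only [Function.comp_apply]
        exact re_inner_D P q (η i)
      refine le_of_tendsto ((ENNReal.continuous_ofReal.tendsto _).comp hlim)
        (Eventually.of_forall fun P => ?_)
      simp only [Function.comp_apply]
      rw [Finset.sum_comm, ENNReal.ofReal_sum_of_nonneg
        (fun j _ => Finset.sum_nonneg fun i _ => sq_nonneg _)]
      calc ∑ j, ENNReal.ofReal (∑ i ∈ s, ‖q (P.c j (η i))‖ ^ 2)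
          ≤ ∑ j, traceSq η (q * P.c j) := Finset.sum_le_sum fun j _ => by
            rw [ENNReal.ofReal_sum_of_nonneg (fun i _ => sq_nonneg _)]
            exact ENNReal.sum_le_tsum s
        _ = ∑ j, traceSq η (P.c j * q) := Finset.sum_congr rfl fun j _ => by
            rw [htr _ (mul_mem hqM (hA.le _ (P.mem j))), star_mul, hq.isSelfAdjoint.star_eq,
              (P.proj j).isSelfAdjoint.star_eq]
        _ = ∑' i, ∑ j, ENNReal.ofReal (‖P.c j (q (η i))‖ ^ 2) :=
            (Summable.tsum_finsetSum fun j _ => ENNReal.summable).symm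
        _ ≤ _ := ENNReal.tsum_le_tsum fun i => by
            rw [← ENNReal.ofReal_sum_of_nonneg (fun j _ => sq_nonneg _)]
            exact ENNReal.ofReal_le_ofReal (sum_norm_sq_le _ P.c (fun j _ => P.proj j)
              (fun j _ k _ => P.orth j k) _)
    have hRt : traceSq η R < ⊤ := lt_of_le_of_lt hle hqt
    have hR0 : R * g = 0 := by
      refine norm_le_zero_iff.1 (le_of_forall_pos_le_add fun t ht => ?_)
      rw [zero_add]
      obtain ⟨k, hkp, hkb, hkc, hkcomm, hkM, -⟩ := exists_cut hRs ht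
      have hkA : k ∈ A := hA.mem_of_commute (hkM M (hA.le R hRA))
        fun a ha => (hkcomm a (hA.comm R hRA a ha)).eq
      have h1 : traceSq η (1 - k) < ⊤ := by
        refine lt_of_le_of_lt (b := ENNReal.ofReal (1 / t ^ 2) * traceSq η R) ?_
          (ENNReal.mul_lt_top ENNReal.ofReal_lt_top hRt)
        unfold traceSq
        rw [← ENNReal.tsum_mul_left]
        refine ENNReal.tsum_le_tsum fun i => ?_
        rw [← ENNReal.ofReal_mul (by positivity)]
        refine ENNReal.ofReal_le_ofReal ?_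
        rw [one_div, inv_mul_eq_div, le_div_iff₀ (by positivity), mul_comm, ← mul_pow]
        exact pow_le_pow_left₀ (by positivity) (hkc (η i)) 2
      have hkA' : 1 - k ∈ A := sub_mem (one_mem A) hkA
      have h1g : traceSq η (g * (1 - k)) < ⊤ :=
        lt_of_le_of_lt (ENNReal.tsum_le_tsum fun i =>
          ENNReal.ofReal_le_ofReal (pow_le_pow_left₀ (norm_nonneg _)
            (proj_apply_norm_le hgp _) 2)) h1
      have h2 := hfin _ (mul_mem hgA hkA') (hgp.mul hkp.one_sub (hA.comm g hgA _ hkA'))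
        (by rw [← mul_assoc, hgp.isIdempotentElem.eq]) h1g
      rw [mul_sub, mul_one, sub_eq_zero, hA.comm g hgA k hkA] at h2
      refine ContinuousLinearMap.opNorm_le_bound _ ht.le fun v => ?_
      rw [h2, mul_apply', mul_apply']
      exact (hkb _).trans (mul_le_mul_of_nonneg_left
        ((proj_apply_norm_le hkp _).trans (proj_apply_norm_le hgp _)) ht.le)
    rw [← hqq, ← hR, ← mul_assoc, hA.comm g hgA R hRA, hR0, zero_mul]
  refine hψg (norm_le_zero_iff.1 (le_of_forall_pos_le_add fun t ht => ?_))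
  obtain ⟨F, d, hd, hF⟩ := hψ.normal t ht
  obtain ⟨q, hqM, hq, hqt, hqd⟩ := hsf F d hd
  have h0 : ψ (g * q) = 0 := by
    rw [← normalCentral_expect hA hψ (mul_mem hgM hqM), expect_mul_left hA hgA,
      hEq q hqM hq hqt, normalCentral_zero hψ]
  have h1 := hF (g * (1 - q)) (mul_mem hgM (sub_mem (one_mem M) hqM))
    ((norm_mul_le _ _).trans (mul_le_one₀ (norm_sa_proj_le hgp) (norm_nonneg _)
      (norm_sa_proj_le hq.one_sub)))
    (fun v hv => lt_of_le_of_lt (proj_apply_norm_le hgp _) (hqd v hv))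
  rw [mul_sub, mul_one, normalCentral_sub hψ hgM (mul_mem hgM hqM), h0, sub_zero] at h1
  linarith

theorem noNormalCentral_of_trace (hA : IsMasa M A) (h : HasTraceWithoutFiniteProjection M A) :
    NoNormalCentral M A := by
  obtain ⟨ι, η, htr, -, hsf, hfin⟩ := h
  intro ψ hψ
  by_contra h0
  obtain ⟨e, he, hep, he0, -, het⟩ :=
    exists_finite_below hA htr hsf hψ (one_mem A) (IsStarProjection.one _) h0
  exact he0 (hfin e he hep het)

end Vale.Agent.P078
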