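import Vale.Agent.P078.Basic

/-!
Orthogonal families of projections and step approximation of self-adjoint elements.
-/

namespace Vale.Agent.P078

open scoped InnerProductSpace
open ContinuousLinearMap

variable {H : Type} [NormedAddCommGroup H] [InnerProductSpace ℂ H] [CompleteSpace H]
variable {ι : Type*}

theorem inner_proj_eq_norm_sq {p : H →L[ℂ] H} (hp : IsStarProjection p) (v : H) :
    ⟪v, p v⟫_ℂ = ((‖p v‖ ^ 2 : ℝ) : ℂ) := by
  have : ⟪p v, p v⟫_ℂ = ⟪v, p v⟫_ℂ := by
    rw [sa_inner hp.isSelfAdjoint, ← mul_apply', hp.isIdempotentElem.eq]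
  rw [← this, inner_self_eq_norm_sq_to_K]
  norm_cast

theorem inner_orth_zero {p q : H →L[ℂ] H} (hp : IsStarProjection p) (h : p * q = 0) (u v : H) :
    ⟪p u, q v⟫_ℂ = 0 := by
  rw [sa_inner hp.isSelfAdjoint, ← mul_apply', h]
  simp

theorem norm_sq_sum_orth (s : Finset ι) (p : ι → (H →L[ℂ] H))
    (hp : ∀ i ∈ s, IsStarProjection (p i)) (ho : ∀ i ∈ s, ∀ j ∈ s, i ≠ j → p i * p j = 0)
    (w : ι → H) : ‖∑ i ∈ s, p i (w i)‖ ^ 2 = ∑ i ∈ s, ‖p i (w i)‖ ^ 2 := by
  classical
  induction s using Finset.induction_on with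
  | empty => simp
  | @insert a s ha ih =>
    rw [Finset.sum_insert ha, Finset.sum_insert ha]
    have h0 : ⟪p a (w a), ∑ i ∈ s, p i (w i)⟫_ℂ = 0 := by
      rw [inner_sum]
      refine Finset.sum_eq_zero fun i hi => inner_orth_zero (hp a (Finset.mem_insert_self _ _)) ?_ _ _
      exact ho a (Finset.mem_insert_self _ _) i (Finset.mem_insert_of_mem hi)
        (fun h => ha (h ▸ hi))
    have := norm_add_sq_eq_norm_sq_add_norm_sq_of_inner_eq_zero (𝕜 := ℂ) _ _ h0
    rw [sq, this, ← sq, ← sq, ih (fun i hi => hp i (Finset.mem_insert_of_mem hi))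
      (fun i hi j hj => ho i (Finset.mem_insert_of_mem hi) j (Finset.mem_insert_of_mem hj))]

theorem isStarProjection_sum_orth (s : Finset ι) (p : ι → (H →L[ℂ] H))
    (hp : ∀ i ∈ s, IsStarProjection (p i)) (ho : ∀ i ∈ s, ∀ j ∈ s, i ≠ j → p i * p j = 0) :
    IsStarProjection (∑ i ∈ s, p i) := by
  classical
  induction s using Finset.induction_on with
  | empty => simp [IsStarProjection.zero]
  | @insert a s ha ih =>
    rw [Finset.sum_insert ha]
    refine (hp a (Finset.mem_insert_self _ _)).add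
      (ih (fun i hi => hp i (Finset.mem_insert_of_mem hi))
        (fun i hi j hj => ho i (Finset.mem_insert_of_mem hi) j (Finset.mem_insert_of_mem hj))) ?_
    rw [Finset.mul_sum]
    exact Finset.sum_eq_zero fun i hi => ho a (Finset.mem_insert_self _ _) i
      (Finset.mem_insert_of_mem hi) (fun h => ha (h ▸ hi))

theorem sum_norm_sq_le (s : Finset ι) (p : ι → (H →L[ℂ] H))
    (hp : ∀ i ∈ s, IsStarProjection (p i)) (ho : ∀ i ∈ s, ∀ j ∈ s, i ≠ j → p i * p j = 0)
    (v : H) : ∑ i ∈ s, ‖p i v‖ ^ 2 ≤ ‖v‖ ^ 2 := by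
  rw [← norm_sq_sum_orth s p hp ho (fun _ => v)]
  have h := proj_apply_norm_le (isStarProjection_sum_orth s p hp ho) v
  rw [sum_apply] at h
  nlinarith [norm_nonneg (∑ i ∈ s, p i v)]

theorem step_induction {b : H →L[ℂ] H} (hb : IsSelfAdjoint b) {η : ℝ} (hη : 0 < η)
    (t : ℕ → ℝ) (N : ℕ) :
    ∃ m : ℕ → (H →L[ℂ] H), (∀ j < N, IsStarProjection (m j)) ∧
      (∀ i < N, ∀ j < N, i ≠ j → m i * m j = 0) ∧
      (∀ j < N, ∀ v, ‖(b - algebraMap ℝ (H →L[ℂ] H) (t j)) (m j v)‖ ≤ η * ‖m j v‖) ∧
      (∀ j < N, ∀ z, Commute b z → Commute (m j) z) ∧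
      (∀ j < N, ∀ V : VonNeumannAlgebra H, b ∈ V → m j ∈ V) ∧
      (∀ v, (∀ j < N, m j v = 0) → ∀ j < N,
        cfc (cutFn η) (b - algebraMap ℝ (H →L[ℂ] H) (t j)) v = v) := by
  induction N with
  | zero => exact ⟨fun _ => 0, by simp, by simp, by simp, by simp, by simp, by simp⟩
  | succ N ih =>
    obtain ⟨m, hp, ho, hbd, hc, hV, hrest⟩ := ih
    obtain ⟨k, kp, kbd, -, kc, kV, kfix⟩ := exists_cut (Y := b - algebraMap ℝ (H →L[ℂ] H) (t N))
      (hb.sub (IsSelfAdjoint.algebraMap _ (IsSelfAdjoint.all _))) hη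
    have hbb : Commute (b - algebraMap ℝ (H →L[ℂ] H) (t N)) b :=
      (Commute.refl b).sub_left (Algebra.commutes _ _)
    have hkm : ∀ j < N, Commute k (m j) := fun j hj => (hc j hj k (kc b hbb).symm).symm
    obtain ⟨R, hR⟩ : ∃ R : H →L[ℂ] H, R = 1 - ∑ j ∈ Finset.range N, m j := ⟨_, rfl⟩
    have hRp : IsStarProjection R := hR ▸ (isStarProjection_sum_orth _ m
      (fun i hi => hp i (Finset.mem_range.1 hi))
      (fun i hi j hj => ho i (Finset.mem_range.1 hi) j (Finset.mem_range.1 hj))).one_sub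
    have hRk : Commute R k := hR ▸ (Commute.one_left k).sub_left
      (Commute.sum_left _ _ _ fun j hj => (hkm j (Finset.mem_range.1 hj)).symm)
    have hmR : ∀ j < N, m j * R = 0 := by
      intro j hj
      rw [hR, mul_sub, mul_one, Finset.mul_sum, Finset.sum_eq_single j]
      · rw [(hp j hj).isIdempotentElem.eq, sub_self]
      · exact fun i hi hij => ho j hj i (Finset.mem_range.1 hi) (Ne.symm hij)
      · simp [hj]
    have hRm : ∀ j < N, R * m j = 0 := by
      intro j hj
      have := congrArg star (hmR j hj)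
      rwa [star_mul, (hp j hj).isSelfAdjoint.star_eq, hRp.isSelfAdjoint.star_eq, star_zero] at this
    have hnew : ∀ z, Commute b z → Commute (R * k) z := fun z hz =>
      ((hR ▸ (Commute.one_left z).sub_left
        (Commute.sum_left _ _ _ fun j hj => hc j (Finset.mem_range.1 hj) z hz) : Commute R z)).mul_left
        (kc z (hz.sub_left (Algebra.commutes _ _)))
    refine ⟨Function.update m N (R * k), ?_, ?_, ?_, ?_, ?_, ?_⟩
    · intro j hj
      rcases Nat.lt_succ_iff_lt_or_eq.1 hj with hj | rfl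
      · rw [Function.update_of_ne hj.ne]; exact hp j hj
      · rw [Function.update_self]
        exact hRp.mul kp hRk
    · intro i hi j hj hij
      rcases Nat.lt_succ_iff_lt_or_eq.1 hi with hi | rfl
      · rcases Nat.lt_succ_iff_lt_or_eq.1 hj with hj | rfl
        · rw [Function.update_of_ne hi.ne, Function.update_of_ne hj.ne]; exact ho i hi j hj hij
        · rw [Function.update_of_ne hi.ne, Function.update_self, ← mul_assoc, hmR i hi, zero_mul]
      · rcases Nat.lt_succ_iff_lt_or_eq.1 hj with hj | rfl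
        · rw [Function.update_of_ne hj.ne, Function.update_self, hRk.eq, mul_assoc, hRm j hj,
            mul_zero]
        · exact absurd rfl hij
    · intro j hj v
      rcases Nat.lt_succ_iff_lt_or_eq.1 hj with hj | rfl
      · rw [Function.update_of_ne hj.ne]; exact hbd j hj v
      · rw [Function.update_self, hRk.eq, mul_apply']
        exact kbd (R v)
    · intro j hj z hz
      rcases Nat.lt_succ_iff_lt_or_eq.1 hj with hj | rfl
      · rw [Function.update_of_ne hj.ne]; exact hc j hj z hz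
      · rw [Function.update_self]; exact hnew z hz
    · intro j hj V hbV
      rcases Nat.lt_succ_iff_lt_or_eq.1 hj with hj | rfl
      · rw [Function.update_of_ne hj.ne]; exact hV j hj V hbV
      · rw [Function.update_self]
        refine mul_mem (hR ▸ sub_mem (one_mem V) (sum_mem fun i hi =>
          hV i (Finset.mem_range.1 hi) V hbV)) (kV V (sub_mem hbV ?_))
        rw [Algebra.algebraMap_eq_smul_one, ← Complex.coe_smul]
        exact vn_smul_mem _ (one_mem V)
    · intro v hv
      have h1 : ∀ i < N, m i v = 0 := fun i hi => by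
        have := hv i (Nat.lt_succ_of_lt hi)
        rwa [Function.update_of_ne hi.ne] at this
      intro j hj
      rcases Nat.lt_succ_iff_lt_or_eq.1 hj with hj | rfl
      · exact hrest v h1 j hj
      · have h2 := hv j hj
        rw [Function.update_self, hRk.eq, mul_apply'] at h2
        have hRv : R v = v := by
          rw [hR, sub_apply, sum_apply, Finset.sum_eq_zero fun i hi => h1 i (Finset.mem_range.1 hi)]
          simp
        rw [hRv] at h2
        exact kfix v h2

/-- Step approximation of a self-adjoint element by projections commuting with its commutant. -/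
theorem exists_step_approx {b : H →L[ℂ] H} (hb : IsSelfAdjoint b) {η : ℝ} (hη : 0 < η)
    (lo : ℝ) (hlo : ∀ x ∈ spectrum ℝ b, lo ≤ x) :
    ∃ (N : ℕ) (t : Fin N → ℝ) (m : Fin N → (H →L[ℂ] H)),
      (∀ j, lo ≤ t j) ∧ (∀ j, IsStarProjection (m j)) ∧ (∀ i j, i ≠ j → m i * m j = 0) ∧
      (∑ j, m j = 1) ∧ ‖b - ∑ j, (t j : ℂ) • m j‖ ≤ η ∧
      (∀ j z, Commute b z → Commute (m j) z) ∧
      (∀ j (V : VonNeumannAlgebra H), b ∈ V → m j ∈ V) := by
  obtain ⟨hi, hhi⟩ := (spectrum.isBounded (𝕜 := ℝ) b).bddAbove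
  obtain ⟨N, hN⟩ := exists_nat_gt ((hi - lo) / η)
  obtain ⟨m, hp, ho, hbd, hc, hV, hrest⟩ :=
    step_induction hb hη (fun j => lo + j * η) (N + 1)
  obtain ⟨S, hS⟩ : ∃ S : H →L[ℂ] H, S = ∑ j : Fin (N + 1), m j := ⟨_, rfl⟩
  have hSp : IsStarProjection S := hS ▸ isStarProjection_sum_orth _ _
    (fun i _ => hp i i.2) (fun i _ j _ hij => ho i i.2 j j.2 (fun h => hij (Fin.ext h)))
  have hmS : ∀ j : Fin (N + 1), m j * S = m j := by
    intro j
    rw [hS, Finset.mul_sum, Finset.sum_eq_single j]
    · exact (hp j j.2).isIdempotentElem.eq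
    · exact fun i _ hij => ho j j.2 i i.2 (fun h => hij (Fin.ext h.symm))
    · simp
  have hS1 : S = 1 := by
    let f : ℝ → ℝ := fun x => ∑ j ∈ Finset.range (N + 1), (1 - cutFn η (x - (lo + j * η)))
    have hfc : ∀ j : ℕ, Continuous fun x => 1 - cutFn η (x - (lo + j * η)) := fun j =>
      continuous_const.sub ((continuous_cutFn hη).comp (by fun_prop))
    have hfsum : Continuous f := continuous_finsetSum _ fun j _ => hfc j
    have hpos : ∀ x ∈ spectrum ℝ b, f x ≠ 0 := by
      intro x hx
      have hnn : ∀ j ∈ Finset.range (N + 1), 0 ≤ 1 - cutFn η (x - (lo + j * η)) := by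
        intro j _
        rw [sub_nonneg]
        unfold cutFn
        rw [div_le_one (max_sq_pos hη _)]
        exact le_max_left _ _
      have h0 : 0 ≤ (x - lo) / η := div_nonneg (sub_nonneg.2 (hlo x hx)) hη.le
      obtain ⟨i, hi'⟩ : ∃ i, i = ⌊(x - lo) / η⌋₊ := ⟨_, rfl⟩
      have hiN : i < N + 1 := by
        have h1 : (i : ℝ) ≤ (x - lo) / η := hi' ▸ Nat.floor_le h0
        have h2 : (x - lo) / η ≤ (hi - lo) / η :=
          div_le_div_of_nonneg_right (by linarith [hhi hx]) hη.le
        have : (i : ℝ) < N + 1 := by linarith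
        exact_mod_cast this
      have hlt : 0 < 1 - cutFn η (x - (lo + i * η)) := by
        have h1 : (i : ℝ) * η ≤ x - lo := by
          have := hi' ▸ Nat.floor_le h0
          rwa [le_div_iff₀ hη] at this
        have h2 : x - lo < ((i : ℝ) + 1) * η := by
          have := hi' ▸ Nat.lt_floor_add_one ((x - lo) / η)
          rwa [div_lt_iff₀ hη] at this
        have hsq : (x - (lo + i * η)) ^ 2 < η ^ 2 := by nlinarith
        rw [sub_pos]
        unfold cutFn
        rw [div_lt_one (max_sq_pos hη _), max_eq_right hsq.le]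
        exact hsq
      exact ne_of_gt (lt_of_lt_of_le hlt
        (Finset.single_le_sum hnn (Finset.mem_range.2 hiN)))
    have hunit : IsUnit (cfc f b) := (isUnit_cfc_iff f b hfsum.continuousOn hb).2 hpos
    ext v
    have hz : ∀ j < N + 1, m j ((1 - S) v) = 0 := by
      intro j hj
      rw [← mul_apply', mul_sub, mul_one, hmS ⟨j, hj⟩]
      simp
    have hfix := hrest _ hz
    have hfb : cfc f b ((1 - S) v) = 0 := by
      have e : cfc f b = ∑ j ∈ Finset.range (N + 1),
          cfc (fun x => 1 - cutFn η (x - (lo + j * η))) b := by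
        rw [← cfc_sum _ _ _ fun j _ => (hfc j).continuousOn]
        exact cfc_congr fun x _ => by simp [f, Finset.sum_apply]
      rw [e, sum_apply]
      refine Finset.sum_eq_zero fun j hj => ?_
      have e2 : cfc (fun x => 1 - cutFn η (x - (lo + j * η))) b
          = 1 - cfc (cutFn η) (b - algebraMap ℝ (H →L[ℂ] H) (lo + j * η)) := by
        rw [cfc_sub (fun _ => (1 : ℝ)) (fun x => cutFn η (x - (lo + j * η))) b
            continuous_const.continuousOn
            ((continuous_cutFn hη).comp (by fun_prop)).continuousOn,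
          cfc_const_one ℝ b, cfc_comp' (cutFn η) (fun x => x - (lo + j * η)) b
            (continuous_cutFn hη).continuousOn (by fun_prop),
          cfc_sub (fun x => x) (fun _ => lo + j * η) b, cfc_id' ℝ b, cfc_const _ b]
      rw [e2, sub_apply, hfix j (Finset.mem_range.1 hj)]
      simp
    obtain ⟨u, hu⟩ := hunit
    have h4 := congrArg (fun T : H →L[ℂ] H => T ((1 - S) v))
      (show (↑u⁻¹ : H →L[ℂ] H) * cfc f b = 1 by rw [← hu]; simp)
    simp only [mul_apply'] at h4
    rw [hfb, map_zero] at h4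
    have : (1 - S) v = 0 := h4.symm
    simp only [sub_apply, sub_eq_zero] at this
    exact this.symm
  refine ⟨N + 1, fun j => lo + j * η, fun j => m j, fun j => ?_, fun j => hp j j.2,
    fun i j hij => ho i i.2 j j.2 (fun h => hij (Fin.ext h)), hS ▸ hS1, ?_,
    fun j => hc j j.2, fun j => hV j j.2⟩
  · have : (0 : ℝ) ≤ (j : ℕ) * η := by positivity
    linarith
  · refine ContinuousLinearMap.opNorm_le_bound _ hη.le fun v => ?_
    have hcomm : ∀ j : Fin (N + 1), Commute (m j) b := fun j => hc j j.2 b (Commute.refl b)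
    have e : (b - ∑ j : Fin (N + 1), ((lo + j * η : ℝ) : ℂ) • m j) v
        = ∑ j : Fin (N + 1), (b - algebraMap ℝ (H →L[ℂ] H) (lo + j * η)) (m j v) := by
      rw [sub_apply, sum_apply]
      have hb' : b v = ∑ j : Fin (N + 1), b (m j v) := by
        rw [← map_sum, ← sum_apply, ← hS, hS1]; rfl
      rw [hb', ← Finset.sum_sub_distrib]
      refine Finset.sum_congr rfl fun j _ => ?_
      simp [Algebra.algebraMap_eq_smul_one]
      rw [← Complex.coe_smul (lo + ((j : ℕ) : ℝ) * η)]
      push_cast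
      rfl
    have e2 : ∀ j : Fin (N + 1), (b - algebraMap ℝ (H →L[ℂ] H) (lo + j * η)) (m j v)
        = m j ((b - algebraMap ℝ (H →L[ℂ] H) (lo + j * η)) v) := by
      intro j
      have := congrArg (fun T : H →L[ℂ] H => T v)
        ((hcomm j).sub_right (Algebra.commutes (lo + j * η) (m j)).symm).eq
      simpa [mul_apply'] using this.symm
    have hsq : ‖(b - ∑ j : Fin (N + 1), ((lo + j * η : ℝ) : ℂ) • m j) v‖ ^ 2
        ≤ (η * ‖v‖) ^ 2 := by
      rw [e, Finset.sum_congr rfl fun j _ => e2 j, norm_sq_sum_orth _ (fun j : Fin (N + 1) => m j)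
        (fun j _ => hp j j.2) (fun i _ j _ hij => ho i i.2 j j.2 (fun h => hij (Fin.ext h)))]
      calc _ ≤ ∑ j : Fin (N + 1), η ^ 2 * ‖m j v‖ ^ 2 := Finset.sum_le_sum fun j _ => by
            rw [← e2 j, ← mul_pow]
            exact pow_le_pow_left₀ (norm_nonneg _) (hbd j j.2 v) 2
        _ ≤ η ^ 2 * ‖v‖ ^ 2 := by
            rw [← Finset.mul_sum]
            exact mul_le_mul_of_nonneg_left (sum_norm_sq_le _ (fun j : Fin (N + 1) => m j)
              (fun j _ => hp j j.2) (fun i _ j _ hij => ho i i.2 j j.2 (fun h => hij (Fin.ext h))) v)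
              (by positivity)
        _ = (η * ‖v‖) ^ 2 := by ring
    exact (abs_le_of_sq_le_sq' hsq (by positivity)).2

end Vale.Agent.P078
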