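import Vale.Agent.P078.Colour

/-!
Paving from small compressions.
-/

namespace Vale.Agent.P078

open scoped InnerProductSpace
open Filter Topology ContinuousLinearMap

variable {H : Type} [NormedAddCommGroup H] [InnerProductSpace ℂ H] [CompleteSpace H]
variable {M : VonNeumannAlgebra H} {A : StarSubalgebra ℂ (H →L[ℂ] H)}

/-- Below `f` there are projections close to `f` at finitely many vectors that are uniformly small
on all cells of some partition. -/
def SmallCompression (M : VonNeumannAlgebra H) (A : StarSubalgebra ℂ (H →L[ℂ] H))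
    (f : H →L[ℂ] H) : Prop :=
  ∀ F : Finset H, ∀ δ : ℝ, 0 < δ → ∀ η : ℝ, 0 < η → ∃ q ∈ M, IsStarProjection q ∧ q * f = q ∧
    (∃ P : FPart A, ∀ L, ‖P.c L * q‖ ≤ η) ∧ ∀ ξ ∈ F, ‖(f - q) ξ‖ < δ

theorem norm_star_proj_mul {p q : H →L[ℂ] H} (hp : IsStarProjection p) (hq : IsStarProjection q) :
    ‖q * p‖ = ‖p * q‖ := by
  rw [← norm_star, star_mul, hp.isSelfAdjoint.star_eq, hq.isSelfAdjoint.star_eq]

theorem norm_sandwich_le (P : FPart A) {q : H →L[ℂ] H} (hq : IsStarProjection q) {η : ℝ}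
    (h : ∀ L, ‖P.c L * q‖ ≤ η) (L : P.ι) (y : H) : ‖q (P.c L y)‖ ≤ η * ‖P.c L y‖ := by
  have e : q (P.c L y) = (q * P.c L) (P.c L y) := by
    rw [mul_apply', ← mul_apply' (P.c L) (P.c L), (P.proj L).isIdempotentElem.eq]
  rw [e]
  exact le_trans ((q * P.c L).le_opNorm _)
    (mul_le_mul_of_nonneg_right (norm_star_proj_mul (P.proj L) hq ▸ h L) (norm_nonneg _))

/-- Glue a partition from choices of finer partitions inside each cell. -/
noncomputable def glue (hA : IsMasa M A) (P : FPart A) (Q : P.ι → FPart A) : FPart A where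
  ι := Σ L : P.ι, (Q L).ι
  fin := inferInstance
  c := fun x => P.c x.1 * (Q x.1).c x.2
  mem := fun x => mul_mem (P.mem _) ((Q _).mem _)
  proj := fun x => (P.proj _).mul ((Q _).proj _) (hA.comm _ (P.mem _) _ ((Q _).mem _))
  orth := fun x y h => by
    have e : P.c x.1 * (Q x.1).c x.2 * (P.c y.1 * (Q y.1).c y.2)
        = P.c x.1 * P.c y.1 * ((Q x.1).c x.2 * (Q y.1).c y.2) := by
      rw [mul_assoc, mul_assoc, ← mul_assoc ((Q x.1).c x.2),
        hA.comm _ ((Q x.1).mem x.2) _ (P.mem y.1), mul_assoc]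
    rw [e]
    obtain ⟨L, i⟩ := x
    obtain ⟨L', j⟩ := y
    by_cases h1 : L = L'
    · subst h1
      rw [(Q L).orth i j (fun h2 => h (by subst h2; rfl)), mul_zero]
    · rw [P.orth L L' h1, zero_mul]
  sum_eq := by
    rw [Fintype.sum_sigma]
    simp only [← Finset.mul_sum, (Q _).sum_eq, mul_one, P.sum_eq]

theorem glue_D (hA : IsMasa M A) (P : FPart A) (Q : P.ι → FPart A) (x : H →L[ℂ] H) :
    (glue hA P Q).D x = ∑ L, P.c L * (Q L).D x * P.c L := by
  show ∑ y : (Σ L : P.ι, (Q L).ι), P.c y.1 * (Q y.1).c y.2 * x * (P.c y.1 * (Q y.1).c y.2) = _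
  rw [Fintype.sum_sigma]
  refine Finset.sum_congr rfl fun L _ => ?_
  simp only [FPart.D, Finset.mul_sum, Finset.sum_mul]
  refine Finset.sum_congr rfl fun i _ => ?_
  show P.c L * (Q L).c i * x * (P.c L * (Q L).c i) = _
  conv_lhs => arg 2; rw [hA.comm _ (P.mem L) _ ((Q L).mem i)]
  simp only [mul_assoc]

theorem norm_glue_le (hA : IsMasa M A) (P : FPart A) (Q : P.ι → FPart A) {q : H →L[ℂ] H} {η : ℝ}
    (h : ∀ L, ‖P.c L * q‖ ≤ η) (y : (glue hA P Q).ι) : ‖(glue hA P Q).c y * q‖ ≤ η := by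
  show ‖P.c y.1 * (Q y.1).c y.2 * q‖ ≤ η
  rw [hA.comm _ (P.mem _) _ ((Q _).mem _), mul_assoc]
  refine le_trans (norm_mul_le _ _) ?_
  have h1 : ‖(Q y.1).c y.2‖ ≤ 1 := ContinuousLinearMap.opNorm_le_bound _ zero_le_one
    fun v => by simpa using proj_apply_norm_le ((Q y.1).proj y.2) v
  calc _ ≤ 1 * ‖P.c y.1 * q‖ := mul_le_mul_of_nonneg_right h1 (norm_nonneg _)
    _ ≤ η := by rw [one_mul]; exact h _

theorem expect_eq_sum_cells (hA : IsMasa M A) (P : FPart A) {a : H →L[ℂ] H} (ha : a ∈ A) :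
    a = ∑ L, P.c L * a * P.c L := by
  calc a = ∑ L, P.c L * a := by rw [← Finset.sum_mul, P.sum_eq, one_mul]
    _ = _ := Finset.sum_congr rfl fun L _ => by
      rw [mul_assoc, hA.comm _ ha _ (P.mem L), ← mul_assoc, (P.proj L).isIdempotentElem.eq]

/-- Piecewise refinement making the compressed pinching strongly close to the expectation. -/
theorem exists_refine (hA : IsMasa M A) {q : H →L[ℂ] H} (hq : IsStarProjection q) {η : ℝ}
    (P : FPart A) (hP : ∀ L, ‖P.c L * q‖ ≤ η) {x : H →L[ℂ] H} (hx : x ∈ M) (F : Finset H)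
    {μ : ℝ} (hμ : 0 < μ) :
    ∃ Q : FPart A, (∀ L, ‖Q.c L * q‖ ≤ η) ∧
      ∀ ξ ∈ F, ‖q ((Q.D x - expect A x) (q ξ))‖ ^ 2 ≤ (2 * ‖x‖ * η * ‖ξ‖) ^ 2 + μ := by
  classical
  obtain ⟨E, hE⟩ : ∃ E : H →L[ℂ] H, E = expect A x := ⟨_, rfl⟩
  obtain ⟨T, hT⟩ : ∃ T : P.ι → FPart A → H → H,
      ∀ L Q ξ, T L Q ξ = q (P.c L ((Q.D x - E) (P.c L (q ξ)))) := ⟨_, fun _ _ _ => rfl⟩
  have hTn : ∀ L Q ξ, ‖T L Q ξ‖ ≤ 2 * ‖x‖ * η * ‖P.c L (q ξ)‖ := by
    intro L Q ξ
    rw [hT]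
    refine le_trans (norm_sandwich_le P hq hP L _) ?_
    have hη : 0 ≤ η := le_trans (norm_nonneg _) (hP L)
    have h1 : ‖(Q.D x - E) (P.c L (q ξ))‖ ≤ 2 * ‖x‖ * ‖P.c L (q ξ)‖ := by
      rw [sub_apply]
      refine le_trans (norm_sub_le _ _) ?_
      have := Q.norm_D_apply x (P.c L (q ξ))
      have := le_trans (E.le_opNorm (P.c L (q ξ)))
        (mul_le_mul_of_nonneg_right (hE ▸ expect_norm_le x) (norm_nonneg _))
      linarith
    calc η * ‖P.c L ((Q.D x - E) (P.c L (q ξ)))‖ ≤ η * (2 * ‖x‖ * ‖P.c L (q ξ)‖) :=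
          mul_le_mul_of_nonneg_left (le_trans (proj_apply_norm_le (P.proj L) _) h1) hη
      _ = _ := by ring
  obtain ⟨μ₀, hμ₀def⟩ : ∃ μ₀ : ℝ, μ₀ = μ / (Fintype.card P.ι + 1) := ⟨_, rfl⟩
  have hμ₀ : 0 < μ₀ := hμ₀def ▸ div_pos hμ (by positivity)
  have key : ∀ s : Finset P.ι, ∃ Q : P.ι → FPart A, ∀ ξ ∈ F,
      ‖∑ L ∈ s, T L (Q L) ξ‖ ^ 2 ≤ ∑ L ∈ s, ‖T L (Q L) ξ‖ ^ 2 + s.card * μ₀ := by
    intro s
    induction s using Finset.induction_on with
    | empty => exact ⟨fun _ => FPart.triv, fun ξ _ => by simp⟩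
    | @insert a s ha ih =>
      obtain ⟨Q, hQ⟩ := ih
      have hev : ∀ᶠ R in pUltra A, ∀ ξ ∈ F,
          ‖⟪∑ L ∈ s, T L (Q L) ξ, T a R ξ⟫_ℂ‖ < μ₀ / 2 := by
        refine (eventually_all_finset F).2 fun ξ _ => ?_
        set w := ∑ L ∈ s, T L (Q L) ξ
        have e : ∀ R : FPart A, ⟪w, T a R ξ⟫_ℂ
            = ⟪P.c a (q w), R.D x (P.c a (q ξ))⟫_ℂ - ⟪P.c a (q w), E (P.c a (q ξ))⟫_ℂ := by
          intro R
          rw [hT, ← sa_inner hq.isSelfAdjoint, ← sa_inner (P.proj a).isSelfAdjoint, sub_apply,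
            inner_sub_right]
        have hlim : Tendsto (fun R : FPart A => ⟪w, T a R ξ⟫_ℂ) (pUltra A) (𝓝 0) := by
          simp only [e]
          have := (tendsto_expect (A := A) x (P.c a (q w)) (P.c a (q ξ))).sub_const
            (⟪P.c a (q w), E (P.c a (q ξ))⟫_ℂ)
          rwa [← hE, sub_self] at this
        have hn := hlim.norm
        rw [norm_zero] at hn
        exact hn.eventually (gt_mem_nhds (by linarith))
      obtain ⟨R, hR⟩ := hev.exists
      refine ⟨Function.update Q a R, fun ξ hξ => ?_⟩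
      have hs : ∀ L ∈ s, Function.update Q a R L = Q L := fun L hL =>
        Function.update_of_ne (fun h => ha (by subst h; exact hL)) _ _
      rw [Finset.sum_insert ha, Finset.sum_insert ha, Finset.card_insert_of_notMem ha]
      simp only [Function.update_self]
      rw [Finset.sum_congr rfl fun L hL => show T L (Function.update Q a R L) ξ = T L (Q L) ξ by
        rw [hs L hL]]
      rw [Finset.sum_congr rfl fun L hL => show ‖T L (Function.update Q a R L) ξ‖ ^ 2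
        = ‖T L (Q L) ξ‖ ^ 2 by rw [hs L hL]]
      rw [add_comm (T a R ξ), norm_add_sq (𝕜 := ℂ)]
      have h1 := hQ ξ hξ
      have h2 : RCLike.re ⟪∑ L ∈ s, T L (Q L) ξ, T a R ξ⟫_ℂ ≤ μ₀ / 2 :=
        le_trans (RCLike.re_le_norm _) (hR ξ hξ).le
      push_cast
      linarith
  obtain ⟨Q, hQ⟩ := key Finset.univ
  refine ⟨glue hA P Q, norm_glue_le hA P Q hP, fun ξ hξ => ?_⟩
  have e : q (((glue hA P Q).D x - expect A x) (q ξ)) = ∑ L, T L (Q L) ξ := by
    rw [glue_D, ← hE]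
    conv_lhs => rw [expect_eq_sum_cells hA P (hE ▸ expect_mem hA hx : E ∈ A)]
    rw [← Finset.sum_sub_distrib, sum_apply, map_sum]
    refine Finset.sum_congr rfl fun L _ => ?_
    rw [hT]
    simp only [sub_apply, mul_apply', map_sub]
  rw [e]
  refine le_trans (hQ ξ hξ) ?_
  have h1 : ∑ L, ‖T L (Q L) ξ‖ ^ 2 ≤ (2 * ‖x‖ * η * ‖ξ‖) ^ 2 := by
    refine le_trans (Finset.sum_le_sum fun L _ =>
      pow_le_pow_left₀ (norm_nonneg _) (hTn L (Q L) ξ) 2) ?_
    simp only [mul_pow _ (‖P.c _ (q ξ)‖), ← Finset.mul_sum]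
    rw [mul_pow (2 * ‖x‖ * η) ‖ξ‖]
    refine mul_le_mul_of_nonneg_left (le_trans
      (sum_norm_sq_le _ P.c (fun i _ => P.proj i) (fun i _ j _ => P.orth i j) (q ξ)) ?_)
      (by positivity)
    exact pow_le_pow_left₀ (norm_nonneg _) (proj_apply_norm_le hq ξ) 2
  have h2 : ((Finset.univ : Finset P.ι).card : ℝ) * μ₀ ≤ μ := by
    rw [hμ₀def, Finset.card_univ, ← mul_div_assoc, div_le_iff₀ (by positivity)]
    nlinarith
  linarith

theorem sum_sandwich_sq_le {n : ℕ} (c : Fin n → (H →L[ℂ] H)) (hp : ∀ i, IsStarProjection (c i))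
    (ho : ∀ i j, i ≠ j → c i * c j = 0) {q : H →L[ℂ] H} (hq : IsStarProjection q) {η : ℝ}
    (hη : ∀ i, ∀ y, ‖q (c i y)‖ ≤ η * ‖c i y‖) (x : H →L[ℂ] H) (ξ : H) :
    ∑ k, ∑ l, ‖q (c k (x (c l (q ξ))))‖ ^ 2 ≤ η ^ 2 * ‖x‖ ^ 2 * ‖ξ‖ ^ 2 := by
  rw [Finset.sum_comm]
  calc _ ≤ ∑ l, η ^ 2 * ‖x‖ ^ 2 * ‖c l (q ξ)‖ ^ 2 := Finset.sum_le_sum fun l _ => by
        calc _ ≤ ∑ k, η ^ 2 * ‖c k (x (c l (q ξ)))‖ ^ 2 := Finset.sum_le_sum fun k _ => by
              rw [← mul_pow]; exact pow_le_pow_left₀ (norm_nonneg _) (hη k _) 2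
          _ ≤ η ^ 2 * ‖x (c l (q ξ))‖ ^ 2 := by
              rw [← Finset.mul_sum]
              exact mul_le_mul_of_nonneg_left (sum_norm_sq_le _ c (fun i _ => hp i)
                (fun i _ j _ => ho i j) _) (by positivity)
          _ ≤ _ := by
              rw [mul_assoc, ← mul_pow ‖x‖]
              exact mul_le_mul_of_nonneg_left
                (pow_le_pow_left₀ (norm_nonneg _) (x.le_opNorm _) 2) (by positivity)
    _ ≤ _ := by
        rw [← Finset.mul_sum]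
        exact mul_le_mul_of_nonneg_left (le_trans (sum_norm_sq_le _ c (fun i _ => hp i)
          (fun i _ j _ => ho i j) _) (pow_le_pow_left₀ (norm_nonneg _) (proj_apply_norm_le hq ξ) 2))
          (by positivity)

omit [CompleteSpace H] in
theorem pinching_decomp {r n : ℕ} (c : Fin n → (H →L[ℂ] H)) (hs : ∑ i, c i = 1) (x : H →L[ℂ] H)
    (col : Fin n → Fin r) (v : H) :
    pinching (fun i => ∑ k with col k = i, c k) x v
      = ((1 - 1 / (r : ℂ)) • ∑ k, c k * x * c k) v + ((1 / (r : ℂ)) • x) v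
        + fluct (fun k l => c k (x (c l v))) col := by
  classical
  have hL : pinching (fun i => ∑ k with col k = i, c k) x v
      = ∑ k, ∑ l, if col k = col l then c k (x (c l v)) else 0 := by
    simp only [pinching, sum_apply, mul_apply', map_sum]
    rw [← Finset.sum_fiberwise Finset.univ col (fun k => ∑ l, if col k = col l then c k (x (c l v)) else 0)]
    refine Finset.sum_congr rfl fun i _ => ?_
    rw [Finset.sum_comm]
    refine Finset.sum_congr rfl fun k hk => ?_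
    rw [Finset.sum_filter]
    refine Finset.sum_congr rfl fun l _ => ?_
    rw [(Finset.mem_filter.1 hk).2]
    simp only [eq_comm]
  have hx : x v = ∑ k, ∑ l, c k (x (c l v)) := by
    calc x v = ((∑ k, c k) * x * ∑ l, c l) v := by rw [hs, one_mul, mul_one]
      _ = _ := by simp only [mul_apply', sum_apply, map_sum]; rw [Finset.sum_comm]
  have hd : (∑ k, c k * x * c k) v = ∑ k, ∑ l, if k = l then c k (x (c l v)) else 0 := by
    simp [sum_apply]
  rw [hL, smul_apply, smul_apply, hx, hd]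
  unfold fluct
  simp only [Finset.smul_sum, ← Finset.sum_add_distrib]
  refine Finset.sum_congr rfl fun k _ => Finset.sum_congr rfl fun l _ => ?_
  by_cases hkl : k = l
  · subst hkl
    simp only [if_true, add_zero]
    rw [← add_smul, sub_add_cancel, one_smul]
  · rw [if_neg hkl, if_neg hkl, smul_zero, zero_add]
    by_cases hc : col k = col l
    · simp only [hc, if_true, colFn]
      push_cast
      rw [← add_smul, add_sub_cancel, one_smul]
    · simp only [colFn, if_neg hc]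
      push_cast
      rw [← add_smul, zero_sub, add_neg_cancel, zero_smul]

/-- The main paving step below `f`. -/
theorem pave_below (hA : IsMasa M A) {f : H →L[ℂ] H} (hf : f ∈ A) (hfp : IsStarProjection f)
    (hS : SmallCompression M A f) {x : H →L[ℂ] H} (hx : x ∈ M) (hxs : IsSelfAdjoint x)
    {ε : ℝ} {r : ℕ} (hr : (1 : ℝ) / r < ε) (hr0 : r ≠ 0) (F : Finset H) {δ : ℝ} (hδ : 0 < δ) :
    ∃ p : Fin r → (H →L[ℂ] H), (∀ i, p i ∈ A) ∧ (∀ i, IsStarProjection (p i)) ∧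
      (∀ i j, i ≠ j → p i * p j = 0) ∧ (∑ i, p i = f) ∧
      ∃ a ∈ A, IsSelfAdjoint a ∧ ‖a‖ ≤ ‖x‖ ∧ f * a = a ∧
      ∃ q ∈ M, IsStarProjection q ∧ q * f = q ∧ (∀ ξ ∈ F, ‖(f - q) ξ‖ < δ) ∧
        ‖q * (pinching p x - a) * q‖ ≤ ε * ‖x‖ := by
  classical
  rcases eq_or_ne x 0 with hx0 | hx0
  · refine ⟨fun i => if i = ⟨0, Nat.pos_of_ne_zero hr0⟩ then f else 0,
      fun i => by dsimp only; split_ifs <;> simp [hf, zero_mem],
      fun i => by dsimp only; split_ifs <;> simp [hfp, IsStarProjection.zero],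
      fun i j h => by dsimp only; split_ifs <;> simp_all, by simp,
      0, zero_mem _, IsSelfAdjoint.zero _, by simp, by simp,
      f, hA.le f hf, hfp, hfp.isIdempotentElem.eq, fun ξ _ => by simpa using hδ, ?_⟩
    subst hx0
    simp [pinching]
  have hX : 0 < ‖x‖ := norm_pos_iff.2 hx0
  obtain ⟨θ, hθdef⟩ : ∃ θ : ℝ, θ = (ε - 1 / r) * ‖x‖ := ⟨_, rfl⟩
  have hθ : 0 < θ := hθdef ▸ mul_pos (by linarith) hX
  obtain ⟨K, hKdef⟩ : ∃ K : ℝ, K = ∑ ξ ∈ F, ‖ξ‖ ^ 2 + 1 := ⟨_, rfl⟩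
  have hK : 0 < K := by rw [hKdef]; positivity
  obtain ⟨C, hCdef⟩ : ∃ C : ℝ, C = 2 * (2 * ‖x‖ ^ 2 * K) + 2 * (4 * ‖x‖ ^ 2 * K + 1) := ⟨_, rfl⟩
  have hC : 0 < C := by rw [hCdef]; positivity
  obtain ⟨η, hηdef⟩ : ∃ η : ℝ, η = θ * (δ / 2) / (C + 1) := ⟨_, rfl⟩
  have hη : 0 < η := by rw [hηdef]; positivity
  obtain ⟨q, hqM, hqp, hqf, ⟨P, hP⟩, hqF⟩ := hS F (δ / 2) (by linarith) η hη
  obtain ⟨Q, hQη, hQ⟩ := exists_refine hA hqp P hP hx F (pow_pos hη 2)
  obtain ⟨n, e⟩ : ∃ n : ℕ, Nonempty (Fin n ≃ Q.ι) := ⟨_, ⟨(Fintype.equivFin Q.ι).symm⟩⟩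
  obtain ⟨e⟩ := e
  have hcp : ∀ k, IsStarProjection (Q.c (e k)) := fun k => Q.proj _
  have hco : ∀ k l, k ≠ l → Q.c (e k) * Q.c (e l) = 0 := fun k l h => Q.orth _ _ (e.injective.ne h)
  have hcs : ∑ k, Q.c (e k) = 1 := by rw [e.sum_comp Q.c]; exact Q.sum_eq
  have hcD : ∑ k, Q.c (e k) * x * Q.c (e k) = Q.D x :=
    e.sum_comp (fun i => Q.c i * x * Q.c i)
  obtain ⟨col, hcol⟩ := exists_colouring (r := r) hr0 F
    (fun ξ k l => q (Q.c (e k) (x (Q.c (e l) (q ξ)))))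
  obtain ⟨p₀, hp₀⟩ : ∃ p₀ : Fin r → (H →L[ℂ] H), p₀ = fun i => ∑ k with col k = i, Q.c (e k) :=
    ⟨_, rfl⟩
  have hp₀A : ∀ i, p₀ i ∈ A := fun i => hp₀ ▸ sum_mem fun k _ => Q.mem _
  have hp₀p : ∀ i, IsStarProjection (p₀ i) := fun i => by
    rw [hp₀]
    exact isStarProjection_sum_orth _ _ (fun k _ => hcp k) (fun k _ l _ => hco k l)
  have hp₀o : ∀ i j, i ≠ j → p₀ i * p₀ j = 0 := by
    intro i j hij
    rw [hp₀]
    simp only [Finset.sum_mul, Finset.mul_sum]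
    refine Finset.sum_eq_zero fun k hk => Finset.sum_eq_zero fun l hl => ?_
    refine hco _ _ fun h => hij ?_
    rw [← (Finset.mem_filter.1 hk).2, ← (Finset.mem_filter.1 hl).2, h]
  have hp₀s : ∑ i, p₀ i = 1 := by
    rw [hp₀, Finset.sum_fiberwise]; exact hcs
  obtain ⟨E, hE⟩ : ∃ E : H →L[ℂ] H, E = expect A x := ⟨_, rfl⟩
  have hEA : E ∈ A := hE ▸ expect_mem hA hx
  obtain ⟨cr, hcr⟩ : ∃ cr : ℂ, cr = 1 - 1 / (r : ℂ) := ⟨_, rfl⟩
  obtain ⟨a, hadef⟩ : ∃ a : H →L[ℂ] H, a = f * (cr • E) := ⟨_, rfl⟩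
  have hfq : f * q = q := by
    have := congrArg star hqf
    rwa [star_mul, hfp.isSelfAdjoint.star_eq, hqp.isSelfAdjoint.star_eq] at this
  have haA : a ∈ A := hadef ▸ mul_mem hf (SMulMemClass.smul_mem _ hEA)
  have hasa : IsSelfAdjoint a := by
    have h1 : IsSelfAdjoint (cr • E) := by
      refine IsSelfAdjoint.smul ?_ (hE ▸ expect_isSelfAdjoint hxs)
      rw [hcr, IsSelfAdjoint, RCLike.star_def]
      simp
    rw [hadef]
    exact (IsSelfAdjoint.commute_iff hfp.isSelfAdjoint h1).mp (hA.comm _ hf _ (SMulMemClass.smul_mem _ hEA))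
  have hanorm : ‖a‖ ≤ ‖x‖ := by
    rw [hadef]
    refine le_trans (norm_mul_le _ _) ?_
    have h1 : ‖f‖ ≤ 1 := ContinuousLinearMap.opNorm_le_bound _ zero_le_one
      fun v => by simpa using proj_apply_norm_le hfp v
    have h2 : ‖cr‖ ≤ 1 := by
      have e1 : cr = ((1 - 1 / (r : ℝ) : ℝ) : ℂ) := by rw [hcr]; push_cast; ring
      rw [e1, Complex.norm_real, Real.norm_eq_abs, abs_le]
      have hr1 : (1 : ℝ) ≤ r := by exact_mod_cast Nat.one_le_iff_ne_zero.2 hr0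
      have h3 : 1 / (r : ℝ) ≤ 1 := by rw [div_le_one (by positivity)]; exact hr1
      have h4 : 0 ≤ 1 / (r : ℝ) := by positivity
      constructor <;> linarith
    calc ‖f‖ * ‖cr • E‖ ≤ 1 * ‖cr • E‖ := mul_le_mul_of_nonneg_right h1 (norm_nonneg _)
      _ = ‖cr‖ * ‖E‖ := by rw [one_mul, norm_smul]
      _ ≤ 1 * ‖x‖ := mul_le_mul h2 (hE ▸ expect_norm_le x) (norm_nonneg _) zero_le_one
      _ = ‖x‖ := one_mul _
  obtain ⟨S, hSdef⟩ : ∃ S : H →L[ℂ] H, S = pinching (fun i => f * p₀ i) x := ⟨_, rfl⟩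
  have hSM : S ∈ M := hSdef ▸ sum_mem fun i _ =>
    mul_mem (mul_mem (hA.le _ (mul_mem hf (hp₀A i))) hx) (hA.le _ (mul_mem hf (hp₀A i)))
  have hSsa : IsSelfAdjoint S := by
    rw [hSdef, IsSelfAdjoint, pinching, star_sum]
    refine Finset.sum_congr rfl fun i _ => ?_
    have : IsSelfAdjoint (f * p₀ i) :=
      ((hfp.mul (hp₀p i) (hA.comm _ hf _ (hp₀A i))).isSelfAdjoint)
    rw [star_mul (f * p₀ i * x), star_mul (f * p₀ i) x, this.star_eq, hxs.star_eq]
    simp only [mul_assoc]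
  obtain ⟨Z, hZdef⟩ : ∃ Z : H →L[ℂ] H, Z = q * (S - a - (1 / (r : ℂ)) • x) * q := ⟨_, rfl⟩
  have hZsa : IsSelfAdjoint Z := by
    rw [hZdef]
    have h1 : IsSelfAdjoint ((1 / (r : ℂ)) • x) := by
      refine IsSelfAdjoint.smul ?_ hxs
      rw [IsSelfAdjoint, RCLike.star_def]
      simp
    rw [IsSelfAdjoint, star_mul, star_mul, hqp.isSelfAdjoint.star_eq,
      ((hSsa.sub hasa).sub h1).star_eq, mul_assoc]
  have hZξ : ∀ ξ, Z ξ = q (fluct (fun k l => Q.c (e k) (x (Q.c (e l) (q ξ)))) col)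
      + cr • q ((Q.D x - E) (q ξ)) := by
    intro ξ
    have hS' : q (S (q ξ)) = q (pinching p₀ x (q ξ)) := by
      rw [hSdef]
      simp only [pinching, sum_apply, map_sum, mul_apply']
      refine Finset.sum_congr rfl fun i _ => ?_
      have e1 : ∀ v, q (f v) = q v := fun v => by rw [← mul_apply', hqf]
      have e2 : f (q ξ) = q ξ := by rw [← mul_apply', hfq]
      rw [e1]
      congr 3
      rw [← mul_apply' f (p₀ i), hA.comm _ hf _ (hp₀A i), mul_apply', e2]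
    have hdec := pinching_decomp (fun k => Q.c (e k)) hcs x col (q ξ)
    rw [hcD, ← hp₀] at hdec
    have ea : q (a (q ξ)) = cr • q (E (q ξ)) := by
      rw [hadef, mul_apply', ← mul_apply' q f, hqf, smul_apply, map_smul]
    rw [hZdef]
    simp only [mul_apply', sub_apply, map_sub, hS', ea, hdec, map_add, smul_apply, map_smul]
    rw [← hcr, smul_sub]
    abel
  have hZsmall : ∀ ξ ∈ F, ‖Z ξ‖ < θ * (δ / 2) := by
    intro ξ hξ
    have hqc : q (fluct (fun k l => Q.c (e k) (x (Q.c (e l) (q ξ)))) col)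
        = fluct (fun k l => q (Q.c (e k) (x (Q.c (e l) (q ξ))))) col := by
      simp only [fluct, map_sum]
      refine Finset.sum_congr rfl fun k _ => Finset.sum_congr rfl fun l _ => ?_
      split_ifs <;> simp only [map_zero, map_smul]
    have h1 : ‖fluct (fun k l => q (Q.c (e k) (x (Q.c (e l) (q ξ))))) col‖ ^ 2
        ≤ η ^ 2 * (2 * ‖x‖ ^ 2 * K) := by
      refine le_trans (hcol ξ hξ) ?_
      calc _ ≤ ∑ ζ ∈ F, 2 * (η ^ 2 * ‖x‖ ^ 2 * ‖ζ‖ ^ 2) := Finset.sum_le_sum fun ζ _ =>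
            mul_le_mul_of_nonneg_left (sum_sandwich_sq_le (fun k => Q.c (e k)) hcp hco hqp
              (fun i y => norm_sandwich_le Q hqp hQη (e i) y) x ζ) (by norm_num)
        _ = η ^ 2 * (2 * ‖x‖ ^ 2 * ∑ ζ ∈ F, ‖ζ‖ ^ 2) := by
            simp only [Finset.mul_sum]; exact Finset.sum_congr rfl fun ζ _ => by ring
        _ ≤ _ := by
            refine mul_le_mul_of_nonneg_left ?_ (by positivity)
            exact mul_le_mul_of_nonneg_left (by rw [hKdef]; linarith) (by positivity)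
    have h2 : ‖q ((Q.D x - E) (q ξ))‖ ^ 2 ≤ η ^ 2 * (4 * ‖x‖ ^ 2 * K + 1) := by
      refine le_trans (hE ▸ hQ ξ hξ) ?_
      have : ‖ξ‖ ^ 2 ≤ K := by
        rw [hKdef]
        linarith [Finset.single_le_sum (f := fun ζ : H => ‖ζ‖ ^ 2) (fun ζ _ => by positivity) hξ]
      nlinarith [mul_le_mul_of_nonneg_left this
        (show (0 : ℝ) ≤ 4 * ‖x‖ ^ 2 * η ^ 2 by positivity)]
    have hcrn : ‖cr‖ ≤ 1 := by
      have e1 : cr = ((1 - 1 / (r : ℝ) : ℝ) : ℂ) := by rw [hcr]; push_cast; ring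
      rw [e1, Complex.norm_real, Real.norm_eq_abs, abs_le]
      have hr1 : (1 : ℝ) ≤ r := by exact_mod_cast Nat.one_le_iff_ne_zero.2 hr0
      have h3 : 1 / (r : ℝ) ≤ 1 := by rw [div_le_one (by positivity)]; exact hr1
      have h4 : 0 ≤ 1 / (r : ℝ) := by positivity
      constructor <;> linarith
    have h3 : ‖Z ξ‖ ≤ ‖fluct (fun k l => q (Q.c (e k) (x (Q.c (e l) (q ξ))))) col‖
        + ‖q ((Q.D x - E) (q ξ))‖ := by
      rw [hZξ, hqc]
      refine le_trans (norm_add_le _ _) (add_le_add le_rfl ?_)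
      rw [norm_smul]
      exact le_trans (mul_le_mul_of_nonneg_right hcrn (norm_nonneg _)) (one_mul _).le
    have h4 : ‖Z ξ‖ ^ 2 ≤ η ^ 2 * C := by
      rw [hCdef]
      refine le_trans (pow_le_pow_left₀ (norm_nonneg _) h3 2) ?_
      nlinarith [sq_nonneg (‖fluct (fun k l => q (Q.c (e k) (x (Q.c (e l) (q ξ))))) col‖
        - ‖q ((Q.D x - E) (q ξ))‖)]
    have h5 : η * (C + 1) = θ * (δ / 2) := by rw [hηdef]; field_simp
    by_contra hcon
    push Not at hcon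
    have h6 : (η * (C + 1)) ^ 2 ≤ ‖Z ξ‖ ^ 2 := by
      rw [h5]; exact pow_le_pow_left₀ (by positivity) hcon 2
    nlinarith [pow_pos hη 2, sq_nonneg C, mul_pos (pow_pos hη 2) hC]
  obtain ⟨k, hkp, hkb, hkc, hkcomm, hkM, -⟩ := exists_cut hZsa hθ
  have hqZ : Commute Z q := by
    show Z * q = q * Z
    rw [hZdef, mul_assoc, hqp.isIdempotentElem.eq, ← mul_assoc q, ← mul_assoc q,
      hqp.isIdempotentElem.eq]
  have hkq : Commute k q := hkcomm q hqZ
  obtain ⟨q', hq'⟩ : ∃ q' : H →L[ℂ] H, q' = q * k := ⟨_, rfl⟩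
  have hZM : Z ∈ M := by
    rw [hZdef]
    exact mul_mem (mul_mem hqM (sub_mem (sub_mem hSM (hA.le _ haA)) (vn_smul_mem _ hx))) hqM
  have hq'p : IsStarProjection q' := hq' ▸ hqp.mul hkp hkq.symm
  refine ⟨fun i => f * p₀ i, fun i => mul_mem hf (hp₀A i),
    fun i => hfp.mul (hp₀p i) (hA.comm _ hf _ (hp₀A i)), ?_, ?_, a, haA, hasa, hanorm, ?_,
    q', hq' ▸ mul_mem hqM (hkM M hZM), hq'p, ?_, ?_, ?_⟩
  · intro i j hij
    calc f * p₀ i * (f * p₀ j) = f * (p₀ i * f) * p₀ j := by simp only [mul_assoc]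
      _ = f * f * (p₀ i * p₀ j) := by rw [← hA.comm _ hf _ (hp₀A i)]; simp only [mul_assoc]
      _ = 0 := by rw [hp₀o i j hij, mul_zero]
  · rw [← Finset.mul_sum, hp₀s, mul_one]
  · rw [hadef, ← mul_assoc, hfp.isIdempotentElem.eq]
  · rw [hq', ← hkq.eq, mul_assoc, hqf]
  · intro ξ hξ
    have e0 : (f - q') ξ = (f - q) ξ + q ((1 - k) ξ) := by
      rw [hq']; simp only [sub_apply, mul_apply', map_sub]
      show f ξ - q (k ξ) = f ξ - q ξ + (q ξ - q (k ξ))
      abel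
    rw [e0]
    refine lt_of_le_of_lt (norm_add_le _ _) ?_
    have h1 := hqF ξ hξ
    have h2 : ‖q ((1 - k) ξ)‖ < δ / 2 := by
      refine lt_of_le_of_lt (proj_apply_norm_le hqp _) ?_
      have h3 := hkc ξ
      have h4 := hZsmall ξ hξ
      by_contra hcon
      push Not at hcon
      nlinarith [mul_le_mul_of_nonneg_left hcon hθ.le]
    linarith
  · refine ContinuousLinearMap.opNorm_le_bound _
      (mul_nonneg (le_trans (by positivity) hr.le) (norm_nonneg _)) fun v => ?_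
    rw [← hSdef]
    have hsplit : (q' * (S - a) * q') v = k (Z (k (q v))) + (1 / (r : ℂ)) • q' (x (q' v)) := by
      have e1 : q' * (S - a) * q' = k * Z * (k * q) + (1 / (r : ℂ)) • (q' * x * q') := by
        have hqk : k * q = q * k := hkq.eq
        have e2 : k * Z * (k * q) = q' * (S - a - (1 / (r : ℂ)) • x) * q' := by
          rw [hZdef, show k * (q * (S - a - (1 / (r : ℂ)) • x) * q) * (k * q)
            = k * q * (S - a - (1 / (r : ℂ)) • x) * (q * (k * q)) by simp only [mul_assoc]]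
          rw [hqk, ← mul_assoc q q, hqp.isIdempotentElem.eq, ← hq']
        rw [e2, ← smul_mul_assoc, ← mul_smul_comm, ← add_mul, ← mul_add, sub_add_cancel]
      have := congrArg (fun T : H →L[ℂ] H => T v) e1
      simp only [mul_apply', add_apply, smul_apply] at this ⊢
      exact this
    rw [hsplit]
    refine le_trans (norm_add_le _ _) ?_
    have h1 : ‖k (Z (k (q v)))‖ ≤ θ * ‖v‖ :=
      le_trans (proj_apply_norm_le hkp _) (le_trans (hkb _) (mul_le_mul_of_nonneg_left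
        (le_trans (proj_apply_norm_le hkp _) (proj_apply_norm_le hqp _)) hθ.le))
    have h2 : ‖(1 / (r : ℂ)) • q' (x (q' v))‖ ≤ 1 / r * (‖x‖ * ‖v‖) := by
      rw [norm_smul, norm_div, norm_one, Complex.norm_natCast]
      exact mul_le_mul_of_nonneg_left (le_trans (proj_apply_norm_le hq'p _)
        (le_trans (x.le_opNorm _) (mul_le_mul_of_nonneg_left (proj_apply_norm_le hq'p _)
          (norm_nonneg _)))) (by positivity)
    rw [hθdef] at h1
    nlinarith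

end Vale.Agent.P078
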