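import Vale.Agent.P078.Paving

/-!
The vector functionals of the conditional expectation and their seminorms; suprema of orthogonal
families of projections; cyclic projections of a MASA.
-/

namespace Vale.Agent.P078

open scoped InnerProductSpace
open Filter Topology ContinuousLinearMap

variable {H : Type} [NormedAddCommGroup H] [InnerProductSpace ℂ H] [CompleteSpace H]
variable {M : VonNeumannAlgebra H} {A : StarSubalgebra ℂ (H →L[ℂ] H)}

theorem inner_D_star_mul (P : FPart A) (y z : H →L[ℂ] H) (u v : H) :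
    ⟪u, P.D (star y * z) v⟫_ℂ = ∑ i, ⟪y (P.c i u), z (P.c i v)⟫_ℂ := by
  rw [FPart.D_apply, inner_sum]
  refine Finset.sum_congr rfl fun i _ => ?_
  rw [← sa_inner (P.proj i).isSelfAdjoint, mul_apply', ContinuousLinearMap.star_eq_adjoint,
    ContinuousLinearMap.adjoint_inner_right]

theorem re_inner_D (P : FPart A) (y : H →L[ℂ] H) (u : H) :
    RCLike.re ⟪u, P.D (star y * y) u⟫_ℂ = ∑ i, ‖y (P.c i u)‖ ^ 2 := by
  rw [inner_D_star_mul, map_sum]
  exact Finset.sum_congr rfl fun i _ => inner_self_eq_norm_sq _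

theorem expect_cs (y z : H →L[ℂ] H) (u v : H) :
    ‖⟪u, expect A (star y * z) v⟫_ℂ‖ ^ 2
      ≤ RCLike.re ⟪u, expect A (star y * y) u⟫_ℂ * RCLike.re ⟪v, expect A (star z * z) v⟫_ℂ := by
  refine le_of_tendsto_of_tendsto ((tendsto_expect (A := A) (star y * z) u v).norm.pow 2)
    (((RCLike.continuous_re.tendsto _).comp (tendsto_expect (star y * y) u u)).mul
      ((RCLike.continuous_re.tendsto _).comp (tendsto_expect (star z * z) v v)))
    (Eventually.of_forall fun P => ?_)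
  simp only [Function.comp_apply]
  rw [inner_D_star_mul, re_inner_D, re_inner_D]
  calc _ ≤ (∑ i, ‖y (P.c i u)‖ * ‖z (P.c i v)‖) ^ 2 :=
        pow_le_pow_left₀ (norm_nonneg _) (le_trans (norm_sum_le _ _)
          (Finset.sum_le_sum fun i _ => norm_inner_le_norm _ _)) 2
    _ ≤ _ := Finset.sum_mul_sq_le_sq_mul_sq _ _ _

/-- The functional `⟨ξ, E(·) ξ⟩`. -/
noncomputable def phi (A : StarSubalgebra ℂ (H →L[ℂ] H)) (ξ : H) (x : H →L[ℂ] H) : ℂ :=
  ⟪ξ, expect A x ξ⟫_ℂ

/-- Its seminorm. -/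
noncomputable def semi (A : StarSubalgebra ℂ (H →L[ℂ] H)) (ξ : H) (y : H →L[ℂ] H) : ℝ :=
  Real.sqrt (RCLike.re (phi A ξ (star y * y)))

variable (ξ : H)

theorem phi_add (x y : H →L[ℂ] H) : phi A ξ (x + y) = phi A ξ x + phi A ξ y := by
  simp [phi, expect_add]

theorem phi_sub (x y : H →L[ℂ] H) : phi A ξ (x - y) = phi A ξ x - phi A ξ y := by
  simp [phi, expect_sub]

theorem phi_smul (c : ℂ) (x : H →L[ℂ] H) : phi A ξ (c • x) = c * phi A ξ x := by
  simp [phi, expect_smul]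

theorem phi_zero : phi A ξ (0 : H →L[ℂ] H) = 0 := by simp [phi, expect_zero]

theorem phi_sum {ι : Type*} (s : Finset ι) (f : ι → (H →L[ℂ] H)) :
    phi A ξ (∑ i ∈ s, f i) = ∑ i ∈ s, phi A ξ (f i) := by
  simp [phi, expect_sum, sum_apply]

theorem phi_norm_le (x : H →L[ℂ] H) : ‖phi A ξ x‖ ≤ ‖ξ‖ ^ 2 * ‖x‖ := by
  refine le_trans (norm_inner_le_norm _ _) ?_
  have h := le_trans ((expect A x).le_opNorm ξ)
    (mul_le_mul_of_nonneg_right (expect_norm_le x) (norm_nonneg _))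
  calc ‖ξ‖ * ‖expect A x ξ‖ ≤ ‖ξ‖ * (‖x‖ * ‖ξ‖) := mul_le_mul_of_nonneg_left h (norm_nonneg _)
    _ = _ := by ring

theorem semi_nonneg (y : H →L[ℂ] H) : 0 ≤ semi A ξ y := Real.sqrt_nonneg _

theorem semi_sq (y : H →L[ℂ] H) : semi A ξ y ^ 2 = RCLike.re (phi A ξ (star y * y)) :=
  Real.sq_sqrt (expect_inner_nonneg ξ)

theorem phi_cs (y z : H →L[ℂ] H) : ‖phi A ξ (star y * z)‖ ≤ semi A ξ y * semi A ξ z := by
  have h := expect_cs (A := A) y z ξ ξ
  simp only [semi, phi]
  rw [← Real.sqrt_mul (expect_inner_nonneg ξ)]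
  exact Real.le_sqrt_of_sq_le h

theorem phi_self_real (y : H →L[ℂ] H) :
    phi A ξ (star y * y) = ((semi A ξ y ^ 2 : ℝ) : ℂ) := by
  rw [semi_sq]
  refine Complex.ext (by simp) ?_
  rw [Complex.ofReal_im]
  have hc : starRingEnd ℂ (phi A ξ (star y * y)) = phi A ξ (star y * y) := by
    rw [phi, inner_conj_symm, sa_inner (expect_isSelfAdjoint (IsSelfAdjoint.star_mul_self y))]
  exact Complex.conj_eq_iff_im.1 hc

theorem semi_add_le (y z : H →L[ℂ] H) : semi A ξ (y + z) ≤ semi A ξ y + semi A ξ z := by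
  have hy := semi_nonneg (A := A) ξ y
  have hz := semi_nonneg (A := A) ξ z
  have h : semi A ξ (y + z) ^ 2 ≤ (semi A ξ y + semi A ξ z) ^ 2 := by
    rw [semi_sq, star_add, add_mul, mul_add, mul_add, phi_add, phi_add, phi_add, map_add, map_add,
      map_add, ← semi_sq, ← semi_sq]
    have h1 := le_trans (RCLike.re_le_norm _) (phi_cs (A := A) ξ y z)
    have h2 := le_trans (RCLike.re_le_norm _) (phi_cs (A := A) ξ z y)
    nlinarith
  exact (abs_le_of_sq_le_sq' h (add_nonneg hy hz)).2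

theorem semi_zero : semi A ξ (0 : H →L[ℂ] H) = 0 := by simp [semi, phi_zero]

theorem semi_smul (c : ℂ) (y : H →L[ℂ] H) : semi A ξ (c • y) = ‖c‖ * semi A ξ y := by
  have h : semi A ξ (c • y) ^ 2 = (‖c‖ * semi A ξ y) ^ 2 := by
    rw [semi_sq, star_smul, smul_mul_assoc, mul_smul_comm, smul_smul, phi_smul, phi_self_real,
      RCLike.star_def, Complex.conj_mul', mul_pow]
    norm_cast
  exact (sq_eq_sq₀ (semi_nonneg _ _) (mul_nonneg (norm_nonneg _) (semi_nonneg _ _))).1 h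

theorem semi_neg (y : H →L[ℂ] H) : semi A ξ (-y) = semi A ξ y := by
  simp [semi]

theorem semi_sub_le (y z : H →L[ℂ] H) : semi A ξ (y - z) ≤ semi A ξ y + semi A ξ z := by
  rw [sub_eq_add_neg]
  exact le_trans (semi_add_le ξ y (-z)) (by rw [semi_neg])

theorem semi_mul_left_le (a y : H →L[ℂ] H) : semi A ξ (a * y) ≤ ‖a‖ * semi A ξ y := by
  have h : semi A ξ (a * y) ^ 2 ≤ (‖a‖ * semi A ξ y) ^ 2 := by
    rw [mul_pow, semi_sq, semi_sq]
    refine le_of_tendsto_of_tendsto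
      ((RCLike.continuous_re.tendsto _).comp (tendsto_expect (A := A) (star (a * y) * (a * y)) ξ ξ))
      (((RCLike.continuous_re.tendsto _).comp (tendsto_expect (A := A) (star y * y) ξ ξ)).const_mul
        (‖a‖ ^ 2)) (Eventually.of_forall fun P => ?_)
    simp only [Function.comp_apply, re_inner_D, Finset.mul_sum]
    refine Finset.sum_le_sum fun i _ => ?_
    rw [← mul_pow]
    exact pow_le_pow_left₀ (norm_nonneg _) (a.le_opNorm _) 2
  exact (abs_le_of_sq_le_sq' h (mul_nonneg (norm_nonneg _) (semi_nonneg _ _))).2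

theorem phi_central (hA : IsMasa M A) {a x : H →L[ℂ] H} (ha : a ∈ A) (hx : x ∈ M) :
    phi A ξ (a * x) = phi A ξ (x * a) := by
  rw [phi, phi, expect_mul_left hA ha, expect_mul_right hA ha,
    hA.comm _ ha _ (expect_mem hA hx)]

theorem semi_mul_right_le (hA : IsMasa M A) {a y : H →L[ℂ] H} (ha : a ∈ A) (hy : y ∈ M) :
    semi A ξ (y * a) ≤ ‖a‖ * semi A ξ y := by
  obtain ⟨w, hw⟩ : ∃ w : H →L[ℂ] H, w = star a * a := ⟨_, rfl⟩
  have hwA : w ∈ A := hw ▸ mul_mem (star_mem ha) ha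
  have hws : IsSelfAdjoint w := hw ▸ IsSelfAdjoint.star_mul_self a
  obtain ⟨c, hc⟩ : ∃ c : H →L[ℂ] H, c = cfc (fun t : ℝ => Real.sqrt (‖a‖ ^ 2 - t)) w := ⟨_, rfl⟩
  have hcA : c ∈ A := hc ▸ masa_cfc_mem hA hwA _
  have hcs : IsSelfAdjoint c := hc ▸ cfc_predicate _ w
  have hcc : c * c = algebraMap ℝ (H →L[ℂ] H) (‖a‖ ^ 2) - w := by
    rw [hc, ← cfc_mul _ _ w, show algebraMap ℝ (H →L[ℂ] H) (‖a‖ ^ 2) - w
      = cfc (fun t : ℝ => ‖a‖ ^ 2 - t) w by
        rw [cfc_sub (fun _ => ‖a‖ ^ 2) (fun t => t) w, cfc_const _ w, cfc_id' ℝ w]]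
    refine cfc_congr fun t ht => Real.mul_self_sqrt ?_
    have h1 := norm_apply_le_norm_cfc (fun x : ℝ => x) w ht
    rw [cfc_id' ℝ w, hw, CStarRing.norm_star_mul_self, Real.norm_eq_abs] at h1
    nlinarith [le_abs_self t]
  have hYM : star y * y ∈ M := mul_mem (star_mem hy) hy
  have hE := expect_mem hA hYM
  have h0 : 0 ≤ RCLike.re ⟪c ξ, expect A (star y * y) (c ξ)⟫_ℂ := expect_inner_nonneg _
  have e1 : phi A ξ (star (y * a) * (y * a)) = ⟪ξ, (w * expect A (star y * y)) ξ⟫_ℂ := by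
    rw [phi, star_mul, show star a * star y * (y * a) = star a * ((star y * y) * a) by
      simp only [mul_assoc], expect_mul_left hA (star_mem ha), expect_mul_right hA ha, hw,
      ← hA.comm _ ha _ hE]
    simp only [mul_assoc]
  have e2 : ⟪c ξ, expect A (star y * y) (c ξ)⟫_ℂ
      = ((‖a‖ ^ 2 : ℝ) : ℂ) * phi A ξ (star y * y) - phi A ξ (star (y * a) * (y * a)) := by
    rw [sa_inner hcs, show c (expect A (star y * y) (c ξ)) = (c * (expect A (star y * y) * c)) ξ
      from rfl, ← hA.comm _ hcA _ hE, ← mul_assoc, hcc, e1,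
      sub_mul, sub_apply, inner_sub_right, Algebra.algebraMap_eq_smul_one, smul_mul_assoc, one_mul,
      smul_apply, inner_smul_right_eq_smul, phi]
    simp
  rw [e2, map_sub, RCLike.re_to_complex, Complex.re_ofReal_mul, RCLike.re_to_complex] at h0
  have h : semi A ξ (y * a) ^ 2 ≤ (‖a‖ * semi A ξ y) ^ 2 := by
    rw [mul_pow, semi_sq, semi_sq]
    simp only [RCLike.re_to_complex]
    linarith
  exact (abs_le_of_sq_le_sq' h (mul_nonneg (norm_nonneg _) (semi_nonneg _ _))).2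

/-- The supremum of an orthogonal set of projections. -/
theorem exists_sup_proj (S : Set (H →L[ℂ] H)) (hp : ∀ q ∈ S, IsStarProjection q)
    (ho : ∀ q ∈ S, ∀ q' ∈ S, q ≠ q' → q * q' = 0) :
    ∃ G : H →L[ℂ] H, IsStarProjection G ∧ (∀ q ∈ S, q * G = q) ∧
      (∀ N : VonNeumannAlgebra H, (∀ q ∈ S, q ∈ N) → G ∈ N) ∧
      (∀ z : H →L[ℂ] H, (∀ q ∈ S, Commute q z) → (∀ q ∈ S, Commute q (star z)) → Commute G z) ∧
      (∀ p : H →L[ℂ] H, (∀ q ∈ S, p * q = q) → p * G = G) ∧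
      ∀ F : Finset H, ∀ δ : ℝ, 0 < δ → ∃ s : Finset (H →L[ℂ] H), (∀ q ∈ s, q ∈ S) ∧
        (∑ q ∈ s, q) * G = ∑ q ∈ s, q ∧ IsStarProjection (∑ q ∈ s, q) ∧
        ∀ v ∈ F, ‖(G - ∑ q ∈ s, q) v‖ < δ := by
  classical
  obtain ⟨U₀, hU₀⟩ : ∃ U₀ : Submodule ℂ H, U₀ = ⨆ q : S, LinearMap.range (q.1.toLinearMap) :=
    ⟨_, rfl⟩
  have hcs : CompleteSpace U₀.topologicalClosure :=
    U₀.isClosed_topologicalClosure.completeSpace_coe
  obtain ⟨G, hG⟩ : ∃ G : H →L[ℂ] H, G = U₀.topologicalClosure.starProjection := ⟨_, rfl⟩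
  have hGp : IsStarProjection G := hG ▸ isStarProjection_starProjection
  have hmem : ∀ q ∈ S, ∀ v, q v ∈ U₀ := fun q hq v => hU₀ ▸
    (le_iSup (fun q : S => LinearMap.range (q.1.toLinearMap)) ⟨q, hq⟩) ⟨v, rfl⟩
  have hGq : ∀ q ∈ S, G * q = q := fun q hq => by
    ext v
    rw [mul_apply', hG, Submodule.starProjection_eq_self_iff]
    exact U₀.le_topologicalClosure (hmem q hq v)
  have hqG : ∀ q ∈ S, q * G = q := fun q hq => by
    have := congrArg star (hGq q hq)
    rwa [star_mul, hGp.isSelfAdjoint.star_eq, (hp q hq).isSelfAdjoint.star_eq] at this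
  have hinv : ∀ z : H →L[ℂ] H, (∀ q ∈ S, Commute q z) →
      ∀ v ∈ U₀.topologicalClosure, z v ∈ U₀.topologicalClosure := by
    intro z hz v hv
    refine map_mem_closure z.continuous hv fun u hu => ?_
    rw [SetLike.mem_coe, hU₀] at hu ⊢
    refine Submodule.iSup_induction _ (motive := fun u => z u ∈ ⨆ q : S,
      LinearMap.range (q.1.toLinearMap)) hu ?_ (by simp) (fun a b ha hb => by
        rw [map_add]; exact add_mem ha hb)
    rintro ⟨q, hq⟩ _ ⟨w, rfl⟩
    refine Submodule.mem_iSup_of_mem ⟨q, hq⟩ ⟨z w, ?_⟩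
    have := congrArg (fun T : H →L[ℂ] H => T w) (hz q hq).eq
    simpa using this
  refine ⟨G, hGp, hqG, ?_, ?_, ?_, ?_⟩
  · intro N hN
    rw [hG]
    refine proj_mem_vn _ fun z hz => hinv z fun q hq => ?_
    exact ((mem_vn_iff.1 (hN q hq)) z hz).symm
  · intro z hz hz'
    exact hG ▸ proj_comm_of_invariant _ (hinv z hz) (hinv _ hz')
  · intro p hpq
    ext v
    rw [mul_apply', hG]
    have hcl : IsClosed {u : H | p u = u} := isClosed_eq p.continuous continuous_id
    refine closure_minimal ?_ hcl (Submodule.starProjection_apply_mem U₀.topologicalClosure v)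
    intro u hu
    rw [SetLike.mem_coe, hU₀] at hu
    refine Submodule.iSup_induction _ (motive := fun u => p u = u) hu ?_ (map_zero p)
      (fun a b ha hb => by rw [map_add, ha, hb])
    rintro ⟨q, hq⟩ _ ⟨w, rfl⟩
    have := congrArg (fun T : H →L[ℂ] H => T w) (hpq q hq)
    simpa using this
  · intro F δ hδ
    have hproj : ∀ s : Finset (H →L[ℂ] H), (∀ q ∈ s, q ∈ S) → IsStarProjection (∑ q ∈ s, q) :=
      fun s hs => isStarProjection_sum_orth s id (fun q hq => hp q (hs q hq))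
        (fun q hq q' hq' h => ho q (hs q hq) q' (hs q' hq') h)
    have happ : ∀ v : H, ∃ (w : H) (s : Finset (H →L[ℂ] H)), (∀ q ∈ s, q ∈ S) ∧
        ‖G v - w‖ < δ ∧ ∀ t : Finset (H →L[ℂ] H), (∀ q ∈ t, q ∈ S) → s ⊆ t →
          (∑ q ∈ t, q) w = w := by
      intro v
      have hv : G v ∈ closure (U₀ : Set H) := by
        rw [← Submodule.topologicalClosure_coe, hG]
        exact Submodule.starProjection_apply_mem _ v
      obtain ⟨w, hw, hd⟩ := Metric.mem_closure_iff.1 hv δ hδ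
      rw [dist_eq_norm] at hd
      rw [SetLike.mem_coe, hU₀, Submodule.mem_iSup_iff_exists_finset] at hw
      obtain ⟨s, hs⟩ := hw
      refine ⟨w, s.image Subtype.val, fun q hq => ?_, hd, fun t ht hst => ?_⟩
      · obtain ⟨x, -, rfl⟩ := Finset.mem_image.1 hq
        exact x.2
      refine Submodule.iSup_induction _ (motive := fun u => (∑ q ∈ t, q) u = u) hs ?_
        (map_zero _) (fun a b ha hb => by rw [map_add, ha, hb])
      intro q u hu
      by_cases hqs : q ∈ s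
      · rw [iSup_pos hqs] at hu
        obtain ⟨x, rfl⟩ := hu
        have hqt : q.1 ∈ t := hst (Finset.mem_image_of_mem _ hqs)
        have e : (∑ q' ∈ t, q') * q.1 = q.1 := by
          rw [Finset.sum_mul, Finset.sum_eq_single q.1]
          · exact (hp q.1 q.2).isIdempotentElem.eq
          · exact fun q' hq' hne => ho q' (ht q' hq') q.1 q.2 hne
          · exact fun h => absurd hqt h
        have := congrArg (fun T : H →L[ℂ] H => T x) e
        simpa [mul_apply'] using this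
      · rw [iSup_neg hqs, Submodule.mem_bot] at hu
        rw [hu, map_zero]
    choose w s hs hw hfix using happ
    have hF : ∀ q ∈ F.biUnion s, q ∈ S := fun q hq => by
      obtain ⟨v, -, hv⟩ := Finset.mem_biUnion.1 hq
      exact hs v q hv
    obtain ⟨P, hP⟩ : ∃ P : H →L[ℂ] H, P = ∑ q ∈ F.biUnion s, q := ⟨_, rfl⟩
    have hPG : P * G = P := by
      rw [hP, Finset.sum_mul]
      exact Finset.sum_congr rfl fun q hq => hqG q (hF q hq)
    have hPp : IsStarProjection P := hP ▸ hproj _ hF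
    refine ⟨F.biUnion s, hF, hP ▸ hPG, hP ▸ hPp, fun v hv => ?_⟩
    rw [← hP]
    have hPw : P (w v) = w v := hP ▸ hfix v _ hF (Finset.subset_biUnion_of_mem s hv)
    have e : (G - P) v = (1 - P) (G v - w v) := by
      have h1 : P (G v) = P v := by rw [← mul_apply', hPG]
      simp only [sub_apply, map_sub, h1, hPw, one_apply_eq_self]
      abel
    rw [e]
    exact lt_of_le_of_lt (proj_apply_norm_le hPp.one_sub _) (hw v)

omit [CompleteSpace H] in
/-- Maximal orthogonal families inside a property. -/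
theorem exists_maximal_orth (Good : (H →L[ℂ] H) → Prop) :
    ∃ S : Set (H →L[ℂ] H), (∀ q ∈ S, Good q) ∧ (∀ q ∈ S, ∀ q' ∈ S, q ≠ q' → q * q' = 0) ∧
      ∀ q, Good q → (∀ q' ∈ S, q * q' = 0 ∧ q' * q = 0) → q ∈ S := by
  obtain ⟨S, -, hS⟩ := zorn_subset_nonempty
    {S : Set (H →L[ℂ] H) | (∀ q ∈ S, Good q) ∧ ∀ q ∈ S, ∀ q' ∈ S, q ≠ q' → q * q' = 0}
    (fun c hc hchain _ => ⟨⋃₀ c, ⟨fun q ⟨T, hT, hq⟩ => (hc hT).1 q hq,
      fun q ⟨T, hT, hq⟩ q' ⟨T', hT', hq'⟩ hne => by
        rcases hchain.total hT hT' with h | h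
        · exact (hc hT').2 q (h hq) q' hq' hne
        · exact (hc hT).2 q hq q' (h hq') hne⟩,
      fun T hT => Set.subset_sUnion_of_mem hT⟩) ∅ ⟨by simp, by simp⟩
  refine ⟨S, hS.prop.1, hS.prop.2, fun q hq hortho => ?_⟩
  have hin : insert q S ∈ {S : Set (H →L[ℂ] H) |
      (∀ q ∈ S, Good q) ∧ ∀ q ∈ S, ∀ q' ∈ S, q ≠ q' → q * q' = 0} := by
    refine ⟨fun x hx => hx.elim (fun h => h ▸ hq) (hS.prop.1 x), ?_⟩
    rintro x (rfl | hx) y (rfl | hy) hne
    · exact absurd rfl hne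
    · exact (hortho y hy).1
    · exact (hortho x hx).2
    · exact hS.prop.2 x hx y hy hne
  exact hS.le_of_ge hin (Set.subset_insert _ _) (Set.mem_insert _ _)

/-- The cyclic subspace of the commutant of `A`. -/
noncomputable def cycSub (A : StarSubalgebra ℂ (H →L[ℂ] H)) (ξ : H) : Submodule ℂ H :=
  ((Subalgebra.centralizer ℂ (A : Set (H →L[ℂ] H))).toSubmodule.map
    (ContinuousLinearMap.apply ℂ H ξ).toLinearMap).topologicalClosure

theorem exists_cyclic (hA : IsMasa M A) :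
    ∃ g ∈ A, IsStarProjection g ∧ g ξ = ξ ∧ (∀ a ∈ A, a ξ = 0 → a * g = 0) ∧
      ∀ f ∈ A, f ξ = ξ → f * g = g := by
  have : CompleteSpace (cycSub A ξ) :=
    (Submodule.isClosed_topologicalClosure _).completeSpace_coe
  have hinv : ∀ z : H →L[ℂ] H, (∀ a ∈ A, z * a = a * z) → ∀ v ∈ cycSub A ξ, z v ∈ cycSub A ξ := by
    intro z hz v hv
    refine map_mem_closure z.continuous hv ?_
    rintro _ ⟨w, hw, rfl⟩
    refine ⟨z * w, ?_, rfl⟩
    rw [SetLike.mem_coe, Subalgebra.mem_toSubmodule, Subalgebra.mem_centralizer_iff] at hw ⊢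
    intro a ha
    rw [← mul_assoc, ← hz a ha, mul_assoc, hw a ha, mul_assoc]
  have hext : ∀ b c : H →L[ℂ] H, (∀ w : H →L[ℂ] H, (∀ a ∈ A, a * w = w * a) → b (w ξ) = c (w ξ)) →
      ∀ v ∈ cycSub A ξ, b v = c v := by
    intro b c h v hv
    refine closure_minimal ?_ (isClosed_eq b.continuous c.continuous) hv
    rintro _ ⟨w, hw, rfl⟩
    rw [SetLike.mem_coe, Subalgebra.mem_toSubmodule, Subalgebra.mem_centralizer_iff] at hw
    exact h w hw
  have hgA : (cycSub A ξ).starProjection ∈ A := by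
    refine hA.mem_of_commute (proj_mem_vn _ fun z hz => hinv z fun a ha => ?_) fun a ha => ?_
    · exact (mem_vn_iff.1 (hA.le a ha)) z hz
    · exact (proj_comm_of_invariant _ (hinv a fun b hb => hA.comm a ha b hb)
        (hinv _ fun b hb => hA.comm _ (star_mem ha) b hb)).eq
  refine ⟨_, hgA, isStarProjection_starProjection, ?_, ?_, ?_⟩
  · rw [Submodule.starProjection_eq_self_iff]
    refine Submodule.le_topologicalClosure _ ⟨1, ?_, rfl⟩
    rw [SetLike.mem_coe, Subalgebra.mem_toSubmodule, Subalgebra.mem_centralizer_iff]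
    intro a _
    rw [one_mul, mul_one]
  · intro a ha haξ
    ext v
    rw [mul_apply']
    simpa using hext a 0 (fun w hw => by
      rw [← mul_apply', hw a ha, mul_apply', haξ]; simp) _ (Submodule.starProjection_apply_mem _ v)
  · intro f hf hfξ
    ext v
    rw [mul_apply']
    exact hext f 1 (fun w hw => by
      rw [← mul_apply', hw f hf, mul_apply', hfξ]; rfl) _ (Submodule.starProjection_apply_mem _ v)

end Vale.Agent.P078
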