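import Vale.Agent.P078.Central

/-!
Without normal centralised functionals the expectation kills projections near the identity, and
such projections admit small compressions.
-/

namespace Vale.Agent.P078

open scoped InnerProductSpace ComplexOrder
open Filter Topology ContinuousLinearMap

variable {H : Type} [NormedAddCommGroup H] [InnerProductSpace ℂ H] [CompleteSpace H]
variable {M : VonNeumannAlgebra H} {A : StarSubalgebra ℂ (H →L[ℂ] H)}

theorem normalCentral_sub {ψ : (H →L[ℂ] H) → ℂ} (hψ : IsNormalCentral M A ψ) {x y : H →L[ℂ] H}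
    (hx : x ∈ M) (hy : y ∈ M) : ψ (x - y) = ψ x - ψ y := by
  have h := hψ.map_add (x - y) (sub_mem hx hy) y hy
  rw [sub_add_cancel] at h
  rw [h]; ring

theorem normalCentral_zero {ψ : (H →L[ℂ] H) → ℂ} (hψ : IsNormalCentral M A ψ) :
    ψ 0 = 0 := by
  have h := hψ.map_smul 0 1 (one_mem M)
  simpa using h

theorem normalCentral_sum {ψ : (H →L[ℂ] H) → ℂ} (hψ : IsNormalCentral M A ψ) {ι : Type*}
    (s : Finset ι) (f : ι → (H →L[ℂ] H)) (hf : ∀ i ∈ s, f i ∈ M) :
    ψ (∑ i ∈ s, f i) = ∑ i ∈ s, ψ (f i) := by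
  classical
  induction s using Finset.induction_on with
  | empty => simp [normalCentral_zero hψ]
  | @insert a s ha ih =>
    rw [Finset.sum_insert ha, Finset.sum_insert ha,
      hψ.map_add _ (hf a (Finset.mem_insert_self _ _)) _
        (sum_mem fun i hi => hf i (Finset.mem_insert_of_mem hi)),
      ih fun i hi => hf i (Finset.mem_insert_of_mem hi)]

theorem normalCentral_below {ψ : (H →L[ℂ] H) → ℂ} (hψ : IsNormalCentral M A ψ)
    {g f : H →L[ℂ] H} (hgM : g ∈ M) (hfM : f ∈ M) (hg : IsStarProjection g)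
    (hf : IsStarProjection f) (hgf : g * f = g) (h0 : ψ f = 0) : ψ g = 0 := by
  have h1 := hψ.nonneg g hgM
  rw [hg.isSelfAdjoint.star_eq, hg.isIdempotentElem.eq] at h1
  have hd : IsStarProjection (f - g) := hg.sub_of_mul_eq_left hf hgf
  have h2 := hψ.nonneg (f - g) (sub_mem hfM hgM)
  rw [hd.isSelfAdjoint.star_eq, hd.isIdempotentElem.eq, normalCentral_sub hψ hfM hgM, h0,
    zero_sub, Left.nonneg_neg_iff] at h2
  exact le_antisymm h2 h1

theorem sum_orth_apply_fix {G q : H →L[ℂ] H} (hG : IsStarProjection G) (hq : IsStarProjection q)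
    (h : q * G = q) : G * q = q := by
  have := congrArg star h
  rwa [star_mul, hG.isSelfAdjoint.star_eq, hq.isSelfAdjoint.star_eq] at this

theorem exists_killed_cyclic (hA : IsMasa M A) {g : H →L[ℂ] H} (hgA : g ∈ A)
    (hgp : IsStarProjection g) {ξ : H} (hgξ : g ξ = ξ) (hsep : ∀ a ∈ A, a ξ = 0 → a * g = 0)
    (hno : ∀ ψ, IsNormalCentral M A ψ → ψ g = 0) (F : Finset H) {δ : ℝ} (hδ : 0 < δ) :
    ∃ q ∈ M, IsStarProjection q ∧ q * g = q ∧ expect A q = 0 ∧ ∀ v ∈ F, ‖(g - q) v‖ < δ := by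
  obtain ⟨S, hSg, hSo, hSmax⟩ := exists_maximal_orth
    (fun q : H →L[ℂ] H => q ∈ M ∧ IsStarProjection q ∧ q * g = q ∧ q ≠ 0 ∧ expect A q = 0)
  obtain ⟨G, hGp, hqG, hGM, -, hGle, hGapp⟩ :=
    exists_sup_proj S (fun q hq => (hSg q hq).2.1) hSo
  have hgG : g * G = G := hGle g fun q hq => sum_orth_apply_fix hgp (hSg q hq).2.1 (hSg q hq).2.2.1
  have hGg : G * g = G := by
    have := congrArg star hgG
    rwa [star_mul, hgp.isSelfAdjoint.star_eq, hGp.isSelfAdjoint.star_eq] at this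
  have hGeq : G = g := by
    by_contra hne
    obtain ⟨p, hp⟩ : ∃ p : H →L[ℂ] H, p = g - G := ⟨_, rfl⟩
    have hpp : IsStarProjection p := hp ▸ hGp.sub_of_mul_eq_left hgp hGg
    have hpM : p ∈ M := hp ▸ sub_mem (hA.le g hgA) (hGM M fun q hq => (hSg q hq).1)
    have hp0 : p ≠ 0 := fun h => hne (sub_eq_zero.1 (hp ▸ h)).symm
    by_cases hfaith : ∀ q ∈ M, IsStarProjection q → q ≠ 0 → p * q = q → phi A ξ q ≠ 0
    · obtain ⟨ψ, hψ, hψg⟩ := exists_normal_central hA ξ hgA hgp hgξ hpM hpp hp0 hfaith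
      exact hψg (hno ψ hψ)
    · push Not at hfaith
      obtain ⟨q, hqM, hq, hq0, hpq, hφ⟩ := hfaith
      have hqp : q * p = q := by
        have := congrArg star hpq
        rwa [star_mul, hq.isSelfAdjoint.star_eq, hpp.isSelfAdjoint.star_eq] at this
      have hqg : q * g = q := by
        have e : p * g = p := by rw [hp, sub_mul, hgp.isIdempotentElem.eq, hGg]
        rw [← hqp, mul_assoc, e]
      have hE : expect A q = 0 := by
        have hEξ : expect A q ξ = 0 := by
          have h := expect_cs (A := A) q q (expect A q ξ) ξ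
          have e : star q * q = q := by rw [hq.isSelfAdjoint.star_eq, hq.isIdempotentElem.eq]
          have hφ' : ⟪ξ, expect A q ξ⟫_ℂ = 0 := hφ
          rw [e, hφ'] at h
          simp only [map_zero, mul_zero] at h
          have h' := le_antisymm h (sq_nonneg _)
          simpa [sq_eq_zero_iff, inner_self_eq_zero] using h'
        have h1 := hsep (expect A q) (expect_mem hA hqM) hEξ
        rwa [← expect_mul_right hA hgA, hqg] at h1
      have horth : ∀ q' ∈ S, q * q' = 0 := by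
        intro q' hq'
        rw [← hqp, ← sum_orth_apply_fix hGp (hSg q' hq').2.1 (hqG q' hq'), mul_assoc,
          ← mul_assoc p, hp, sub_mul, hgG, hGp.isIdempotentElem.eq, sub_self, zero_mul, mul_zero]
      have hmem := hSmax q ⟨hqM, hq, hqg, hq0, hE⟩ fun q' hq' => ⟨horth q' hq', by
        have := congrArg star (horth q' hq')
        rwa [star_mul, hq.isSelfAdjoint.star_eq, (hSg q' hq').2.1.isSelfAdjoint.star_eq,
          star_zero] at this⟩
      have h2 := horth q hmem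
      rw [hq.isIdempotentElem.eq] at h2
      exact hq0 h2
  subst hGeq
  obtain ⟨s, hs, -, hsp, hd⟩ := hGapp F δ hδ
  refine ⟨∑ q ∈ s, q, sum_mem fun q hq => (hSg q (hs q hq)).1, hsp, ?_, ?_, hd⟩
  · rw [Finset.sum_mul]
    exact Finset.sum_congr rfl fun q hq => (hSg q (hs q hq)).2.2.1
  · rw [expect_sum]
    exact Finset.sum_eq_zero fun q hq => (hSg q (hs q hq)).2.2.2.2

theorem exists_killed (hA : IsMasa M A) (F : Finset H) :
    ∀ f ∈ A, IsStarProjection f → (∀ ψ, IsNormalCentral M A ψ → ψ f = 0) → ∀ δ : ℝ, 0 < δ →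
      ∃ q ∈ M, IsStarProjection q ∧ q * f = q ∧ expect A q = 0 ∧ ∀ v ∈ F, ‖(f - q) v‖ < δ := by
  classical
  induction F using Finset.induction_on with
  | empty => exact fun f _ _ _ δ _ => ⟨0, zero_mem M, .zero _, by simp, expect_zero, by simp⟩
  | @insert ξ F hξ ih =>
    intro f hfA hfp hno δ hδ
    obtain ⟨g, hgA, hgp, hgξ, hsep, hgle⟩ := exists_cyclic (f ξ) hA
    have hfg : f * g = g := hgle f hfA (by rw [← mul_apply', hfp.isIdempotentElem.eq])
    have hgf : g * f = g := by rw [hA.comm _ hgA _ hfA, hfg]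
    have hd : IsStarProjection (f - g) := hgp.sub_of_mul_eq_left hfp hgf
    have hno' : ∀ ψ, IsNormalCentral M A ψ → ψ (f - g) = 0 := fun ψ hψ => by
      rw [normalCentral_sub hψ (hA.le f hfA) (hA.le g hgA), hno ψ hψ,
        normalCentral_below hψ (hA.le g hgA) (hA.le f hfA) hgp hfp hgf (hno ψ hψ), sub_zero]
    obtain ⟨q₁, hq₁M, hq₁p, hq₁g, hq₁E, hq₁d⟩ := exists_killed_cyclic hA hgA hgp hgξ hsep
      (fun ψ hψ => normalCentral_below hψ (hA.le g hgA) (hA.le f hfA) hgp hfp hgf (hno ψ hψ))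
      (insert ξ F) (show (0 : ℝ) < δ / 2 by linarith)
    obtain ⟨q₂, hq₂M, hq₂p, hq₂f, hq₂E, hq₂d⟩ :=
      ih (f - g) (sub_mem hfA hgA) hd hno' (δ / 2) (by linarith)
    have hgfg : g * (f - g) = 0 := by rw [mul_sub, hgf, hgp.isIdempotentElem.eq, sub_self]
    have hfgg : (f - g) * g = 0 := by rw [sub_mul, hfg, hgp.isIdempotentElem.eq, sub_self]
    have h12 : q₁ * q₂ = 0 := by
      rw [← hq₁g, ← sum_orth_apply_fix hd hq₂p hq₂f, mul_assoc, ← mul_assoc g, hgfg, zero_mul,
        mul_zero]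
    refine ⟨q₁ + q₂, add_mem hq₁M hq₂M, hq₁p.add hq₂p h12, ?_, ?_, ?_⟩
    · rw [add_mul]
      have e1 : q₁ * f = q₁ := by rw [← hq₁g, mul_assoc, hgf]
      have e2 : q₂ * f = q₂ := by
        rw [← hq₂f, mul_assoc, sub_mul, hfp.isIdempotentElem.eq, hgf]
      rw [e1, e2]
    · rw [expect_add, hq₁E, hq₂E, add_zero]
    · intro v hv
      have e : (f - (q₁ + q₂)) v = (g - q₁) v + ((f - g) - q₂) v := by
        simp only [sub_apply, add_apply]; abel
      rw [e]
      refine lt_of_le_of_lt (norm_add_le _ _) ?_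
      have h1 := hq₁d v hv
      rcases Finset.mem_insert.1 hv with h | h
      · have h2 : (f - g) v = 0 := by
          subst h
          rw [sub_apply, sub_eq_zero, ← hgξ, ← mul_apply', hgf]
        have h3 : q₂ v = 0 := by rw [← hq₂f, mul_apply', h2, map_zero]
        rw [sub_apply (f - g) q₂, h2, h3, sub_zero, norm_zero, add_zero]
        linarith
      · have := hq₂d v h
        linarith

theorem smallCompression_of_null (hA : IsMasa M A) {f : H →L[ℂ] H} (hfA : f ∈ A)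
    (hfp : IsStarProjection f) (hno : ∀ ψ, IsNormalCentral M A ψ → ψ f = 0) :
    SmallCompression M A f := by
  classical
  intro F δ hδ η hη
  obtain ⟨q, hqM, hqp, hqf, hqE, hqd⟩ := exists_killed hA F f hfA hfp hno (δ / 2) (by linarith)
  have hη4 : (0 : ℝ) < η ^ 4 := by positivity
  have hev : ∀ᶠ P in pUltra A, ∀ v ∈ F, ‖⟪q v, P.D q (q v)⟫_ℂ‖ < (η ^ 4 * (δ / 2)) ^ 2 := by
    refine (eventually_all_finset F).2 fun v _ => ?_
    have h := (tendsto_expect (A := A) q (q v) (q v)).norm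
    rw [hqE] at h
    simp only [zero_apply, inner_zero_right, norm_zero] at h
    exact h.eventually (gt_mem_nhds (by positivity))
  obtain ⟨P, hP⟩ := hev.exists
  obtain ⟨T, hT⟩ : ∃ T : H →L[ℂ] H, T = q * P.D q * q := ⟨_, rfl⟩
  have hDs : IsSelfAdjoint (P.D q) := by
    rw [IsSelfAdjoint, ← FPart.D_star, hqp.isSelfAdjoint.star_eq]
  have hTs : IsSelfAdjoint T := by
    rw [hT, IsSelfAdjoint, star_mul, star_mul, hqp.isSelfAdjoint.star_eq, hDs.star_eq, mul_assoc]
  have hTM : T ∈ M := hT ▸ mul_mem (mul_mem hqM (P.D_mem hA hqM)) hqM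
  obtain ⟨k, hkp, hkb, hkc, hkcomm, hkM, -⟩ := exists_cut hTs hη4
  have hTq : Commute T q := by
    show T * q = q * T
    rw [hT, mul_assoc, hqp.isIdempotentElem.eq, ← mul_assoc q, ← mul_assoc q,
      hqp.isIdempotentElem.eq]
  have hkq : Commute k q := hkcomm q hTq
  have hinner : ∀ u : H, RCLike.re ⟪u, P.D q u⟫_ℂ = ∑ i, ‖q (P.c i u)‖ ^ 2 := by
    intro u
    rw [← re_inner_D, hqp.isSelfAdjoint.star_eq, hqp.isIdempotentElem.eq]
  have hDsq : ∀ u : H, ‖P.D q u‖ ^ 2 ≤ RCLike.re ⟪u, P.D q u⟫_ℂ := by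
    intro u
    rw [hinner, FPart.D_apply, norm_sq_sum_orth _ P.c (fun i _ => P.proj i)
      (fun i _ j _ => P.orth i j) (fun i => q (P.c i u))]
    exact Finset.sum_le_sum fun i _ =>
      pow_le_pow_left₀ (norm_nonneg _) (proj_apply_norm_le (P.proj i) _) 2
  have hp' : IsStarProjection (q * k) := hqp.mul hkp hkq.symm
  refine ⟨q * k, mul_mem hqM (hkM M hTM), hp', ?_, ⟨P, fun L => ?_⟩, fun v hv => ?_⟩
  · rw [← hkq.eq, mul_assoc, hqf]
  · refine ContinuousLinearMap.opNorm_le_bound _ hη.le fun v => ?_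
    obtain ⟨w, hw⟩ : ∃ w : H, w = q (k v) := ⟨_, rfl⟩
    have hqw : q w = w := by rw [hw, ← mul_apply', hqp.isIdempotentElem.eq]
    have hkw : k w = w := by
      rw [hw, ← mul_apply', hkq.eq, mul_apply', ← mul_apply' k k, hkp.isIdempotentElem.eq]
    show ‖P.c L (q (k v))‖ ≤ η * ‖v‖
    rw [← hw]
    have h1 : ∑ i, ‖q (P.c i w)‖ ^ 2 ≤ η ^ 4 * ‖w‖ ^ 2 := by
      rw [← hinner]
      have e : ⟪w, P.D q w⟫_ℂ = ⟪w, T (k w)⟫_ℂ := by
        rw [hkw, hT, mul_apply', mul_apply', hqw, ← sa_inner hqp.isSelfAdjoint, hqw]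
      rw [e]
      refine le_trans (RCLike.re_le_norm _) (le_trans (norm_inner_le_norm _ _) ?_)
      have h := hkb w
      rw [hkw] at h ⊢
      calc ‖w‖ * ‖T w‖ ≤ ‖w‖ * (η ^ 4 * ‖w‖) := mul_le_mul_of_nonneg_left h (norm_nonneg _)
        _ = _ := by ring
    have h2 : ‖q (P.c L w)‖ ≤ η ^ 2 * ‖w‖ := by
      have h := le_trans (Finset.single_le_sum (f := fun i => ‖q (P.c i w)‖ ^ 2)
        (fun i _ => by positivity) (Finset.mem_univ L)) h1
      rw [show η ^ 4 * ‖w‖ ^ 2 = (η ^ 2 * ‖w‖) ^ 2 by ring] at h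
      exact (abs_le_of_sq_le_sq' h (by positivity)).2
    have h3 : ‖P.c L w‖ ^ 2 ≤ (η * ‖w‖) ^ 2 := by
      have e : ((‖P.c L w‖ ^ 2 : ℝ) : ℂ) = ⟪w, q (P.c L w)⟫_ℂ := by
        rw [← inner_proj_eq_norm_sq (P.proj L)]
        conv_rhs => rw [← sa_inner hqp.isSelfAdjoint, hqw]
      have h4 := congrArg norm e
      rw [Complex.norm_real, Real.norm_eq_abs, abs_of_nonneg (sq_nonneg _)] at h4
      rw [h4]
      refine le_trans (norm_inner_le_norm _ _) ?_
      calc ‖w‖ * ‖q (P.c L w)‖ ≤ ‖w‖ * (η ^ 2 * ‖w‖) := mul_le_mul_of_nonneg_left h2 (norm_nonneg _)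
        _ = _ := by ring
    refine le_trans (abs_le_of_sq_le_sq' h3 (by positivity)).2 ?_
    exact mul_le_mul_of_nonneg_left (hw ▸ le_trans (proj_apply_norm_le hqp _)
      (proj_apply_norm_le hkp _)) hη.le
  · have h1 : ‖P.D q (q v)‖ < η ^ 4 * (δ / 2) := by
      have h := le_trans (hDsq (q v)) (RCLike.re_le_norm _)
      have h' := hP v hv
      by_contra hcon
      push Not at hcon
      have := pow_le_pow_left₀ (by positivity) hcon 2
      linarith
    have h2 : ‖T v‖ < η ^ 4 * (δ / 2) := by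
      rw [hT, mul_apply', mul_apply']
      exact lt_of_le_of_lt (proj_apply_norm_le hqp _) h1
    have h3 : ‖q ((1 - k) v)‖ < δ / 2 := by
      refine lt_of_le_of_lt (proj_apply_norm_le hqp _) ?_
      have h := hkc v
      by_contra hcon
      push Not at hcon
      nlinarith [mul_le_mul_of_nonneg_left hcon hη4.le]
    have e : (f - q * k) v = (f - q) v + q ((1 - k) v) := by
      simp only [sub_apply, mul_apply', map_sub, one_apply_eq_self]; abel
    rw [e]
    exact lt_of_le_of_lt (norm_add_le _ _) (by linarith [hqd v hv])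

theorem floor_lt (ε : ℝ) (hε : 0 < ε) : (1 : ℝ) / ((⌊1 / ε⌋₊ + 1 : ℕ) : ℝ) < ε := by
  rw [div_lt_iff₀ (by positivity)]
  have h := Nat.lt_floor_add_one (1 / ε)
  rw [div_lt_iff₀ hε] at h
  push_cast
  linarith

/-- Paving for MASAs without normal centralised functionals. -/
theorem allSoPavable_of_noNormalCentral (hA : IsMasa M A) (hno : NoNormalCentral M A)
    {ε : ℝ} (hε : 0 < ε) : AllSoPavable M A ε (⌊1 / ε⌋₊ + 1) := by
  intro x hx hxs F δ hδ
  have hS := smallCompression_of_null hA (one_mem A) (IsStarProjection.one _) hno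
  obtain ⟨p, hpA, hpp, hpo, hps, a, haA, has, han, -, q, hqM, hqp, -, hqd, hn⟩ :=
    pave_below hA (one_mem A) (IsStarProjection.one _) hS hx hxs (floor_lt ε hε)
      (Nat.succ_ne_zero _) F hδ
  exact ⟨p, ⟨hpA, hpp, hpo, hps⟩, a, haA, has, han, q, hqM, hqp, hqd, hn⟩

end Vale.Agent.P078
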